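import Vale.Agent.P121.MathlibUsed
import Vale.Agent.P121.Defs
import Vale.Agent.P121.DefsN

set_option linter.all false

section

section

open Set
open scoped RealInnerProductSpace

namespace Vale.Agent.P121

variable {E : Type*} [NormedAddCommGroup E] [InnerProductSpace ℝ E]

/-- the field `w / |w|^3`. -/
noncomputable def G (w : E) : E := (‖w‖ ^ 3)⁻¹ • w

theorem real_tangent (t s : ℝ) (ht : 0 < t) (hs : 0 < s) :
    s⁻¹ - (t ^ 2 - s ^ 2) * (2 * s ^ 3)⁻¹ ≤ t⁻¹ := by
  have h : t⁻¹ - (s⁻¹ - (t ^ 2 - s ^ 2) * (2 * s ^ 3)⁻¹)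
      = (t - s) ^ 2 * (t + 2 * s) * (2 * s ^ 3 * t)⁻¹ := by
    field_simp
    ring
  have h2 : 0 ≤ (t - s) ^ 2 * (t + 2 * s) * (2 * s ^ 3 * t)⁻¹ := by positivity
  linarith only [h, h2]

/-- tangent paraboloid inequality for the Coulomb kernel. -/
theorem inv_norm_tangent (w v : E) (hw : w ≠ 0) (hv : v ≠ 0) :
    ‖v‖⁻¹ - ⟪G v, w - v⟫ - ‖w - v‖ ^ 2 * (2 * ‖v‖ ^ 3)⁻¹ ≤ ‖w‖⁻¹ := by
  have hw' : 0 < ‖w‖ := norm_pos_iff.mpr hw
  have hv' : 0 < ‖v‖ := norm_pos_iff.mpr hv
  have h := real_tangent ‖w‖ ‖v‖ hw' hv'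
  have h1 : ‖w‖ ^ 2 = ‖v‖ ^ 2 + 2 * ⟪v, w - v⟫ + ‖w - v‖ ^ 2 := by
    have := norm_add_sq_real v (w - v)
    rw [add_sub_cancel] at this
    exact this
  have h2 : ⟪G v, w - v⟫ = (‖v‖ ^ 3)⁻¹ * ⟪v, w - v⟫ := by
    rw [G, real_inner_smul_left]
  rw [h2]
  rw [h1] at h
  have h3 : (2 * ‖v‖ ^ 3)⁻¹ = (‖v‖ ^ 3)⁻¹ / 2 := by
    rw [mul_inv]; ring
  rw [h3] at h ⊢
  linarith

/-- the real valued Coulomb energy of three points. -/
noncomputable def cR (x y z : E) : ℝ := ‖x - y‖⁻¹ + ‖x - z‖⁻¹ + ‖y - z‖⁻¹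

theorem G_neg (w : E) : G (-w) = - G w := by
  simp only [G, norm_neg, smul_neg]

theorem G_sub_comm (x y : E) : G (x - y) = - G (y - x) := by
  rw [← G_neg, neg_sub]

/-- Key inequality. -/
theorem key_ineq (x₀ y₀ z₀ x y : E) (a b c : ℝ)
    (hxy₀ : a ≤ ‖x₀ - y₀‖) (hxz₀ : b ≤ ‖x₀ - z₀‖) (hyz₀ : c ≤ ‖y₀ - z₀‖)
    (ha : 0 < a) (hb : 0 < b) (hc : 0 < c)
    (hxy : x ≠ y) (hxz : x ≠ z₀) (hyz : y ≠ z₀) (fx fy : E)
    (h1 : G (y₀ - x₀) + G (z₀ - x₀) = fx) (h2 : G (x₀ - y₀) + G (z₀ - y₀) = fy) :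
    cR x₀ y₀ z₀ + ⟪fx, x - x₀⟫ - (a ^ 3)⁻¹ * (‖x - x₀‖ ^ 2 + ‖y - y₀‖ ^ 2)
      - (2 * b ^ 3)⁻¹ * ‖x - x₀‖ ^ 2 - (2 * c ^ 3)⁻¹ * ‖y - y₀‖ ^ 2 + ⟪fy, y - y₀⟫
      ≤ cR x y z₀ := by
  have e1 := inv_norm_tangent (x - y) (x₀ - y₀) (sub_ne_zero.mpr hxy)
    (norm_pos_iff.mp (ha.trans_le hxy₀))
  have e2 := inv_norm_tangent (x - z₀) (x₀ - z₀) (sub_ne_zero.mpr hxz)
    (norm_pos_iff.mp (hb.trans_le hxz₀))
  have e3 := inv_norm_tangent (y - z₀) (y₀ - z₀) (sub_ne_zero.mpr hyz)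
    (norm_pos_iff.mp (hc.trans_le hyz₀))
  have r1 : x - y - (x₀ - y₀) = (x - x₀) - (y - y₀) := by abel
  have r2 : x - z₀ - (x₀ - z₀) = x - x₀ := by abel
  have r3 : y - z₀ - (y₀ - z₀) = y - y₀ := by abel
  rw [r1] at e1
  rw [r2] at e2
  rw [r3] at e3
  have n1 : ‖(x - x₀) - (y - y₀)‖ ^ 2 ≤ 2 * (‖x - x₀‖ ^ 2 + ‖y - y₀‖ ^ 2) := by
    have h1 := norm_sub_le (x - x₀) (y - y₀)
    have h0 := norm_nonneg ((x - x₀) - (y - y₀))
    nlinarith only [h1, h0, sq_nonneg (‖x - x₀‖ - ‖y - y₀‖)]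
  have m1 : ‖(x - x₀) - (y - y₀)‖ ^ 2 * (2 * ‖x₀ - y₀‖ ^ 3)⁻¹
      ≤ (a ^ 3)⁻¹ * (‖x - x₀‖ ^ 2 + ‖y - y₀‖ ^ 2) := by
    have h3 : (2 * ‖x₀ - y₀‖ ^ 3)⁻¹ ≤ (2 * a ^ 3)⁻¹ := by
      apply inv_anti₀ (by positivity)
      (clear * - ha hxy₀; gcongr)
    calc ‖(x - x₀) - (y - y₀)‖ ^ 2 * (2 * ‖x₀ - y₀‖ ^ 3)⁻¹
        ≤ (2 * (‖x - x₀‖ ^ 2 + ‖y - y₀‖ ^ 2)) * (2 * a ^ 3)⁻¹ := by
          apply mul_le_mul n1 h3 (by (clear * -; positivity)) (by (clear * -; positivity))
      _ = (a ^ 3)⁻¹ * (‖x - x₀‖ ^ 2 + ‖y - y₀‖ ^ 2) := by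
          rw [mul_inv]; ring
  have m2 : ‖x - x₀‖ ^ 2 * (2 * ‖x₀ - z₀‖ ^ 3)⁻¹ ≤ (2 * b ^ 3)⁻¹ * ‖x - x₀‖ ^ 2 := by
    rw [mul_comm]
    (clear * - hb hxz₀; gcongr)
  have m3 : ‖y - y₀‖ ^ 2 * (2 * ‖y₀ - z₀‖ ^ 3)⁻¹ ≤ (2 * c ^ 3)⁻¹ * ‖y - y₀‖ ^ 2 := by
    rw [mul_comm]
    (clear * - hc hyz₀; gcongr)
  have i1 : ⟪fx, x - x₀⟫ = - ⟪G (x₀ - y₀), x - x₀⟫ - ⟪G (x₀ - z₀), x - x₀⟫ := by
    rw [← h1, inner_add_left, G_sub_comm y₀ x₀, G_sub_comm z₀ x₀, inner_neg_left, inner_neg_left]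
    ring
  have i2 : ⟪fy, y - y₀⟫ = ⟪G (x₀ - y₀), y - y₀⟫ - ⟪G (y₀ - z₀), y - y₀⟫ := by
    rw [← h2, inner_add_left, G_sub_comm z₀ y₀, inner_neg_left]
    ring
  have i3 : ⟪G (x₀ - y₀), (x - x₀) - (y - y₀)⟫ = ⟪G (x₀ - y₀), x - x₀⟫ - ⟪G (x₀ - y₀), y - y₀⟫ := by
    rw [inner_sub_right]
  rw [i1, i2]
  rw [i3] at e1
  unfold cR
  linarith only [e1, e2, e3, m1, m2, m3]

end Vale.Agent.P121
end
end

section

section

open Set Filter Topology
open scoped RealInnerProductSpace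

namespace Vale.Agent.P121

variable {E : Type*} [NormedAddCommGroup E] [InnerProductSpace ℝ E]

/-- derivative of `G` at `v`. -/
noncomputable def DG (v : E) : E →L[ℝ] E :=
  (‖v‖ ^ 3)⁻¹ • ContinuousLinearMap.id ℝ E - (3 * (‖v‖ ^ 5)⁻¹) • (innerSL ℝ v).smulRight v

theorem DG_apply (v h : E) : DG v h = (‖v‖ ^ 3)⁻¹ • h - (3 * (‖v‖ ^ 5)⁻¹ * ⟪v, h⟫) • v := by
  simp [DG, smul_smul]

theorem hasStrictFDerivAt_G (v : E) (hv : v ≠ 0) : HasStrictFDerivAt (G : E → E) (DG v) v := by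
  have hv' : 0 < ‖v‖ := norm_pos_iff.mpr hv
  have h1 : HasStrictFDerivAt (fun x : E => ‖x‖ ^ 2) (2 • (innerSL ℝ v)) v :=
    hasStrictFDerivAt_norm_sq v
  have h2 : HasStrictDerivAt (fun t : ℝ => t ^ (-(3 / 2) : ℝ))
      ((-(3 / 2) : ℝ) * (‖v‖ ^ 2) ^ ((-(3 / 2) : ℝ) - 1)) (‖v‖ ^ 2) := by
    apply Real.hasStrictDerivAt_rpow_const
    left; positivity
  have h3 := h2.comp_hasStrictFDerivAt v h1
  have h4 := h3.smul (hasStrictFDerivAt_id v)
  have key : ∀ w : E, (‖w‖ ^ 2) ^ (-(3 / 2) : ℝ) = (‖w‖ ^ 3)⁻¹ := by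
    intro w
    rw [Real.rpow_neg (by (clear * -; positivity)), ← Real.rpow_natCast, ← Real.rpow_mul (norm_nonneg _)]
    norm_num
  have key2 : (‖v‖ ^ 2) ^ ((-(3 / 2) : ℝ) - 1) = (‖v‖ ^ 5)⁻¹ := by
    rw [show ((-(3 / 2) : ℝ) - 1) = -(5 / 2) by norm_num]
    rw [Real.rpow_neg (by positivity), ← Real.rpow_natCast, ← Real.rpow_mul (norm_nonneg _)]
    norm_num
  have e1 : (G : E → E) = fun w => ((fun t : ℝ => t ^ (-(3 / 2) : ℝ)) ∘ fun x : E => ‖x‖ ^ 2) w • id w := by
    funext w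
    simp only [G, Function.comp, id]
    rw [key]
  rw [e1]
  refine h4.congr_fderiv ?_
  ext h
  simp only [DG_apply]
  simp only [Function.comp, key, key2]
  simp
  rw [← sub_eq_add_neg]
  congr 2
  ring


/-- `M = DG e` for a unit vector `e`. -/
noncomputable def MM (e : E) : E →L[ℝ] E :=
  ContinuousLinearMap.id ℝ E - (3 : ℝ) • (innerSL ℝ e).smulRight e

theorem MM_apply (e h : E) : MM e h = h - (3 * ⟪e, h⟫) • e := by
  simp [MM, smul_smul]

theorem DG_smul_unit (e : E) (he : ‖e‖ = 1) (t : ℝ) (ht : t ≠ 0) :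
    DG (t • e) = (|t| ^ 3)⁻¹ • MM e := by
  ext h
  rw [DG_apply]
  simp only [_root_.smul_apply, MM_apply, norm_smul, he, mul_one, Real.norm_eq_abs,
    real_inner_smul_left, smul_smul, smul_sub]
  congr 2
  have h2 : t * t = |t| ^ 2 := by rw [sq_abs]; ring
  have h3 : |t| ≠ 0 := abs_ne_zero.mpr ht
  field_simp
  rw [pow_two t, h2]

theorem DG_unit (e : E) (he : ‖e‖ = 1) : DG e = MM e := by
  have := DG_smul_unit e he 1 one_ne_zero
  simpa using this

theorem DG_neg_unit (e : E) (he : ‖e‖ = 1) : DG (-e) = MM e := by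
  have := DG_smul_unit e he (-1) (by norm_num)
  simpa using this

theorem DG_neg_two (e : E) (he : ‖e‖ = 1) : DG ((-2 : ℝ) • e) = (1 / 8 : ℝ) • MM e := by
  have := DG_smul_unit e he (-2) (by norm_num)
  rw [this]
  congr 1
  norm_num [abs_of_pos]

end Vale.Agent.P121
end
end

section

section

open Set Filter Topology
open scoped RealInnerProductSpace

namespace Vale.Agent.P121

variable {E : Type*} [NormedAddCommGroup E] [InnerProductSpace ℝ E]

/-- first critical equation. -/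
noncomputable def eqA (x y z : E) : E := G (y - x) + G (z - x) + (4 : ℝ) • x

/-- second critical equation. -/
noncomputable def eqB (e x y z : E) : E :=
  G (x - y) + G (z - y) + (5 / 4 : ℝ) • e + (4 : ℝ) • (y - e)

/-- the map whose local inverse gives the contact set. -/
noncomputable def Phi (e : E) (p : E × E × E) : E × E × E :=
  (p.1, eqA p.1 p.2.1 p.2.2, eqB e p.1 p.2.1 p.2.2)

/-- its linearisation at `(0, e, -e)`. -/
noncomputable def LL (e : E) : E × E × E →L[ℝ] E × E × E :=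
  let π₁ : E × E × E →L[ℝ] E := ContinuousLinearMap.fst ℝ E (E × E)
  let π₂ : E × E × E →L[ℝ] E := (ContinuousLinearMap.fst ℝ E E).comp (ContinuousLinearMap.snd ℝ E (E × E))
  let π₃ : E × E × E →L[ℝ] E := (ContinuousLinearMap.snd ℝ E E).comp (ContinuousLinearMap.snd ℝ E (E × E))
  π₁.prod (((MM e).comp (π₂ - π₁) + (MM e).comp (π₃ - π₁) + (4 : ℝ) • π₁).prod
    ((MM e).comp (π₁ - π₂) + ((1 / 8 : ℝ) • MM e).comp (π₃ - π₂) + (4 : ℝ) • π₂))

theorem LL_apply (e : E) (p : E × E × E) :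
    LL e p = (p.1, MM e (p.2.1 - p.1) + MM e (p.2.2 - p.1) + (4 : ℝ) • p.1,
      MM e (p.1 - p.2.1) + (1 / 8 : ℝ) • MM e (p.2.2 - p.2.1) + (4 : ℝ) • p.2.1) := by
  simp only [LL]
  simp only [ContinuousLinearMap.comp_sub, one_div, ContinuousLinearMap.smul_comp, ContinuousLinearMap.prod_apply, ContinuousLinearMap.coe_fst', add_apply, sub_apply, ContinuousLinearMap.comp_apply, ContinuousLinearMap.coe_snd', smul_apply, map_sub, smul_sub]

theorem Phi_base (e : E) (he : ‖e‖ = 1) : Phi e (0, e, -e) = (0, 0, 0) := by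
  have h2 : (-e - e) = (-2 : ℝ) • e := by
    rw [neg_smul, two_smul]; abel
  have h3 : ‖(-2 : ℝ) • e‖ = 2 := by
    rw [norm_smul, he]; norm_num
  simp only [Phi, eqA, eqB, Prod.mk.injEq, true_and]
  constructor
  · simp [G, he]
  · rw [h2, zero_sub]
    simp only [G, norm_neg, he, smul_neg, h3, smul_smul, sub_self, smul_zero, add_zero]
    norm_num
    module

theorem hasStrictFDerivAt_Phi (e : E) (he : ‖e‖ = 1) :
    HasStrictFDerivAt (Phi e) (LL e) (0, e, -e) := by
  have he0 : e ≠ 0 := by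
    intro h; rw [h] at he; simp at he
  have h2 : (-e - e) = (-2 : ℝ) • e := by
    rw [neg_smul, two_smul]; abel
  have p1 : HasStrictFDerivAt (fun p : E × E × E => p.1) (ContinuousLinearMap.fst ℝ E (E × E))
      (0, e, -e) := hasStrictFDerivAt_fst
  have p23 : HasStrictFDerivAt (fun p : E × E × E => p.2) (ContinuousLinearMap.snd ℝ E (E × E))
      (0, e, -e) := hasStrictFDerivAt_snd
  have p2 : HasStrictFDerivAt (fun p : E × E × E => p.2.1)
      ((ContinuousLinearMap.fst ℝ E E).comp (ContinuousLinearMap.snd ℝ E (E × E))) (0, e, -e) :=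
    hasStrictFDerivAt_fst.comp (0, e, -e) p23
  have p3 : HasStrictFDerivAt (fun p : E × E × E => p.2.2)
      ((ContinuousLinearMap.snd ℝ E E).comp (ContinuousLinearMap.snd ℝ E (E × E))) (0, e, -e) :=
    hasStrictFDerivAt_snd.comp (0, e, -e) p23
  have g : ∀ (f : E × E × E → E) (f' : E × E × E →L[ℝ] E) (v : E) (T : E →L[ℝ] E),
      HasStrictFDerivAt f f' (0, e, -e) → f (0, e, -e) = v → v ≠ 0 → DG v = T →
      HasStrictFDerivAt (fun p => G (f p)) (T.comp f') (0, e, -e) := by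
    intro f f' v T hf hv hv0 hT
    have h := hasStrictFDerivAt_G v hv0
    rw [hT, ← hv] at h
    exact h.comp (0, e, -e) hf
  have hne : -e ≠ 0 := neg_ne_zero.mpr he0
  have a1 := g _ _ e (MM e) (p2.sub p1) (by simp) he0 (DG_unit e he)
  have a2 := g _ _ (-e) (MM e) (p3.sub p1) (by simp) hne (DG_neg_unit e he)
  have a3 := g _ _ (-e) (MM e) (p1.sub p2) (by simp) hne (DG_neg_unit e he)
  have a4 := g _ _ ((-2 : ℝ) • e) ((1 / 8 : ℝ) • MM e) (p3.sub p2) (by simpa only [Pi.sub_apply, neg_smul] using h2)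
    (smul_ne_zero (by norm_num) he0) (DG_neg_two e he)
  have b1 := (a1.add a2).add (p1.const_smul (4 : ℝ))
  have b2 := ((a3.add a4).add_const ((5 / 4 : ℝ) • e)).add ((p2.sub_const e).const_smul (4 : ℝ))
  exact p1.prodMk (b1.prodMk b2)

theorem inner_MM (e : E) (he : ‖e‖ = 1) (h : E) : ⟪e, MM e h⟫ = -2 * ⟪e, h⟫ := by
  rw [MM_apply, inner_sub_right, real_inner_smul_right, real_inner_self_eq_norm_sq, he]
  ring

theorem eq_zero_of_smul_eq (e : E) (he : ‖e‖ = 1) (h : E) (a b : ℝ) (h1 : a + 2 * b ≠ 0)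
    (h2 : a - b ≠ 0) (hh : a • h = b • MM e h) : h = 0 := by
  have t : ⟪e, h⟫ = 0 := by
    have := congrArg (fun v => ⟪e, v⟫) hh
    simp only [real_inner_smul_right, inner_MM e he] at this
    have h3 : (a + 2 * b) * ⟪e, h⟫ = 0 := by linarith only [this]
    exact (mul_eq_zero.mp h3).resolve_left h1
  rw [MM_apply, t] at hh
  have h4 : (a - b) • h = 0 := by
    rw [sub_smul, hh]
    simp
  exact (smul_eq_zero.mp h4).resolve_left h2

theorem MM_eq_zero (e : E) (he : ‖e‖ = 1) (h : E) (hh : MM e h = 0) : h = 0 :=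
  eq_zero_of_smul_eq e he h 0 1 (by norm_num) (by norm_num) (by simp [hh])

theorem LL_inj (e : E) (he : ‖e‖ = 1) : Function.Injective (LL e) := by
  rw [injective_iff_map_eq_zero]
  rintro ⟨ξ, η, ζ⟩ h
  rw [LL_apply] at h
  simp only [Prod.mk_eq_zero] at h
  obtain ⟨h1, h2, h3⟩ := h
  subst h1
  simp only [sub_zero, smul_zero, add_zero, zero_sub] at h2 h3
  have h4 : η + ζ = 0 := MM_eq_zero e he _ (by rw [map_add]; exact h2)
  have h5 : ζ = -η := by rw [← add_eq_zero_iff_eq_neg']; exact h4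
  subst h5
  have h6 : η = 0 := by
    apply eq_zero_of_smul_eq e he η 4 (5 / 4) (by norm_num) (by norm_num)
    simp only [map_neg, map_sub, smul_sub, smul_neg] at h3
    have h7 : (4 : ℝ) • η - (5 / 4 : ℝ) • MM e η
        = -(MM e) η + (-((1 / 8 : ℝ) • (MM e) η) - (1 / 8 : ℝ) • (MM e) η) + (4 : ℝ) • η := by
      module
    rw [← sub_eq_zero, h7, h3]
  subst h6
  simp

/-- no kernel vector with vanishing middle component. -/
theorem LL_Y (e : E) (he : ‖e‖ = 1) (ξ ζ w : E) (h : LL e (ξ, 0, ζ) = (w, 0, 0)) : ξ = 0 := by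
  rw [LL_apply] at h
  simp only [Prod.mk.injEq] at h
  obtain ⟨-, h2, h3⟩ := h
  simp only [sub_zero, smul_zero, add_zero, zero_sub] at h2 h3
  have h5 : (8 : ℝ) • ξ + ζ = 0 := by
    apply MM_eq_zero e he
    rw [map_add, map_smul]
    have : (8 : ℝ) • MM e ξ + MM e ζ = (8 : ℝ) • (MM e ξ + (1 / 8 : ℝ) • MM e ζ) := by module
    rw [this, h3, smul_zero]
  have h6 : ζ = -((8 : ℝ) • ξ) := by rw [← add_eq_zero_iff_eq_neg']; exact h5
  subst h6
  apply eq_zero_of_smul_eq e he ξ 4 10 (by norm_num) (by norm_num)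
  simp only [map_neg, map_sub, map_smul] at h2
  have h7 : (4 : ℝ) • ξ - (10 : ℝ) • MM e ξ
      = -(MM e) ξ + (-((8 : ℝ) • (MM e) ξ) - (MM e) ξ) + (4 : ℝ) • ξ := by
    module
  rw [← sub_eq_zero, h7, h2]

/-- no kernel vector with vanishing last component. -/
theorem LL_Z (e : E) (he : ‖e‖ = 1) (ξ η w : E) (h : LL e (ξ, η, 0) = (w, 0, 0)) : ξ = 0 := by
  rw [LL_apply] at h
  simp only [Prod.mk.injEq] at h
  obtain ⟨-, h2, h3⟩ := h
  simp only [zero_sub] at h2 h3
  have k2 := congrArg (fun v => ⟪e, v⟫) h2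
  have k3 := congrArg (fun v => ⟪e, v⟫) h3
  simp only [map_sub, map_neg, inner_add_right, inner_sub_right, inner_MM e he, inner_neg_right, real_inner_smul_right, inner_zero_right] at k2 k3
  have t : ⟪e, ξ⟫ = 0 := by linarith only [k2, k3]
  have s : ⟪e, η⟫ = 0 := by linarith
  simp only [map_sub, MM_apply, s, t, map_neg] at h2 h3
  have h8 : (19 : ℝ) • ξ = 0 := by
    have : (19 : ℝ) • ξ = (23 / 2 : ℝ) • ((η - (3 * 0 : ℝ) • e) - (ξ - (3 * 0 : ℝ) • e)
          + -(ξ - (3 * 0 : ℝ) • e) + (4 : ℝ) • ξ)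
        - (4 : ℝ) • ((ξ - (3 * 0 : ℝ) • e) - (η - (3 * 0 : ℝ) • e)
          + (1 / 8 : ℝ) • -(η - (3 * 0 : ℝ) • e) + (4 : ℝ) • η) := by module
    rw [this, h2, h3]
    simp
  exact (smul_eq_zero.mp h8).resolve_left (by norm_num)

/-- strict differentiability with injective derivative gives a local lower bound. -/
theorem exists_antilipschitz_near {F : Type*} [NormedAddCommGroup F] [NormedSpace ℝ F]
    [FiniteDimensional ℝ E] (f : E → F) (f' : E →L[ℝ] F) (a : E)
    (hf : HasStrictFDerivAt f f' a) (hinj : Function.Injective f') :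
    ∃ K > 0, ∃ s ∈ 𝓝 a, ∀ x ∈ s, ∀ y ∈ s, ‖x - y‖ ≤ K * ‖f x - f y‖ := by
  obtain ⟨K, hK, hKf⟩ := LinearMap.exists_antilipschitzWith (f' : E →ₗ[ℝ] F)
    (LinearMap.ker_eq_bot.mpr hinj)
  have hK' : (0 : ℝ) < K := hK
  obtain ⟨s, hs, hsf⟩ := hf.approximates_deriv_on_nhds (c := (2 * K)⁻¹) (Or.inr (by positivity))
  refine ⟨2 * K, by positivity, s, hs, ?_⟩
  intro x hx y hy
  have h1 := hsf x hx y hy
  have h2 : ‖x - y‖ ≤ K * ‖f' (x - y)‖ := by
    have := hKf.le_mul_dist x y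
    rw [dist_eq_norm, dist_eq_norm] at this
    simpa only [map_sub, ge_iff_le, ContinuousLinearMap.coe_coe] using this
  push_cast at h1
  have h3 : ‖f' (x - y)‖ ≤ ‖f x - f y‖ + (2 * (K : ℝ))⁻¹ * ‖x - y‖ := by
    have h4 : f' (x - y) = (f x - f y) - (f x - f y - f' (x - y)) := by abel
    rw [h4]
    refine (norm_sub_le _ _).trans ?_
    (clear * - h1; gcongr)
  have h5 : (K : ℝ) * ((2 * (K : ℝ))⁻¹ * ‖x - y‖) = ‖x - y‖ / 2 := by
    (clear * - hK; field_simp)
  have h6 : (K : ℝ) * ‖f' (x - y)‖ ≤ K * (‖f x - f y‖ + (2 * (K : ℝ))⁻¹ * ‖x - y‖) := by (clear * - h3 hK; gcongr)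
  rw [mul_add, h5] at h6
  linarith only [h2, h6]

/-- Local structure of the contact set. -/
theorem local_package [FiniteDimensional ℝ E] (e : E) (he : ‖e‖ = 1) (δ : ℝ) (hδ : 0 < δ) :
    ∃ (ε : ℝ) (Y Z : E → E) (K : ℝ), 0 < ε ∧ ε ≤ δ ∧ 0 < K ∧
      ContinuousOn Y (Metric.ball 0 ε) ∧ ContinuousOn Z (Metric.ball 0 ε) ∧
      (∀ x ∈ Metric.ball (0 : E) ε, ‖Y x - e‖ < δ ∧ ‖Z x + e‖ < δ ∧
        eqA x (Y x) (Z x) = 0 ∧ eqB e x (Y x) (Z x) = 0 ∧
        |cR x (Y x) (Z x) - cR 0 e (-e)| < δ) ∧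
      (∀ x ∈ Metric.ball (0 : E) ε, ∀ x' ∈ Metric.ball (0 : E) ε,
        ‖x - x'‖ ≤ K * ‖Y x - Y x'‖ ∧ ‖x - x'‖ ≤ K * ‖Z x - Z x'‖) := by
  classical
  have he0 : e ≠ 0 := by
    intro h; rw [h] at he; simp at he
  let L' : (E × E × E) ≃L[ℝ] (E × E × E) :=
    (LinearEquiv.ofInjectiveEndo (LL e : E × E × E →ₗ[ℝ] E × E × E) (LL_inj e he)).toContinuousLinearEquiv
  have hL' : (L' : E × E × E →L[ℝ] E × E × E) = LL e := by
    ext x <;> rfl
  have hL'' : ∀ v, L' v = LL e v := fun v => by rw [← hL']; rfl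
  have hΦ : HasStrictFDerivAt (Phi e) (L' : E × E × E →L[ℝ] E × E × E) (0, e, -e) := by
    rw [hL']; exact hasStrictFDerivAt_Phi e he
  set Ψ := hΦ.localInverse with hΨdef
  have hΨ : HasStrictFDerivAt Ψ (L'.symm : E × E × E →L[ℝ] E × E × E) (0, 0, 0) := by
    have := hΦ.to_localInverse
    rwa [Phi_base e he] at this
  have hΨ0 : Ψ (0, 0, 0) = (0, e, -e) := by
    have := hΦ.localInverse_apply_image
    rwa [Phi_base e he] at this
  have hright : ∀ᶠ p in 𝓝 ((0, 0, 0) : E × E × E), Phi e (Ψ p) = p := by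
    have := hΦ.eventually_right_inverse
    rwa [Phi_base e he] at this
  -- the maps
  let ι : E →L[ℝ] E × E × E := ContinuousLinearMap.inl ℝ E (E × E)
  have hι : ∀ x, ι x = (x, 0, 0) := fun x => rfl
  let π₂ : E × E × E →L[ℝ] E :=
    (ContinuousLinearMap.fst ℝ E E).comp (ContinuousLinearMap.snd ℝ E (E × E))
  let π₃ : E × E × E →L[ℝ] E :=
    (ContinuousLinearMap.snd ℝ E E).comp (ContinuousLinearMap.snd ℝ E (E × E))
  let Y : E → E := fun x => (Ψ (x, 0, 0)).2.1
  let Z : E → E := fun x => (Ψ (x, 0, 0)).2.2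
  have hιd : HasStrictFDerivAt (fun x => (x, 0, 0) : E → E × E × E) ι 0 :=
    ι.hasStrictFDerivAt
  have hc : HasStrictFDerivAt (fun x => Ψ (x, 0, 0))
      ((L'.symm : E × E × E →L[ℝ] E × E × E).comp ι) 0 :=
    HasStrictFDerivAt.comp (0 : E) (g := Ψ) (f := fun x => ((x, 0, 0) : E × E × E)) hΨ hιd
  have hY : HasStrictFDerivAt Y (π₂.comp ((L'.symm : E × E × E →L[ℝ] E × E × E).comp ι)) 0 :=
    π₂.hasStrictFDerivAt.comp 0 hc
  have hZ : HasStrictFDerivAt Z (π₃.comp ((L'.symm : E × E × E →L[ℝ] E × E × E).comp ι)) 0 :=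
    π₃.hasStrictFDerivAt.comp 0 hc
  have key : ∀ ξ : E, LL e (L'.symm (ι ξ)) = (ξ, 0, 0) := by
    intro ξ
    rw [← hL'', ContinuousLinearEquiv.apply_symm_apply, hι]
  have hfst : ∀ ξ : E, (L'.symm (ι ξ)).1 = ξ := by
    intro ξ
    have := key ξ
    rw [LL_apply] at this
    exact congrArg Prod.fst this
  have hYinj : Function.Injective
      (π₂.comp ((L'.symm : E × E × E →L[ℝ] E × E × E).comp ι)) := by
    rw [injective_iff_map_eq_zero]
    intro ξ hξ
    have h1 : (L'.symm (ι ξ)).2.1 = 0 := hξ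
    have h2 : L'.symm (ι ξ) = (ξ, 0, (L'.symm (ι ξ)).2.2) :=
      Prod.ext (hfst ξ) (Prod.ext h1 rfl)
    have h3 := key ξ
    rw [h2] at h3
    exact LL_Y e he _ _ _ h3
  have hZinj : Function.Injective
      (π₃.comp ((L'.symm : E × E × E →L[ℝ] E × E × E).comp ι)) := by
    rw [injective_iff_map_eq_zero]
    intro ξ hξ
    have h1 : (L'.symm (ι ξ)).2.2 = 0 := hξ
    have h2 : L'.symm (ι ξ) = (ξ, (L'.symm (ι ξ)).2.1, 0) :=
      Prod.ext (hfst ξ) (Prod.ext rfl h1)
    have h3 := key ξ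
    rw [h2] at h3
    exact LL_Z e he _ _ _ h3
  obtain ⟨K₁, hK₁, s₁, hs₁, h₁⟩ := exists_antilipschitz_near Y _ 0 hY hYinj
  obtain ⟨K₂, hK₂, s₂, hs₂, h₂⟩ := exists_antilipschitz_near Z _ 0 hZ hZinj
  obtain ⟨K₃, s₃, hs₃, h₃⟩ := hY.exists_lipschitzOnWith
  obtain ⟨K₄, s₄, hs₄, h₄⟩ := hZ.exists_lipschitzOnWith
  have hY0 : Y 0 = e := by show (Ψ (0, 0, 0)).2.1 = e; rw [hΨ0]
  have hZ0 : Z 0 = -e := by show (Ψ (0, 0, 0)).2.2 = -e; rw [hΨ0]
  have hYc : ContinuousAt Y 0 := hY.continuousAt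
  have hZc : ContinuousAt Z 0 := hZ.continuousAt
  have t1 : ∀ᶠ x in 𝓝 (0 : E), ‖Y x - e‖ < δ := by
    have : ContinuousAt (fun x => ‖Y x - e‖) 0 := (hYc.sub continuousAt_const).norm
    refine this.eventually_lt continuousAt_const ?_
    simp [hY0, hδ]
  have t2 : ∀ᶠ x in 𝓝 (0 : E), ‖Z x + e‖ < δ := by
    have : ContinuousAt (fun x => ‖Z x + e‖) 0 := (hZc.add continuousAt_const).norm
    refine this.eventually_lt continuousAt_const ?_
    simp [hZ0, hδ]
  have t3 : ∀ᶠ x in 𝓝 (0 : E), Phi e (Ψ (x, 0, 0)) = (x, 0, 0) := by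
    have hcont : ContinuousAt (fun x : E => ((x, 0, 0) : E × E × E)) 0 := hιd.continuousAt
    exact hcont.eventually hright
  have t4 : ∀ᶠ x in 𝓝 (0 : E), |cR x (Y x) (Z x) - cR 0 e (-e)| < δ := by
    have hcx : ContinuousAt (fun x : E => x) 0 := continuousAt_id
    have : ContinuousAt (fun x => |cR x (Y x) (Z x) - cR 0 e (-e)|) 0 := by
      refine ContinuousAt.abs (ContinuousAt.sub ?_ continuousAt_const)
      unfold cR
      refine ((ContinuousAt.inv₀ (hcx.sub hYc).norm ?_).add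
        (ContinuousAt.inv₀ (hcx.sub hZc).norm ?_)).add
        (ContinuousAt.inv₀ (hYc.sub hZc).norm ?_)
      · simp [hY0, he0]
      · simp [hZ0, he0]
      · simp only [hY0, hZ0, sub_neg_eq_add, ne_eq, norm_eq_zero]
        rw [← two_smul ℝ]
        simp [he0]
    refine this.eventually_lt continuousAt_const ?_
    simp [hY0, hZ0, hδ]
  have hall : ∀ᶠ x in 𝓝 (0 : E), x ∈ s₁ ∧ x ∈ s₂ ∧ x ∈ s₃ ∧ x ∈ s₄ ∧ ‖Y x - e‖ < δ ∧
      ‖Z x + e‖ < δ ∧ Phi e (Ψ (x, 0, 0)) = (x, 0, 0) ∧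
      |cR x (Y x) (Z x) - cR 0 e (-e)| < δ := by
    filter_upwards [hs₁, hs₂, hs₃, hs₄, t1, t2, t3, t4] with x a b c d e f g h
    exact ⟨a, b, c, d, e, f, g, h⟩
  obtain ⟨ε, hε, hball⟩ := Metric.eventually_nhds_iff_ball.mp hall
  have hsub : Metric.ball (0 : E) (min ε δ) ⊆ Metric.ball 0 ε :=
    Metric.ball_subset_ball (min_le_left _ _)
  refine ⟨min ε δ, Y, Z, max K₁ K₂, lt_min hε hδ, min_le_right _ _, lt_max_of_lt_left hK₁, ?_, ?_, ?_, ?_⟩
  · exact h₃.continuousOn.mono fun x hx => (hball x (hsub hx)).2.2.1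
  · exact h₄.continuousOn.mono fun x hx => (hball x (hsub hx)).2.2.2.1
  · intro x hx
    obtain ⟨-, -, -, -, a1, a2, a3, a4⟩ := hball x (hsub hx)
    simp only [Phi, Prod.mk.injEq] at a3
    obtain ⟨b1, b2, b3⟩ := a3
    rw [b1] at b2 b3
    exact ⟨a1, a2, b2, b3, a4⟩
  · intro x hx x' hx'
    obtain ⟨a1, a2, -⟩ := hball x (hsub hx)
    obtain ⟨b1, b2, -⟩ := hball x' (hsub hx')
    constructor
    · refine (h₁ x a1 x' b1).trans ?_
      gcongr
      exact le_max_left _ _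
    · refine (h₂ x a2 x' b2).trans ?_
      gcongr
      exact le_max_right _ _

end Vale.Agent.P121
end
end

section

section

open Set Filter Topology
open scoped RealInnerProductSpace

namespace Vale.Agent.P121

variable {E : Type*} [NormedAddCommGroup E] [InnerProductSpace ℝ E]

/-- the potential near `0`. -/
noncomputable def UA (x : E) : ℝ := 3 / 2 - 2 * ‖x‖ ^ 2

/-- the potential near `e`. -/
noncomputable def UB (e y : E) : ℝ := 1 / 2 - 5 / 4 * ⟪e, y - e⟫ - 2 * ‖y - e‖ ^ 2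

structure LocalPack (e : E) (ε : ℝ) (Y Z : E → E) : Prop where
  pos : 0 < ε
  le : ε ≤ 1 / 100
  hY : ∀ x ∈ Metric.ball (0 : E) ε, ‖Y x - e‖ < 1 / 100
  hZ : ∀ x ∈ Metric.ball (0 : E) ε, ‖Z x + e‖ < 1 / 100
  hA : ∀ x ∈ Metric.ball (0 : E) ε, eqA x (Y x) (Z x) = 0
  hB : ∀ x ∈ Metric.ball (0 : E) ε, eqB e x (Y x) (Z x) = 0
  hc : ∀ x ∈ Metric.ball (0 : E) ε, |cR x (Y x) (Z x) - 5 / 2| < 1 / 100

theorem cR_base (e : E) (he : ‖e‖ = 1) : cR 0 e (-e) = 5 / 2 := by
  have h2 : ‖e - -e‖ = 2 := by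
    rw [sub_neg_eq_add, ← two_smul ℝ, norm_smul, he]; norm_num
  unfold cR
  rw [h2]
  simp only [zero_sub, norm_neg, he, inv_one, sub_neg_eq_add, zero_add]
  norm_num

theorem cR_swap12 (x y z : E) : cR x y z = cR y x z := by
  unfold cR; rw [norm_sub_rev x y]; ring

theorem cR_swap23 (x y z : E) : cR x y z = cR x z y := by
  unfold cR; rw [norm_sub_rev y z]; ring

theorem cR_isometry (R : E ≃ₗᵢ[ℝ] E) (x y z : E) : cR (R x) (R y) (R z) = cR x y z := by
  unfold cR
  rw [← map_sub, ← map_sub, ← map_sub]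
  simp only [LinearIsometryEquiv.norm_map]

theorem UA_isometry (R : E ≃ₗᵢ[ℝ] E) (x : E) : UA (R x) = UA x := by
  simp [UA]

/-- the value of the third potential at `Z x`. -/
noncomputable def UC (e : E) (Y Z : E → E) (x : E) : ℝ := cR x (Y x) (Z x) - UA x - UB e (Y x)

variable {e : E} {ε : ℝ} {Y Z : E → E}

theorem quad_A (x x₀ : E) : UA x = UA x₀ + ⟪-(4 : ℝ) • x₀, x - x₀⟫ - 2 * ‖x - x₀‖ ^ 2 := by
  unfold UA
  have h : ‖x‖ ^ 2 = ‖x₀‖ ^ 2 + 2 * ⟪x₀, x - x₀⟫ + ‖x - x₀‖ ^ 2 := by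
    have := norm_add_sq_real x₀ (x - x₀)
    rw [add_sub_cancel] at this
    exact this
  rw [h, real_inner_smul_left]
  ring

theorem quad_B (e y y₀ : E) : UB e y = UB e y₀ + ⟪-(5 / 4 : ℝ) • e - (4 : ℝ) • (y₀ - e), y - y₀⟫
    - 2 * ‖y - y₀‖ ^ 2 := by
  unfold UB
  have h : ‖y - e‖ ^ 2 = ‖y₀ - e‖ ^ 2 + 2 * ⟪y₀ - e, y - y₀⟫ + ‖y - y₀‖ ^ 2 := by
    have := norm_add_sq_real (y₀ - e) (y - y₀)
    rw [show y₀ - e + (y - y₀) = y - e by abel] at this
    exact this
  have h2 : ⟪e, y - e⟫ = ⟪e, y₀ - e⟫ + ⟪e, y - y₀⟫ := by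
    rw [← inner_add_right]; congr 1; abel
  have h3 : ⟪-(5 / 4 : ℝ) • e - (4 : ℝ) • (y₀ - e), y - y₀⟫
      = -(5 / 4) * ⟪e, y - y₀⟫ - 4 * ⟪y₀ - e, y - y₀⟫ := by
    rw [inner_sub_left, real_inner_smul_left, real_inner_smul_left]
  rw [h, h2, h3]
  ring

theorem special (he : ‖e‖ = 1) (hp : LocalPack e ε Y Z) {r : E} (hr : r ∈ Metric.ball (0 : E) ε)
    (x y : E) (hxy : x ≠ y) (hxz : x ≠ Z r) (hyz : y ≠ Z r) :
    UA x + UB e y + UC e Y Z r + 2 / 5 * (‖x - r‖ ^ 2 + ‖y - Y r‖ ^ 2) ≤ cR x y (Z r) := by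
  have hr' : ‖r‖ < 1 / 100 := lt_of_lt_of_le (by simpa using hr) hp.le
  have hY := hp.hY r hr
  have hZ := hp.hZ r hr
  have n1 : (98 / 100 : ℝ) ≤ ‖r - Y r‖ := by
    have h1 : ‖e‖ ≤ ‖r - Y r‖ + ‖r‖ + ‖Y r - e‖ := by
      have : e = -(r - Y r) + r - (Y r - e) + 0 := by abel
      calc ‖e‖ = ‖-(r - Y r) + r - (Y r - e)‖ := by congr 1; abel
        _ ≤ ‖-(r - Y r) + r‖ + ‖Y r - e‖ := norm_sub_le _ _
        _ ≤ ‖-(r - Y r)‖ + ‖r‖ + ‖Y r - e‖ := by gcongr; exact norm_add_le _ _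
        _ = _ := by rw [norm_neg]
    rw [he] at h1
    linarith only [hr', hY, h1]
  have n2 : (98 / 100 : ℝ) ≤ ‖r - Z r‖ := by
    have h1 : ‖e‖ ≤ ‖r - Z r‖ + ‖r‖ + ‖Z r + e‖ := by
      calc ‖e‖ = ‖(r - Z r) - r + (Z r + e)‖ := by congr 1; abel
        _ ≤ ‖(r - Z r) - r‖ + ‖Z r + e‖ := norm_add_le _ _
        _ ≤ ‖r - Z r‖ + ‖r‖ + ‖Z r + e‖ := by gcongr; exact norm_sub_le _ _
    rw [he] at h1
    linarith only [hr', hZ, h1]
  have n3 : (198 / 100 : ℝ) ≤ ‖Y r - Z r‖ := by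
    have h0 : ‖(2 : ℝ) • e‖ = 2 := by rw [norm_smul, he]; norm_num
    have h1 : ‖(2 : ℝ) • e‖ ≤ ‖Y r - Z r‖ + ‖Y r - e‖ + ‖Z r + e‖ := by
      calc ‖(2 : ℝ) • e‖ = ‖(Y r - Z r) - (Y r - e) + (Z r + e)‖ := by
            congr 1; rw [two_smul]; abel
        _ ≤ ‖(Y r - Z r) - (Y r - e)‖ + ‖Z r + e‖ := norm_add_le _ _
        _ ≤ ‖Y r - Z r‖ + ‖Y r - e‖ + ‖Z r + e‖ := by gcongr; exact norm_sub_le _ _
    rw [h0] at h1
    linarith only [hY, hZ, h1]
  have hA := hp.hA r hr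
  have hB := hp.hB r hr
  have hfx : G (Y r - r) + G (Z r - r) = -(4 : ℝ) • r := by
    unfold eqA at hA
    rw [neg_smul]
    exact eq_neg_of_add_eq_zero_left hA
  have hfy : G (r - Y r) + G (Z r - Y r) = -(5 / 4 : ℝ) • e - (4 : ℝ) • (Y r - e) := by
    unfold eqB at hB
    rw [add_assoc] at hB
    rw [eq_neg_of_add_eq_zero_left hB, neg_add, neg_smul]
    abel
  have key := key_ineq r (Y r) (Z r) x y (98 / 100) (98 / 100) (198 / 100) n1 n2 n3
    (by (clear * -; norm_num)) (by norm_num) (by norm_num) hxy hxz hyz _ _ hfx hfy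
  have qA := quad_A x r
  have qB := quad_B e y (Y r)
  have e1 : 0 ≤ ‖x - r‖ ^ 2 := by (clear * -; positivity)
  have e2 : 0 ≤ ‖y - Y r‖ ^ 2 := by (clear * -; positivity)
  have c1 : ((98 / 100 : ℝ) ^ 3)⁻¹ ≤ 1.0625 := by norm_num
  have c2 : (2 * (98 / 100 : ℝ) ^ 3)⁻¹ ≤ 0.5313 := by norm_num
  have c3 : (2 * (198 / 100 : ℝ) ^ 3)⁻¹ ≤ 0.0645 := by norm_num
  have d1 : ((98 / 100 : ℝ) ^ 3)⁻¹ * (‖x - r‖ ^ 2 + ‖y - Y r‖ ^ 2)
      ≤ 1.0625 * (‖x - r‖ ^ 2 + ‖y - Y r‖ ^ 2) := by (clear * - c1; gcongr)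
  have d2 : (2 * (98 / 100 : ℝ) ^ 3)⁻¹ * ‖x - r‖ ^ 2 ≤ 0.5313 * ‖x - r‖ ^ 2 := by (clear * - c2; gcongr)
  have d3 : (2 * (198 / 100 : ℝ) ^ 3)⁻¹ * ‖y - Y r‖ ^ 2 ≤ 0.0645 * ‖y - Y r‖ ^ 2 := by (clear * - c3; gcongr)
  unfold UC
  linarith only [key, qA, qB, e1, e2]

/-! ### the five clusters -/

/-- the five parametrised clusters. -/
noncomputable def P (R : E ≃ₗᵢ[ℝ] E) (Y Z : E → E) : Fin 5 → E → E :=
  ![fun x => x, Y, Z, fun x => R (Y (R x)), fun x => R (Z (R x))]

/-- the potential on the five clusters. -/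
noncomputable def pot (e : E) (R : E ≃ₗᵢ[ℝ] E) (Y Z : E → E) : Fin 5 → E → ℝ :=
  ![UA, fun x => UB e (Y x), UC e Y Z, fun x => UB e (Y (R x)), fun x => UC e Y Z (R x)]

/-- the centres of the clusters. -/
def site (e₁ e₂ : E) : Fin 5 → E := ![0, e₁, -e₁, e₂, -e₂]

/-- upper bounds for mutual distances of centres (in units of 1/10000). -/
def dTab : Fin 5 → Fin 5 → ℕ :=
  ![![0, 10000, 10000, 10000, 10000],
    ![10000, 0, 20000, 14143, 14143],
    ![10000, 20000, 0, 14143, 14143],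
    ![10000, 14143, 14143, 0, 20000],
    ![10000, 14143, 14143, 20000, 0]]

/-- lower bounds for the mutual interaction (in units of 1/1000). -/
def lTab : Fin 5 → Fin 5 → ℕ :=
  ![![50000, 980, 980, 980, 980],
    ![980, 50000, 495, 697, 697],
    ![980, 495, 50000, 697, 697],
    ![980, 697, 697, 50000, 495],
    ![980, 697, 697, 495, 50000]]

/-- upper bounds for the potentials (in units of 1/1000). -/
def uTab : Fin 5 → ℕ := ![1500, 530, 530, 530, 530]

theorem tab_ineq : ∀ i j : Fin 5, lTab i j * (dTab i j + 200) ≤ 10000 * 1000 := by decide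

/-- special triples. -/
def isSpec (i j k : Fin 5) : Bool :=
  (i == 0 && j == 1 && k == 2) || (i == 0 && j == 2 && k == 1) || (i == 1 && j == 0 && k == 2) ||
  (i == 1 && j == 2 && k == 0) || (i == 2 && j == 0 && k == 1) || (i == 2 && j == 1 && k == 0) ||
  (i == 0 && j == 3 && k == 4) || (i == 0 && j == 4 && k == 3) || (i == 3 && j == 0 && k == 4) ||
  (i == 3 && j == 4 && k == 0) || (i == 4 && j == 0 && k == 3) || (i == 4 && j == 3 && k == 0)

theorem tab_nonspecial : ∀ i j k : Fin 5, isSpec i j k = false →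
    uTab i + uTab j + uTab k < lTab i j + lTab i k + lTab j k := by decide

theorem site_dist {e₁ e₂ : E} (h1 : ‖e₁‖ = 1) (h2 : ‖e₂‖ = 1) (h12 : ⟪e₁, e₂⟫ = 0) (i j : Fin 5) :
    ‖site e₁ e₂ i - site e₁ e₂ j‖ ≤ (dTab i j : ℝ) / 10000 := by
  have k1 : ‖e₁ - e₂‖ ≤ 1.4143 := by
    have := norm_sub_sq_real e₁ e₂
    rw [h1, h2, h12] at this
    have h0 := norm_nonneg (e₁ - e₂)
    nlinarith only [this]
  have k2 : ‖e₁ + e₂‖ ≤ 1.4143 := by
    have := norm_add_sq_real e₁ e₂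
    rw [h1, h2, h12] at this
    have h0 := norm_nonneg (e₁ + e₂)
    nlinarith only [this]
  have k3 : ‖e₂ - e₁‖ ≤ 1.4143 := by rw [norm_sub_rev]; exact k1
  have k4 : ‖e₂ + e₁‖ ≤ 1.4143 := by rw [add_comm]; exact k2
  have k5 : ‖-e₁ - e₂‖ ≤ 1.4143 := by rw [← neg_add', norm_neg]; exact k2
  have k6 : ‖-e₂ - e₁‖ ≤ 1.4143 := by rw [← neg_add', norm_neg]; exact k4
  have k7 : ‖-e₁ + e₂‖ ≤ 1.4143 := by rw [neg_add_eq_sub]; exact k3
  have k8 : ‖-e₂ + e₁‖ ≤ 1.4143 := by rw [neg_add_eq_sub]; exact k1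
  have k9 : ‖e₁ + e₁‖ = 2 := by rw [← two_smul ℝ, norm_smul, h1]; norm_num
  have k10 : ‖e₂ + e₂‖ = 2 := by rw [← two_smul ℝ, norm_smul, h2]; norm_num
  have k11 : ‖-e₁ - e₁‖ = 2 := by rw [← neg_add', norm_neg]; exact k9
  have k12 : ‖-e₂ - e₂‖ = 2 := by rw [← neg_add', norm_neg]; exact k10
  fin_cases i <;> fin_cases j <;> simp [site, dTab, h1, h2, k9, k10, k11, k12] <;>
    norm_num <;> exact (le_trans (by assumption) (by norm_num))

variable {e₁ e₂ : E} {R : E ≃ₗᵢ[ℝ] E}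

theorem R_mem_ball {s : E} (hs : s ∈ Metric.ball (0 : E) ε) : R s ∈ Metric.ball (0 : E) ε := by
  simpa only [Metric.mem_ball, dist_zero_right, norm_map] using hs

theorem near (hp : LocalPack e₁ ε Y Z) (hR : R e₁ = e₂) (i : Fin 5) {s : E}
    (hs : s ∈ Metric.ball (0 : E) ε) : ‖P R Y Z i s - site e₁ e₂ i‖ ≤ 1 / 100 := by
  have hs' : ‖s‖ < 1 / 100 := lt_of_lt_of_le (by simpa using hs) hp.le
  have hRs := R_mem_ball (R := R) hs
  have a1 := (hp.hY s hs).le
  have a2 := (hp.hZ s hs).le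
  have a3 : ‖R (Y (R s)) - e₂‖ ≤ 1 / 100 := by
    rw [← hR, ← map_sub, LinearIsometryEquiv.norm_map]; exact (hp.hY _ hRs).le
  have a4 : ‖R (Z (R s)) + e₂‖ ≤ 1 / 100 := by
    rw [← hR, ← map_add, LinearIsometryEquiv.norm_map]; exact (hp.hZ _ hRs).le
  fin_cases i
  · simpa only [P, Fin.zero_eta, Fin.isValue, Matrix.cons_val', Matrix.cons_val_fin_one, Matrix.cons_val_zero,     site, sub_zero, one_div, ge_iff_le] using hs'.le
  · simpa only [P, Fin.mk_one, Fin.isValue, Matrix.cons_val', Matrix.cons_val_fin_one, Matrix.cons_val_one,     Matrix.cons_val_zero, site, one_div, ge_iff_le] using a1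
  · simpa only [P, Fin.reduceFinMk, Matrix.cons_val', Matrix.cons_val_fin_one, Fin.isValue, Matrix.cons_val,     Matrix.cons_val_one, Matrix.cons_val_zero, site, sub_neg_eq_add, one_div, ge_iff_le] using a2
  · simpa only [P, Fin.reduceFinMk, Matrix.cons_val', Matrix.cons_val_fin_one, Fin.isValue, Matrix.cons_val,     Matrix.cons_val_one, Matrix.cons_val_zero, site, one_div, ge_iff_le] using a3
  · simpa only [P, Fin.reduceFinMk, Matrix.cons_val', Matrix.cons_val_fin_one, Fin.isValue, Matrix.cons_val,     Matrix.cons_val_one, site, sub_neg_eq_add, one_div, ge_iff_le] using a4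

theorem inter (hp : LocalPack e₁ ε Y Z) (hR : R e₁ = e₂) (h1 : ‖e₁‖ = 1) (h2 : ‖e₂‖ = 1)
    (h12 : ⟪e₁, e₂⟫ = 0) (i j : Fin 5) {s t : E}
    (hs : s ∈ Metric.ball (0 : E) ε) (ht : t ∈ Metric.ball (0 : E) ε)
    (hne : P R Y Z i s ≠ P R Y Z j t) :
    (lTab i j : ℝ) / 1000 ≤ ‖P R Y Z i s - P R Y Z j t‖⁻¹ := by
  have n1 := near hp hR i hs
  have n2 := near hp hR j ht
  have n3 := site_dist h1 h2 h12 i j
  have hpos : 0 < ‖P R Y Z i s - P R Y Z j t‖ := norm_pos_iff.mpr (sub_ne_zero.mpr hne)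
  have h4 : ‖P R Y Z i s - P R Y Z j t‖ ≤ ((dTab i j : ℝ) + 200) / 10000 := by
    have h5 : ‖P R Y Z i s - P R Y Z j t‖ ≤ ‖P R Y Z i s - site e₁ e₂ i‖
        + ‖site e₁ e₂ i - site e₁ e₂ j‖ + ‖P R Y Z j t - site e₁ e₂ j‖ := by
      calc ‖P R Y Z i s - P R Y Z j t‖ = ‖(P R Y Z i s - site e₁ e₂ i)
            + (site e₁ e₂ i - site e₁ e₂ j) - (P R Y Z j t - site e₁ e₂ j)‖ := by
              congr 1; abel
        _ ≤ ‖(P R Y Z i s - site e₁ e₂ i) + (site e₁ e₂ i - site e₁ e₂ j)‖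
            + ‖P R Y Z j t - site e₁ e₂ j‖ := norm_sub_le _ _
        _ ≤ _ := by gcongr; exact norm_add_le _ _
    linarith
  have h6 : (lTab i j : ℝ) * ((dTab i j : ℝ) + 200) ≤ 10000 * 1000 := by
    exact_mod_cast tab_ineq i j
  rw [le_inv_comm₀ _ hpos] <;> [skip; skip]
  · refine h4.trans ?_
    rw [inv_div, div_le_div_iff₀ (by norm_num) ?_]
    · linarith only [h6]
    · have : ∀ i j : Fin 5, 0 < lTab i j := by decide
      exact_mod_cast this i j
  · have : ∀ i j : Fin 5, 0 < lTab i j := by decide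
    have h7 : (0 : ℝ) < lTab i j := by exact_mod_cast this i j
    (clear * - h7; positivity)

theorem UA_bounds {s : E} (hs : ‖s‖ < 1 / 100) : 1.4998 ≤ UA s ∧ UA s ≤ 1.5 := by
  unfold UA
  have h0 := norm_nonneg s
  constructor
  · nlinarith
  · nlinarith only []

theorem UB_bounds {y : E} (he : ‖e‖ = 1) (hy : ‖y - e‖ < 1 / 100) :
    0.487 ≤ UB e y ∧ UB e y ≤ 0.5125 := by
  unfold UB
  have h0 := norm_nonneg (y - e)
  have h1 := abs_real_inner_le_norm e (y - e)
  rw [he, one_mul] at h1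
  have h2 := abs_le.mp (h1.trans hy.le)
  constructor
  · nlinarith
  · nlinarith only [h2]

theorem UC_bounds (he : ‖e‖ = 1) (hp : LocalPack e ε Y Z) {s : E}
    (hs : s ∈ Metric.ball (0 : E) ε) : 0.47 ≤ UC e Y Z s ∧ UC e Y Z s ≤ 0.53 := by
  have hs' : ‖s‖ < 1 / 100 := lt_of_lt_of_le (by simpa using hs) hp.le
  have h1 := UA_bounds hs'
  have h2 := UB_bounds he (hp.hY s hs)
  have h3 := abs_lt.mp (hp.hc s hs)
  unfold UC
  constructor <;> linarith only [h1, h2, h3]

theorem pot_bounds (hp : LocalPack e₁ ε Y Z) (h1 : ‖e₁‖ = 1) (i : Fin 5) {s : E}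
    (hs : s ∈ Metric.ball (0 : E) ε) :
    0 ≤ pot e₁ R Y Z i s ∧ pot e₁ R Y Z i s ≤ (uTab i : ℝ) / 1000 := by
  have hs' : ‖s‖ < 1 / 100 := lt_of_lt_of_le (by simpa using hs) hp.le
  have hRs := R_mem_ball (R := R) hs
  have a0 := UA_bounds hs'
  have a1 := UB_bounds h1 (hp.hY s hs)
  have a2 := UC_bounds h1 hp hs
  have a3 := UB_bounds h1 (hp.hY _ hRs)
  have a4 := UC_bounds h1 hp hRs
  fin_cases i
  · show 0 ≤ UA s ∧ UA s ≤ ((1500 : ℕ) : ℝ) / 1000
    constructor
    · linarith only [a0]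
    · refine a0.2.trans ?_; norm_num
  · show 0 ≤ UB e₁ (Y s) ∧ UB e₁ (Y s) ≤ ((530 : ℕ) : ℝ) / 1000
    constructor
    · linarith only [a1]
    · refine a1.2.trans ?_; norm_num
  · show 0 ≤ UC e₁ Y Z s ∧ UC e₁ Y Z s ≤ ((530 : ℕ) : ℝ) / 1000
    constructor
    · linarith only [a2]
    · refine a2.2.trans ?_; norm_num
  · show 0 ≤ UB e₁ (Y (R s)) ∧ UB e₁ (Y (R s)) ≤ ((530 : ℕ) : ℝ) / 1000
    constructor
    · linarith only [a3]
    · refine a3.2.trans ?_; norm_num
  · show 0 ≤ UC e₁ Y Z (R s) ∧ UC e₁ Y Z (R s) ≤ ((530 : ℕ) : ℝ) / 1000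
    constructor
    · linarith only [a4]
    · refine a4.2.trans ?_; norm_num


theorem spec012 (he : ‖e‖ = 1) (hp : LocalPack e ε Y Z) {s t r : E}
    (hr : r ∈ Metric.ball (0 : E) ε) (a1 : s ≠ Y t) (a2 : s ≠ Z r) (a3 : Y t ≠ Z r) :
    UA s + UB e (Y t) + UC e Y Z r ≤ cR s (Y t) (Z r) ∧
    (UA s + UB e (Y t) + UC e Y Z r = cR s (Y t) (Z r) → s = r ∧ Y t = Y r) := by
  have h := special he hp hr s (Y t) a1 a2 a3
  have e1 : 0 ≤ ‖s - r‖ ^ 2 := by (clear * -; positivity)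
  have e2 : 0 ≤ ‖Y t - Y r‖ ^ 2 := by (clear * -; positivity)
  refine ⟨by linarith, fun heq => ?_⟩
  have e3 : ‖s - r‖ ^ 2 = 0 := by linarith
  have e4 : ‖Y t - Y r‖ ^ 2 = 0 := by linarith only [e2, h, e1, heq]
  exact ⟨by simpa only [ne_eq, OfNat.ofNat_ne_zero, not_false_eq_true, pow_eq_zero_iff, norm_eq_zero, sub_eq_zero] using     e3, by simpa [sub_eq_zero] using e4⟩

theorem spec034 (he : ‖e‖ = 1) (hp : LocalPack e ε Y Z) (hRR : ∀ x, R (R x) = x) {s t r : E}
    (hr : r ∈ Metric.ball (0 : E) ε) (a1 : s ≠ R (Y (R t))) (a2 : s ≠ R (Z (R r)))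
    (a3 : R (Y (R t)) ≠ R (Z (R r))) :
    UA s + UB e (Y (R t)) + UC e Y Z (R r) ≤ cR s (R (Y (R t))) (R (Z (R r))) ∧
    (UA s + UB e (Y (R t)) + UC e Y Z (R r) = cR s (R (Y (R t))) (R (Z (R r))) →
      s = r ∧ R (Y (R t)) = R (Y (R r))) := by
  have hs : R (R s) = s := hRR s
  have hc : cR s (R (Y (R t))) (R (Z (R r))) = cR (R s) (Y (R t)) (Z (R r)) := by
    conv_lhs => rw [← hs]
    rw [cR_isometry]
  have b1 : R s ≠ Y (R t) := fun h => a1 (by rw [← h, hs])
  have b2 : R s ≠ Z (R r) := fun h => a2 (by rw [← h, hs])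
  have b3 : Y (R t) ≠ Z (R r) := fun h => a3 (by rw [h])
  have h := spec012 he hp (R_mem_ball (R := R) hr) b1 b2 b3
  rw [UA_isometry] at h
  rw [hc]
  refine ⟨h.1, fun heq => ?_⟩
  obtain ⟨h1, h2⟩ := h.2 heq
  exact ⟨R.injective h1, by rw [h2]⟩

theorem contact (hp : LocalPack e₁ ε Y Z) (hR : R e₁ = e₂) (hRR : ∀ x, R (R x) = x)
    (h1 : ‖e₁‖ = 1) (h2 : ‖e₂‖ = 1) (h12 : ⟪e₁, e₂⟫ = 0) (i j k : Fin 5) {s t r : E}
    (hs : s ∈ Metric.ball (0 : E) ε) (ht : t ∈ Metric.ball (0 : E) ε)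
    (hr : r ∈ Metric.ball (0 : E) ε)
    (hij : P R Y Z i s ≠ P R Y Z j t) (hik : P R Y Z i s ≠ P R Y Z k r)
    (hjk : P R Y Z j t ≠ P R Y Z k r) :
    pot e₁ R Y Z i s + pot e₁ R Y Z j t + pot e₁ R Y Z k r
      ≤ cR (P R Y Z i s) (P R Y Z j t) (P R Y Z k r) ∧
    (pot e₁ R Y Z i s + pot e₁ R Y Z j t + pot e₁ R Y Z k r
      = cR (P R Y Z i s) (P R Y Z j t) (P R Y Z k r) → i = 0 →
      ∃ l : Fin 5, l ≠ 0 ∧ P R Y Z j t = P R Y Z l s) := by
  by_cases hsp : isSpec i j k = false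
  · have q1 := inter hp hR h1 h2 h12 i j hs ht hij
    have q2 := inter hp hR h1 h2 h12 i k hs hr hik
    have q3 := inter hp hR h1 h2 h12 j k ht hr hjk
    have p1 := (pot_bounds (R := R) hp h1 i hs).2
    have p2 := (pot_bounds (R := R) hp h1 j ht).2
    have p3 := (pot_bounds (R := R) hp h1 k hr).2
    have hn := tab_nonspecial i j k hsp
    have hn' : (uTab i : ℝ) + uTab j + uTab k < lTab i j + lTab i k + lTab j k := by
      exact_mod_cast hn
    have hlt : pot e₁ R Y Z i s + pot e₁ R Y Z j t + pot e₁ R Y Z k r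
        < cR (P R Y Z i s) (P R Y Z j t) (P R Y Z k r) := by
      unfold cR
      linarith only [q1, q2, q3, p1, p2, p3, hn']
    exact ⟨hlt.le, fun h => absurd h hlt.ne⟩
  · rw [Bool.not_eq_false] at hsp
    simp only [isSpec, Bool.or_eq_true, Bool.and_eq_true, beq_iff_eq] at hsp
    rcases hsp with ((((((((((h | h) | h) | h) | h) | h) | h) | h) | h) | h) | h) | h <;>
      obtain ⟨⟨rfl, rfl⟩, rfl⟩ := h
    · -- 0 1 2
      have h := spec012 (s := s) (t := t) (r := r) h1 hp hr hij hik hjk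
      exact ⟨h.1, fun heq _ => ⟨1, by decide, by
        obtain ⟨g1, g2⟩ := h.2 heq
        show Y t = Y s
        rw [g2, g1]⟩⟩
    · -- 0 2 1
      have h := spec012 (s := s) (t := r) (r := t) h1 hp ht hik hij hjk.symm
      rw [cR_swap23] at h
      have e0 : pot e₁ R Y Z 0 s + pot e₁ R Y Z 2 t + pot e₁ R Y Z 1 r
        = UA s + UB e₁ (Y r) + UC e₁ Y Z t := by
        show UA s + UC e₁ Y Z t + UB e₁ (Y r) = _
        ring
      rw [e0]
      exact ⟨h.1, fun heq _ => ⟨2, by decide, by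
        obtain ⟨g1, g2⟩ := h.2 heq
        show Z t = Z s
        rw [g1]⟩⟩
    · -- 1 0 2
      have h := spec012 (s := t) (t := s) (r := r) h1 hp hr hij.symm hjk hik
      rw [cR_swap12] at h
      refine ⟨le_trans (le_of_eq ?_) h.1, fun _ h0 => absurd h0 (by decide)⟩
      show UB e₁ (Y s) + UA t + UC e₁ Y Z r = _
      ring
    · -- 1 2 0
      have h := spec012 (s := r) (t := s) (r := t) h1 hp ht hik.symm hjk.symm hij
      rw [cR_swap12, cR_swap23] at h
      refine ⟨le_trans (le_of_eq ?_) h.1, fun _ h0 => absurd h0 (by decide)⟩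
      show UB e₁ (Y s) + UC e₁ Y Z t + UA r = _
      ring
    · -- 2 0 1
      have h := spec012 (s := t) (t := r) (r := s) h1 hp hs hjk hij.symm hik.symm
      rw [cR_swap23, cR_swap12] at h
      refine ⟨le_trans (le_of_eq ?_) h.1, fun _ h0 => absurd h0 (by decide)⟩
      show UC e₁ Y Z s + UA t + UB e₁ (Y r) = _
      ring
    · -- 2 1 0
      have h := spec012 (s := r) (t := t) (r := s) h1 hp hs hjk.symm hik.symm hij.symm
      rw [cR_swap12, cR_swap23, cR_swap12] at h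
      refine ⟨le_trans (le_of_eq ?_) h.1, fun _ h0 => absurd h0 (by decide)⟩
      show UC e₁ Y Z s + UB e₁ (Y t) + UA r = _
      ring
    · -- 0 3 4
      have h := spec034 (s := s) (t := t) (r := r) h1 hp hRR hr hij hik hjk
      exact ⟨h.1, fun heq _ => ⟨3, by decide, by
        obtain ⟨g1, g2⟩ := h.2 heq
        show R (Y (R t)) = R (Y (R s))
        rw [g2, g1]⟩⟩
    · -- 0 4 3
      have h := spec034 (s := s) (t := r) (r := t) h1 hp hRR ht hik hij hjk.symm
      rw [cR_swap23] at h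
      have e0 : pot e₁ R Y Z 0 s + pot e₁ R Y Z 4 t + pot e₁ R Y Z 3 r
        = UA s + UB e₁ (Y (R r)) + UC e₁ Y Z (R t) := by
        show UA s + UC e₁ Y Z (R t) + UB e₁ (Y (R r)) = _
        ring
      rw [e0]
      exact ⟨h.1, fun heq _ => ⟨4, by decide, by
        obtain ⟨g1, g2⟩ := h.2 heq
        show R (Z (R t)) = R (Z (R s))
        rw [g1]⟩⟩
    · -- 3 0 4
      have h := spec034 (s := t) (t := s) (r := r) h1 hp hRR hr hij.symm hjk hik
      rw [cR_swap12] at h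
      refine ⟨le_trans (le_of_eq ?_) h.1, fun _ h0 => absurd h0 (by decide)⟩
      show UB e₁ (Y (R s)) + UA t + UC e₁ Y Z (R r) = _
      ring
    · -- 3 4 0
      have h := spec034 (s := r) (t := s) (r := t) h1 hp hRR ht hik.symm hjk.symm hij
      rw [cR_swap12, cR_swap23] at h
      refine ⟨le_trans (le_of_eq ?_) h.1, fun _ h0 => absurd h0 (by decide)⟩
      show UB e₁ (Y (R s)) + UC e₁ Y Z (R t) + UA r = _
      ring
    · -- 4 0 3
      have h := spec034 (s := t) (t := r) (r := s) h1 hp hRR hs hjk hij.symm hik.symm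
      rw [cR_swap23, cR_swap12] at h
      refine ⟨le_trans (le_of_eq ?_) h.1, fun _ h0 => absurd h0 (by decide)⟩
      show UC e₁ Y Z (R s) + UA t + UB e₁ (Y (R r)) = _
      ring
    · -- 4 3 0
      have h := spec034 (s := r) (t := t) (r := s) h1 hp hRR hs hjk.symm hik.symm hij.symm
      rw [cR_swap12, cR_swap23, cR_swap12] at h
      refine ⟨le_trans (le_of_eq ?_) h.1, fun _ h0 => absurd h0 (by decide)⟩
      show UC e₁ Y Z (R s) + UB e₁ (Y (R t)) + UA r = _
      ring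

end Vale.Agent.P121
end
end

section

section

open MeasureTheory Set
open scoped ENNReal NNReal

namespace Vale.Agent.P121

variable {E : Type*} [NormedAddCommGroup E] [InnerProductSpace ℝ E] [FiniteDimensional ℝ E]
  [MeasurableSpace E] [BorelSpace E]

theorem volume_image_le_of_lipschitzOn (g : E → E) (S : Set E) (K : ℝ≥0)
    (hg : LipschitzOnWith K g S) :
    volume (g '' S) ≤ (K : ℝ≥0∞) ^ (Module.finrank ℝ E) * volume S := by
  have h := hg.hausdorffMeasure_image_le (d := (Module.finrank ℝ E : ℝ)) (by positivity)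
  have hv : (volume : Measure E)
      = Measure.addHaarScalarFactor (volume : Measure E) (μH[(Module.finrank ℝ E : ℝ)]) •
        (μH[(Module.finrank ℝ E : ℝ)]) := Measure.isAddLeftInvariant_eq_smul _ _
  rw [hv]
  simp only [Measure.smul_apply, ENNReal.smul_def, smul_eq_mul]
  rw [ENNReal.rpow_natCast] at h
  calc _ ≤ _ * ((K : ℝ≥0∞) ^ (Module.finrank ℝ E) * μH[(Module.finrank ℝ E : ℝ)] S) := by gcongr
    _ = _ := by ring

/-- a map which is bounded below on `D` pushes Lebesgue measure on `D` to a bounded density. -/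
theorem map_restrict_le (f : E → E) (hf : Measurable f) (D : Set E) (K : ℝ≥0)
    (h : ∀ x ∈ D, ∀ y ∈ D, ‖x - y‖ ≤ K * ‖f x - f y‖) :
    (volume.restrict D).map f ≤ ((K : ℝ≥0∞) ^ (Module.finrank ℝ E)) • (volume : Measure E) := by
  classical
  have hinj : InjOn f D := by
    intro x hx y hy hxy
    have := h x hx y hy
    rw [hxy, sub_self, norm_zero, mul_zero] at this
    exact sub_eq_zero.mp (norm_le_zero_iff.mp this)
  rw [Measure.le_iff]
  intro S hS
  rw [Measure.map_apply hf hS, Measure.restrict_apply (hf hS), Measure.smul_apply, smul_eq_mul]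
  rcases D.eq_empty_or_nonempty with hDe | ⟨d, hd⟩
  · simp only [hDe, inter_empty, measure_empty, zero_le]
  have : Nonempty E := ⟨d⟩
  set g := Function.invFunOn f D with hg
  have hgf : ∀ x ∈ D, g (f x) = x := fun x hx => hinj.leftInvOn_invFunOn hx
  have himg : f ⁻¹' S ∩ D = g '' (S ∩ f '' D) := by
    ext x
    constructor
    · rintro ⟨h1, h2⟩
      exact ⟨f x, ⟨h1, mem_image_of_mem _ h2⟩, hgf x h2⟩
    · rintro ⟨y, ⟨h1, ⟨w, hw, rfl⟩⟩, rfl⟩
      rw [hgf w hw]
      exact ⟨h1, hw⟩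
  have hlip : LipschitzOnWith K g (S ∩ f '' D) := by
    rw [lipschitzOnWith_iff_dist_le_mul]
    rintro y ⟨-, ⟨w, hw, rfl⟩⟩ z ⟨-, ⟨v, hv, rfl⟩⟩
    rw [hgf w hw, hgf v hv, dist_eq_norm, dist_eq_norm]
    exact h w hw v hv
  rw [himg]
  refine (volume_image_le_of_lipschitzOn g _ K hlip).trans ?_
  gcongr
  exact inter_subset_left

end Vale.Agent.P121
end
end

section

section

open MeasureTheory Set
open scoped ENNReal

namespace Vale.Agent.P121

/-- The five-branch measure. -/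
noncomputable def fiveMeasure {E : Type*} [MeasurableSpace E] (ν : Measure E) (F : Fin 4 → E → E) : Measure E :=
  (3 : ℝ≥0∞)⁻¹ • ν + (6 : ℝ≥0∞)⁻¹ • (ν.map (F 0) + ν.map (F 1) + ν.map (F 2) + ν.map (F 3))

section Basics

variable {E : Type*} [NormedAddCommGroup E]

lemma coulombCost_rot (x y z : E) : coulombCost (y, z, x) = coulombCost (x, y, z) := by
  simp only [coulombCost]
  rw [edist_comm y x, edist_comm z x, add_assoc, add_comm]

variable [MeasurableSpace E]

lemma measurable_coulombCost [BorelSpace E] [SecondCountableTopology E] :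
    Measurable (coulombCost : E × E × E → ℝ≥0∞) := by
  unfold coulombCost
  exact (((measurable_fst.edist measurable_snd.fst).inv).add
    ((measurable_fst.edist measurable_snd.snd).inv)).add
    ((measurable_snd.fst.edist measurable_snd.snd).inv)

lemma lintegral_coupling {μ : Measure E} {π : Measure (E × E × E)} (hπ : IsCoupling μ π)
    {U : E → ℝ≥0∞} (hU : Measurable U) :
    ∫⁻ p, (U p.1 + U p.2.1 + U p.2.2) ∂π = 3 * ∫⁻ x, U x ∂μ := by
  have m1 : Measurable (fun p : E × E × E => U p.1) := hU.comp measurable_fst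
  have m2 : Measurable (fun p : E × E × E => U p.2.1) := hU.comp measurable_snd.fst
  have m3 : Measurable (fun p : E × E × E => U p.2.2) := hU.comp measurable_snd.snd
  have m12 : Measurable (fun p : E × E × E => U p.1 + U p.2.1) := m1.add m2
  rw [lintegral_add_left m12, lintegral_add_left m1]
  have h1 : ∫⁻ p, U p.1 ∂π = ∫⁻ x, U x ∂μ := by
    rw [← hπ.1, lintegral_map hU measurable_fst]
  have h2 : ∫⁻ p, U p.2.1 ∂π = ∫⁻ x, U x ∂μ := by
    conv_rhs => rw [← hπ.2.1]
    rw [lintegral_map hU measurable_snd.fst]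
  have h3 : ∫⁻ p, U p.2.2 ∂π = ∫⁻ x, U x ∂μ := by
    conv_rhs => rw [← hπ.2.2]
    rw [lintegral_map hU measurable_snd.snd]
  rw [h1, h2, h3]
  ring

lemma coupling_ae_mem {μ : Measure E} {π : Measure (E × E × E)} (hπ : IsCoupling μ π)
    {S : Set E} (hS : ∀ᵐ x ∂μ, x ∈ S) :
    ∀ᵐ p ∂π, p.1 ∈ S ∧ p.2.1 ∈ S ∧ p.2.2 ∈ S := by
  have h1 : ∀ᵐ p ∂π, p.1 ∈ S := by
    have := hS
    rw [← hπ.1] at this
    exact ae_of_ae_map measurable_fst.aemeasurable this
  have h2 : ∀ᵐ p ∂π, p.2.1 ∈ S := by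
    have := hS
    rw [← hπ.2.1] at this
    exact ae_of_ae_map measurable_snd.fst.aemeasurable this
  have h3 : ∀ᵐ p ∂π, p.2.2 ∈ S := by
    have := hS
    rw [← hπ.2.2] at this
    exact ae_of_ae_map measurable_snd.snd.aemeasurable this
  filter_upwards [h1, h2, h3] with p a b c using ⟨a, b, c⟩

/-- weak duality -/
lemma weak_duality {μ : Measure E} {π : Measure (E × E × E)} (hπ : IsCoupling μ π)
    {S : Set E} (hS : ∀ᵐ x ∂μ, x ∈ S) {U : E → ℝ≥0∞} (hU : Measurable U)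
    (hle : ∀ x ∈ S, ∀ y ∈ S, ∀ z ∈ S, U x + U y + U z ≤ coulombCost (x, y, z)) :
    3 * ∫⁻ x, U x ∂μ ≤ ∫⁻ p, coulombCost p ∂π := by
  rw [← lintegral_coupling hπ hU]
  refine lintegral_mono_ae ?_
  filter_upwards [coupling_ae_mem hπ hS] with p hp
  exact hle p.1 hp.1 p.2.1 hp.2.1 p.2.2 hp.2.2

lemma le_kantorovich {μ : Measure E}
    {S : Set E} (hS : ∀ᵐ x ∂μ, x ∈ S) {U : E → ℝ≥0∞} (hU : Measurable U)
    (hle : ∀ x ∈ S, ∀ y ∈ S, ∀ z ∈ S, U x + U y + U z ≤ coulombCost (x, y, z)) :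
    3 * ∫⁻ x, U x ∂μ ≤ kantorovich μ := by
  unfold kantorovich
  exact le_iInf₂ fun π hπ => weak_duality hπ hS hU hle

lemma kantorovich_le {μ : Measure E} {π : Measure (E × E × E)} (hπ : IsCoupling μ π)
    {U : E → ℝ≥0∞} (hU : Measurable U)
    (heq : ∀ᵐ p ∂π, coulombCost p = U p.1 + U p.2.1 + U p.2.2) :
    kantorovich μ ≤ 3 * ∫⁻ x, U x ∂μ := by
  unfold kantorovich
  refine (iInf₂_le π hπ).trans ?_
  rw [← lintegral_coupling hπ hU]
  exact (lintegral_congr_ae heq).le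

/-- The Monge plan of a Monge pair is a coupling. -/
lemma IsMongePair.isCoupling {μ : Measure E} {T₂ T₃ : E → E} (h : IsMongePair μ T₂ T₃) :
    IsCoupling μ (μ.map fun x => (x, T₂ x, T₃ x)) := by
  obtain ⟨m2, m3, h2, h3⟩ := h
  have m : Measurable (fun x : E => (x, T₂ x, T₃ x)) := measurable_id.prodMk (m2.prodMk m3)
  refine ⟨?_, ?_, ?_⟩
  · rw [Measure.map_map measurable_fst m]
    exact Measure.map_id
  · rw [Measure.map_map measurable_snd.fst m]
    exact h2
  · rw [Measure.map_map measurable_snd.snd m]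
    exact h3

end Basics

section Monge

variable {E : Type*} [NormedAddCommGroup E] [MeasurableSpace E] [BorelSpace E]
    [SecondCountableTopology E]

/-- An optimal Monge plan lives on the contact set. -/
lemma monge_contact {μ : Measure E}
    {S : Set E} (hS : ∀ᵐ x ∂μ, x ∈ S) {U : E → ℝ≥0∞} (hU : Measurable U)
    (hle : ∀ x ∈ S, ∀ y ∈ S, ∀ z ∈ S, U x + U y + U z ≤ coulombCost (x, y, z))
    (hfin : 3 * ∫⁻ x, U x ∂μ ≠ ∞)
    {T₂ T₃ : E → E} (hT : IsMongePair μ T₂ T₃)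
    (hopt : mongeCost μ T₂ T₃ ≤ 3 * ∫⁻ x, U x ∂μ) :
    ∀ᵐ x ∂μ, x ∈ S ∧ T₂ x ∈ S ∧ T₃ x ∈ S ∧
      coulombCost (x, T₂ x, T₃ x) = U x + U (T₂ x) + U (T₃ x) := by
  have m : Measurable (fun x : E => (x, T₂ x, T₃ x)) :=
    measurable_id.prodMk (hT.1.prodMk hT.2.1)
  have hmem : ∀ᵐ x ∂μ, x ∈ S ∧ T₂ x ∈ S ∧ T₃ x ∈ S := by
    have := coupling_ae_mem hT.isCoupling hS
    exact ae_of_ae_map m.aemeasurable this
  have hint : ∫⁻ x, (U x + U (T₂ x) + U (T₃ x)) ∂μ = 3 * ∫⁻ x, U x ∂μ := by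
    rw [← lintegral_coupling hT.isCoupling hU, lintegral_map _ m]
    exact ((hU.comp measurable_fst).add (hU.comp measurable_snd.fst)).add
      (hU.comp measurable_snd.snd)
  have hle' : (fun x => U x + U (T₂ x) + U (T₃ x)) ≤ᵐ[μ]
      fun x => coulombCost (x, T₂ x, T₃ x) := by
    filter_upwards [hmem] with x hx
    exact hle x hx.1 _ hx.2.1 _ hx.2.2
  have heq := ae_eq_of_ae_le_of_lintegral_le hle' (by rw [hint]; exact hfin)
    (measurable_coulombCost.comp m).aemeasurable (by rw [hint]; exact hopt)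
  filter_upwards [hmem, heq] with x hx hx'
  exact ⟨hx.1, hx.2.1, hx.2.2, hx'.symm⟩

end Monge

section Five

variable {E : Type*} [NormedAddCommGroup E] [MeasurableSpace E]

lemma fiveMeasure_apply (ν : Measure E) {F : Fin 4 → E → E} (hF : ∀ i, Measurable (F i))
    {s : Set E} (hs : MeasurableSet s) :
    fiveMeasure ν F s = 3⁻¹ * ν s +
      6⁻¹ * (ν (F 0 ⁻¹' s) + ν (F 1 ⁻¹' s) + ν (F 2 ⁻¹' s) + ν (F 3 ⁻¹' s)) := by
  simp only [fiveMeasure, Measure.add_apply, Measure.smul_apply, smul_eq_mul]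
  rw [Measure.map_apply (hF 0) hs, Measure.map_apply (hF 1) hs, Measure.map_apply (hF 2) hs,
    Measure.map_apply (hF 3) hs]

lemma six_inv_mul_two : (6 : ℝ≥0∞)⁻¹ * 2 = 3⁻¹ := by
  rw [show (6 : ℝ≥0∞) = 3 * 2 by norm_num,
    ENNReal.mul_inv (Or.inl (by norm_num)) (Or.inl (by norm_num)), mul_assoc,
    ENNReal.inv_mul_cancel (by norm_num) (by norm_num), mul_one]

lemma isProbabilityMeasure_fiveMeasure (ν : Measure E) [IsProbabilityMeasure ν]
    {F : Fin 4 → E → E} (hF : ∀ i, Measurable (F i)) :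
    IsProbabilityMeasure (fiveMeasure ν F) := by
  constructor
  rw [fiveMeasure_apply ν hF MeasurableSet.univ]
  simp only [preimage_univ, measure_univ, mul_one]
  rw [show (1 : ℝ≥0∞) + 1 + 1 + 1 = 2 * 2 by norm_num, ← mul_assoc, six_inv_mul_two,
    show (3 : ℝ≥0∞)⁻¹ + 3⁻¹ * 2 = 3⁻¹ * 3 by ring]
  exact ENNReal.inv_mul_cancel (by norm_num) (by norm_num)

/-- one branch of the plan, before symmetrisation -/
noncomputable def branch (ν : Measure E) (f g : E → E) : Measure (E × E × E) :=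
  ν.map (fun x => (x, f x, g x)) + ν.map (fun x => (f x, g x, x)) +
    ν.map (fun x => (g x, x, f x))

lemma branch_marginals (ν : Measure E) {f g : E → E} (hf : Measurable f) (hg : Measurable g) :
    IsCoupling (ν + ν.map f + ν.map g) (branch ν f g) := by
  have m1 : Measurable (fun x : E => (x, f x, g x)) := measurable_id.prodMk (hf.prodMk hg)
  have m2 : Measurable (fun x : E => (f x, g x, x)) := hf.prodMk (hg.prodMk measurable_id)
  have m3 : Measurable (fun x : E => (g x, x, f x)) := hg.prodMk (measurable_id.prodMk hf)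
  have hid : ν.map (fun x => x) = ν := Measure.map_id
  refine ⟨?_, ?_, ?_⟩
  · rw [branch, Measure.map_add _ _ measurable_fst, Measure.map_add _ _ measurable_fst,
      Measure.map_map measurable_fst m1, Measure.map_map measurable_fst m2,
      Measure.map_map measurable_fst m3]
    simp only [Function.comp_def, hid]
  · rw [branch, Measure.map_add _ _ measurable_snd.fst, Measure.map_add _ _ measurable_snd.fst,
      Measure.map_map measurable_snd.fst m1, Measure.map_map measurable_snd.fst m2,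
      Measure.map_map measurable_snd.fst m3]
    simp only [Function.comp_def, hid]
    abel
  · rw [branch, Measure.map_add _ _ measurable_snd.snd, Measure.map_add _ _ measurable_snd.snd,
      Measure.map_map measurable_snd.snd m1, Measure.map_map measurable_snd.snd m2,
      Measure.map_map measurable_snd.snd m3]
    simp only [Function.comp_def, hid]
    abel

/-- the optimal plan -/
noncomputable def fivePlan (ν : Measure E) (F : Fin 4 → E → E) : Measure (E × E × E) :=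
  (6 : ℝ≥0∞)⁻¹ • (branch ν (F 0) (F 1) + branch ν (F 2) (F 3))

lemma fivePlan_isCoupling (ν : Measure E) {F : Fin 4 → E → E} (hF : ∀ i, Measurable (F i)) :
    IsCoupling (fiveMeasure ν F) (fivePlan ν F) := by
  have h1 := branch_marginals ν (hF 0) (hF 1)
  have h2 := branch_marginals ν (hF 2) (hF 3)
  have key : (6 : ℝ≥0∞)⁻¹ • (ν + ν.map (F 0) + ν.map (F 1) + (ν + ν.map (F 2) + ν.map (F 3)))
      = fiveMeasure ν F := by
    rw [fiveMeasure, ← six_inv_mul_two, mul_smul, ← smul_add, two_smul]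
    congr 1
    abel
  refine ⟨?_, ?_, ?_⟩
  · rw [fivePlan, Measure.map_smul, Measure.map_add _ _ measurable_fst, h1.1, h2.1, key]
  · rw [fivePlan, Measure.map_smul, Measure.map_add _ _ measurable_snd.fst, h1.2.1, h2.2.1, key]
  · rw [fivePlan, Measure.map_smul, Measure.map_add _ _ measurable_snd.snd, h1.2.2, h2.2.2, key]

variable [BorelSpace E] [SecondCountableTopology E]

lemma branch_ae {ν : Measure E} {D : Set E} (hνD : ν Dᶜ = 0)
    {f g : E → E} (hf : Measurable f) (hg : Measurable g)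
    {U : E → ℝ≥0∞} (hU : Measurable U)
    (heq : ∀ x ∈ D, coulombCost (x, f x, g x) = U x + U (f x) + U (g x)) :
    ∀ᵐ p ∂(branch ν f g), coulombCost p = U p.1 + U p.2.1 + U p.2.2 := by
  have m1 : Measurable (fun x : E => (x, f x, g x)) := measurable_id.prodMk (hf.prodMk hg)
  have m2 : Measurable (fun x : E => (f x, g x, x)) := hf.prodMk (hg.prodMk measurable_id)
  have m3 : Measurable (fun x : E => (g x, x, f x)) := hg.prodMk (measurable_id.prodMk hf)
  have hD : ∀ᵐ x ∂ν, x ∈ D := by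
    rw [ae_iff]; exact hνD
  have hms : MeasurableSet {p : E × E × E | coulombCost p = U p.1 + U p.2.1 + U p.2.2} :=
    measurableSet_eq_fun measurable_coulombCost
      (((hU.comp measurable_fst).add (hU.comp measurable_snd.fst)).add
      (hU.comp measurable_snd.snd))
  rw [branch, ae_add_measure_iff, ae_add_measure_iff]
  refine ⟨⟨?_, ?_⟩, ?_⟩
  · rw [ae_map_iff m1.aemeasurable hms]
    filter_upwards [hD] with x hx using heq x hx
  · rw [ae_map_iff m2.aemeasurable hms]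
    filter_upwards [hD] with x hx
    have := heq x hx
    rw [coulombCost_rot, this]
    ring
  · rw [ae_map_iff m3.aemeasurable hms]
    filter_upwards [hD] with x hx
    have := heq x hx
    rw [← coulombCost_rot, this]
    ring

lemma fivePlan_ae {ν : Measure E} {D : Set E} (hνD : ν Dᶜ = 0)
    {F : Fin 4 → E → E} (hF : ∀ i, Measurable (F i))
    {U : E → ℝ≥0∞} (hU : Measurable U)
    (heq1 : ∀ x ∈ D, coulombCost (x, F 0 x, F 1 x) = U x + U (F 0 x) + U (F 1 x))
    (heq2 : ∀ x ∈ D, coulombCost (x, F 2 x, F 3 x) = U x + U (F 2 x) + U (F 3 x)) :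
    ∀ᵐ p ∂(fivePlan ν F), coulombCost p = U p.1 + U p.2.1 + U p.2.2 := by
  rw [fivePlan]
  refine Measure.ae_smul_measure ?_ _
  rw [ae_add_measure_iff]
  exact ⟨branch_ae hνD (hF 0) (hF 1) hU heq1, branch_ae hνD (hF 2) (hF 3) hU heq2⟩

lemma ae_map_mem_image [CompleteSpace E] {ν : Measure E} {D : Set E} (hD : MeasurableSet D)
    (hνD : ν Dᶜ = 0) {f : E → E} (hf : Measurable f) (hinj : InjOn f D) :
    ∀ᵐ x ∂(ν.map f), x ∈ f '' D := by
  have hm : MeasurableSet (f '' D) := hD.image_of_measurable_injOn hf hinj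
  rw [ae_map_iff (p := fun x => x ∈ f '' D) hf.aemeasurable hm]
  have : ∀ᵐ x ∂ν, x ∈ D := by rw [ae_iff]; exact hνD
  filter_upwards [this] with x hx using mem_image_of_mem f hx

lemma fiveMeasure_ae_mem [CompleteSpace E] {ν : Measure E} {D : Set E} (hD : MeasurableSet D)
    (hνD : ν Dᶜ = 0) {F : Fin 4 → E → E} (hF : ∀ i, Measurable (F i))
    (hinj : ∀ i, InjOn (F i) D) :
    ∀ᵐ x ∂(fiveMeasure ν F), x ∈ D ∪ ⋃ i, F i '' D := by
  have h : ∀ i, ∀ᵐ x ∂(ν.map (F i)), x ∈ D ∪ ⋃ i, F i '' D := by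
    intro i
    filter_upwards [ae_map_mem_image hD hνD (hF i) (hinj i)] with x hx
    exact Or.inr (mem_iUnion.2 ⟨i, hx⟩)
  rw [fiveMeasure, ae_add_measure_iff]
  refine ⟨Measure.ae_smul_measure ?_ _, Measure.ae_smul_measure ?_ _⟩
  · have : ∀ᵐ x ∂ν, x ∈ D := by rw [ae_iff]; exact hνD
    filter_upwards [this] with x hx using Or.inl hx
  · rw [ae_add_measure_iff, ae_add_measure_iff, ae_add_measure_iff]
    exact ⟨⟨⟨h 0, h 1⟩, h 2⟩, h 3⟩

/-- the mass of the image of a piece of the central cluster is half the mass of that piece -/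
lemma fiveMeasure_image [CompleteSpace E] (ν : Measure E) {D : Set E} (hD : MeasurableSet D)
    (hνD : ν Dᶜ = 0) {F : Fin 4 → E → E} (hF : ∀ i, Measurable (F i))
    (hinj : ∀ i, InjOn (F i) D)
    {K : Fin 4 → Set E} (hK : ∀ i, MeasurableSet (K i)) (hFK : ∀ i, MapsTo (F i) D (K i))
    (hdisj : ∀ i, Disjoint D (K i)) (hdisj' : ∀ i j, i ≠ j → Disjoint (K i) (K j))
    (i : Fin 4) {A : Set E} (hA : MeasurableSet A) (hAD : A ⊆ D) :
    fiveMeasure ν F (F i '' A) = 6⁻¹ * ν A := by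
  have hm : MeasurableSet (F i '' A) :=
    hA.image_of_measurable_injOn (hF i) ((hinj i).mono hAD)
  have hsub : F i '' A ⊆ K i := by
    rintro _ ⟨x, hx, rfl⟩
    exact hFK i (hAD hx)
  have h0 : ν (F i '' A) = 0 := by
    refine measure_mono_null ?_ hνD
    intro x hx hxD
    exact (hdisj i).le_bot ⟨hxD, hsub hx⟩
  have hne : ∀ j, j ≠ i → ν (F j ⁻¹' (F i '' A)) = 0 := by
    intro j hj
    refine measure_mono_null ?_ hνD
    intro x hx hxD
    exact (hdisj' j i hj).le_bot ⟨hFK j hxD, hsub hx⟩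
  have heq : ν (F i ⁻¹' (F i '' A)) = ν A := by
    refine le_antisymm ?_ (measure_mono (subset_preimage_image _ _))
    have : F i ⁻¹' (F i '' A) ⊆ A ∪ Dᶜ := by
      intro x hx
      by_cases hxD : x ∈ D
      · obtain ⟨y, hy, hxy⟩ := hx
        have : y = x := hinj i (hAD hy) hxD hxy
        exact Or.inl (this ▸ hy)
      · exact Or.inr hxD
    refine (measure_mono this).trans ((measure_union_le _ _).trans ?_)
    rw [hνD, add_zero]
  rw [fiveMeasure_apply ν hF hm, h0, mul_zero, zero_add]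
  congr 1
  fin_cases i
  · have e1 := hne 1 (by decide)
    have e2 := hne 2 (by decide)
    have e3 := hne 3 (by decide)
    simp only [Fin.zero_eta, Fin.mk_one, Fin.reduceFinMk] at *
    rw [heq, e1, e2, e3]; simp
  · have e1 := hne 0 (by decide)
    have e2 := hne 2 (by decide)
    have e3 := hne 3 (by decide)
    simp only [Fin.zero_eta, Fin.mk_one, Fin.reduceFinMk] at *
    rw [heq, e1, e2, e3]; simp
  · have e1 := hne 0 (by decide)
    have e2 := hne 1 (by decide)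
    have e3 := hne 3 (by decide)
    simp only [Fin.zero_eta, Fin.mk_one, Fin.reduceFinMk] at *
    rw [heq, e1, e2, e3]; simp
  · have e1 := hne 0 (by decide)
    have e2 := hne 1 (by decide)
    have e3 := hne 2 (by decide)
    simp only [Fin.reduceFinMk] at *
    rw [heq, e1, e2, e3]; simp

end Five

/-- abstract measure part.  `K 0` is the cluster `A ∋ x`, `F 0, F 1` are the partners of the first branch, `F 2, F 3` those of the second. -/
theorem abstract_obstruction {E : Type*} [NormedAddCommGroup E] [MeasurableSpace E] [BorelSpace E]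
    [SecondCountableTopology E] [CompleteSpace E]
    (ν : Measure E) [IsProbabilityMeasure ν] (D : Set E) (hD : MeasurableSet D) (hνD : ν Dᶜ = 0)
    (F : Fin 4 → E → E) (hF : ∀ i, Measurable (F i)) (hinj : ∀ i, InjOn (F i) D)
    (K : Fin 4 → Set E) (hK : ∀ i, MeasurableSet (K i)) (hFK : ∀ i, MapsTo (F i) D (K i))
    (hdisj : ∀ i, Disjoint D (K i)) (hdisj' : ∀ i j, i ≠ j → Disjoint (K i) (K j))
    (U : E → ℝ≥0∞) (hU : Measurable U) (M : ℝ≥0∞) (hM : M ≠ ∞) (hUM : ∀ x, U x ≤ M)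
    (hle : ∀ x ∈ D ∪ ⋃ i, F i '' D, ∀ y ∈ D ∪ ⋃ i, F i '' D, ∀ z ∈ D ∪ ⋃ i, F i '' D,
      U x + U y + U z ≤ coulombCost (x, y, z))
    (heq1 : ∀ x ∈ D, coulombCost (x, F 0 x, F 1 x) = U x + U (F 0 x) + U (F 1 x))
    (heq2 : ∀ x ∈ D, coulombCost (x, F 2 x, F 3 x) = U x + U (F 2 x) + U (F 3 x))
    (hcontact : ∀ x ∈ D, ∀ y ∈ D ∪ ⋃ i, F i '' D, ∀ z ∈ D ∪ ⋃ i, F i '' D,
      coulombCost (x, y, z) = U x + U y + U z → ∃ i, y = F i x) :
    IsProbabilityMeasure (fiveMeasure ν F) ∧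
    kantorovich (fiveMeasure ν F) ≠ ∞ ∧
    ∀ T₂ T₃ : E → E, IsMongePair (fiveMeasure ν F) T₂ T₃ →
      mongeCost (fiveMeasure ν F) T₂ T₃ ≠ kantorovich (fiveMeasure ν F) := by
  have hprob : IsProbabilityMeasure (fiveMeasure ν F) := isProbabilityMeasure_fiveMeasure ν hF
  have hS := fiveMeasure_ae_mem hD hνD hF hinj
  have hfin : 3 * ∫⁻ x, U x ∂(fiveMeasure ν F) ≠ ∞ := by
    refine ENNReal.mul_ne_top (by norm_num) ?_
    refine ne_top_of_le_ne_top hM ?_
    calc ∫⁻ x, U x ∂(fiveMeasure ν F) ≤ ∫⁻ _, M ∂(fiveMeasure ν F) := lintegral_mono hUM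
      _ = M := by simp only [lintegral_const, measure_univ, mul_one]
  have hval : kantorovich (fiveMeasure ν F) = 3 * ∫⁻ x, U x ∂(fiveMeasure ν F) :=
    le_antisymm (kantorovich_le (fivePlan_isCoupling ν hF) hU (fivePlan_ae hνD hF hU heq1 heq2))
      (le_kantorovich hS hU hle)
  refine ⟨hprob, by rw [hval]; exact hfin, ?_⟩
  intro T₂ T₃ hT hopt
  have hcon := monge_contact hS hU hle hfin hT (by rw [hopt, hval])
  -- the four pieces
  have hAm : ∀ i, MeasurableSet {x | x ∈ D ∧ T₂ x = F i x} := fun i =>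
    hD.inter (measurableSet_eq_fun hT.1 (hF i))
  have hzero : ∀ i, ν {x | x ∈ D ∧ T₂ x = F i x} = 0 := by
    intro i
    set A := {x | x ∈ D ∧ T₂ x = F i x} with hAdef
    have hAD : A ⊆ D := fun x hx => hx.1
    have himg : MeasurableSet (F i '' A) :=
      (hAm i).image_of_measurable_injOn (hF i) ((hinj i).mono hAD)
    have h1 : fiveMeasure ν F A ≤ 6⁻¹ * ν A := by
      rw [← fiveMeasure_image ν hD hνD hF hinj hK hFK hdisj hdisj' i (hAm i) hAD]
      conv_rhs => rw [← hT.2.2.1]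
      rw [Measure.map_apply hT.1 himg]
      refine measure_mono ?_
      intro x hx
      exact ⟨x, hx, hx.2.symm⟩
    have h2 : 3⁻¹ * ν A ≤ fiveMeasure ν F A := by
      rw [fiveMeasure_apply ν hF (hAm i)]
      exact le_self_add
    have h3 : 3⁻¹ * ν A ≤ 6⁻¹ * ν A := h2.trans h1
    rw [← six_inv_mul_two, mul_assoc] at h3
    by_contra hne
    have hfinA : ν A ≠ ∞ := measure_ne_top ν A
    have h4 : 2 * ν A ≤ ν A := by
      rwa [ENNReal.mul_le_mul_iff_right (by norm_num) (by norm_num)] at h3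
    rw [two_mul] at h4
    have h5 : ν A + ν A ≤ ν A + 0 := by simpa only [add_zero] using h4
    have := (ENNReal.add_le_add_iff_left hfinA).1 h5
    exact hne (le_antisymm this bot_le)
  have hac : ν ≪ fiveMeasure ν F := by
    refine Measure.AbsolutelyContinuous.mk fun s hs h => ?_
    rw [fiveMeasure_apply ν hF hs] at h
    have := (add_eq_zero.1 h).1
    rcases mul_eq_zero.1 this with h' | h'
    · exfalso
      exact (ENNReal.inv_ne_zero.2 (by norm_num)) h'
    · exact h'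
  have hcon' := hac.ae_le hcon
  have hDae : ∀ᵐ x ∂ν, x ∈ D := by rw [ae_iff]; exact hνD
  have hnot : ∀ᵐ x ∂ν, ∀ i, ¬ (x ∈ D ∧ T₂ x = F i x) := by
    rw [ae_all_iff]
    intro i
    rw [ae_iff]
    simp only [not_not]
    exact hzero i
  have hfalse : ∀ᵐ x ∂ν, False := by
    filter_upwards [hcon', hDae, hnot] with x h1 h2 h3
    obtain ⟨i, hi⟩ := hcontact x h2 _ h1.2.1 _ h1.2.2.1 h1.2.2.2
    exact h3 i ⟨h2, hi⟩
  rw [ae_iff] at hfalse
  simp at hfalse

end Vale.Agent.P121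
end
end

section

section

open MeasureTheory Set Filter Topology
open scoped RealInnerProductSpace ENNReal NNReal

namespace Vale.Agent.P121

section geometry

variable {E : Type*} [NormedAddCommGroup E] [InnerProductSpace ℝ E]
variable {e₁ e₂ : E} {R : E ≃ₗᵢ[ℝ] E} {ε : ℝ} {Y Z : E → E}

theorem site_sep (h1 : ‖e₁‖ = 1) (h2 : ‖e₂‖ = 1) (h12 : ⟪e₁, e₂⟫ = 0) (i j : Fin 5) (hij : i ≠ j) :
    1 ≤ ‖site e₁ e₂ i - site e₁ e₂ j‖ := by
  have k1 : 1 ≤ ‖e₁ - e₂‖ := by
    have := norm_sub_sq_real e₁ e₂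
    rw [h1, h2, h12] at this
    have h0 := norm_nonneg (e₁ - e₂)
    nlinarith only [this, h0]
  have k2 : 1 ≤ ‖e₁ + e₂‖ := by
    have := norm_add_sq_real e₁ e₂
    rw [h1, h2, h12] at this
    have h0 := norm_nonneg (e₁ + e₂)
    nlinarith only [this, h0]
  have k3 : 1 ≤ ‖e₂ - e₁‖ := by rw [norm_sub_rev]; exact k1
  have k4 : 1 ≤ ‖e₂ + e₁‖ := by rw [add_comm]; exact k2
  have k5 : 1 ≤ ‖-e₁ - e₂‖ := by rw [← neg_add', norm_neg]; exact k2
  have k6 : 1 ≤ ‖-e₂ - e₁‖ := by rw [← neg_add', norm_neg]; exact k4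
  have k7 : 1 ≤ ‖-e₁ + e₂‖ := by rw [neg_add_eq_sub]; exact k3
  have k8 : 1 ≤ ‖-e₂ + e₁‖ := by rw [neg_add_eq_sub]; exact k1
  have k9 : ‖e₁ + e₁‖ = 2 := by rw [← two_smul ℝ, norm_smul, h1]; norm_num
  have k10 : ‖e₂ + e₂‖ = 2 := by rw [← two_smul ℝ, norm_smul, h2]; norm_num
  have k11 : ‖-e₁ - e₁‖ = 2 := by rw [← neg_add', norm_neg]; exact k9
  have k12 : ‖-e₂ - e₂‖ = 2 := by rw [← neg_add', norm_neg]; exact k10
  fin_cases i <;> fin_cases j <;> simp [site, h1, h2, k9, k10, k11, k12] at hij ⊢ <;>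
    assumption

/-- distinct clusters are disjoint. -/
theorem cluster_ne (hp : LocalPack e₁ ε Y Z) (hR : R e₁ = e₂) (h1 : ‖e₁‖ = 1) (h2 : ‖e₂‖ = 1)
    (h12 : ⟪e₁, e₂⟫ = 0) (i j : Fin 5) {s t : E}
    (hs : s ∈ Metric.ball (0 : E) ε) (ht : t ∈ Metric.ball (0 : E) ε)
    (heq : P R Y Z i s = P R Y Z j t) : i = j := by
  by_contra hij
  have n1 := near hp hR i hs
  have n2 := near hp hR j ht
  have n3 := site_sep h1 h2 h12 i j hij
  have : ‖site e₁ e₂ i - site e₁ e₂ j‖ ≤ 1 / 100 + 1 / 100 := by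
    calc ‖site e₁ e₂ i - site e₁ e₂ j‖
        = ‖(P R Y Z j t - site e₁ e₂ j) - (P R Y Z i s - site e₁ e₂ i)‖ := by
          rw [heq]; congr 1; abel
      _ ≤ _ := (norm_sub_le _ _).trans (add_le_add n2 n1)
  norm_num at this
  linarith only [n3, this]

theorem P_antilip (K : ℝ)
    (hlip : ∀ x ∈ Metric.ball (0 : E) ε, ∀ x' ∈ Metric.ball (0 : E) ε,
        ‖x - x'‖ ≤ K * ‖Y x - Y x'‖ ∧ ‖x - x'‖ ≤ K * ‖Z x - Z x'‖) (i : Fin 5) :
    ∀ x ∈ Metric.ball (0 : E) ε, ∀ x' ∈ Metric.ball (0 : E) ε,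
      ‖x - x'‖ ≤ max 1 K * ‖P R Y Z i x - P R Y Z i x'‖ := by
  intro x hx x' hx'
  have hRx := R_mem_ball (R := R) hx
  have hRx' := R_mem_ball (R := R) hx'
  have a := hlip x hx x' hx'
  have b := hlip _ hRx _ hRx'
  have c : ‖R x - R x'‖ = ‖x - x'‖ := by rw [← map_sub, LinearIsometryEquiv.norm_map]
  have d : ∀ v w : E, ‖R v - R w‖ = ‖v - w‖ := fun v w => by
    rw [← map_sub, LinearIsometryEquiv.norm_map]
  have m1 : (1 : ℝ) ≤ max 1 K := le_max_left _ _
  have m2 : K ≤ max 1 K := le_max_right _ _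
  fin_cases i
  · show ‖x - x'‖ ≤ max 1 K * ‖x - x'‖
    nlinarith only [m1, norm_nonneg (x - x')]
  · show ‖x - x'‖ ≤ max 1 K * ‖Y x - Y x'‖
    exact a.1.trans (by (clear * - m2; gcongr))
  · show ‖x - x'‖ ≤ max 1 K * ‖Z x - Z x'‖
    exact a.2.trans (by (clear * - m2; gcongr))
  · show ‖x - x'‖ ≤ max 1 K * ‖R (Y (R x)) - R (Y (R x'))‖
    rw [d, ← c]
    exact b.1.trans (by (clear * - m2; gcongr))
  · show ‖x - x'‖ ≤ max 1 K * ‖R (Z (R x)) - R (Z (R x'))‖
    rw [d, ← c]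
    exact b.2.trans (by (clear * - m2; gcongr))

end geometry

theorem ofReal_cR_le {E : Type*} [NormedAddCommGroup E] [InnerProductSpace ℝ E]
    [MeasurableSpace E] (x y z : E) (hxy : x ≠ y) (hxz : x ≠ z) (hyz : y ≠ z) :
    coulombCost (x, y, z) = ENNReal.ofReal (cR x y z) := by
  have h : ∀ a b : E, a ≠ b → (edist a b)⁻¹ = ENNReal.ofReal (‖a - b‖⁻¹) := by
    intro a b hab
    rw [edist_dist, dist_eq_norm, ENNReal.ofReal_inv_of_pos (norm_pos_iff.mpr (sub_ne_zero.mpr hab))]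
  unfold coulombCost cR
  simp only
  rw [h x y hxy, h x z hxz, h y z hyz, ENNReal.ofReal_add (by (clear * -; positivity)) (by positivity),
    ENNReal.ofReal_add (by positivity) (by positivity)]

theorem cost_top {E : Type*} [NormedAddCommGroup E]
    [MeasurableSpace E] (x y z : E) (h : x = y ∨ x = z ∨ y = z) :
    coulombCost (x, y, z) = ∞ := by
  unfold coulombCost
  rcases h with rfl | rfl | rfl <;> simp


section assembly

variable {E : Type*} [NormedAddCommGroup E] [InnerProductSpace ℝ E] [FiniteDimensional ℝ E]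
  [MeasurableSpace E] [BorelSpace E]
variable {e₁ e₂ : E} {R : E ≃ₗᵢ[ℝ] E} {ε : ℝ} {Y Z : E → E}

theorem P_measurable (hY : Measurable Y) (hZ : Measurable Z) (i : Fin 5) :
    Measurable (P R Y Z i) := by
  have hR : Measurable (R : E → E) := R.continuous.measurable
  fin_cases i
  · exact measurable_id
  · exact hY
  · exact hZ
  · exact hR.comp (hY.comp hR)
  · exact hR.comp (hZ.comp hR)

theorem cR_measurable {f g h : E → E} (hf : Measurable f) (hg : Measurable g) (hh : Measurable h) :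
    Measurable (fun x => cR (f x) (g x) (h x)) := by
  unfold cR
  exact (((hf.sub hg).norm.inv).add ((hf.sub hh).norm.inv)).add ((hg.sub hh).norm.inv)

theorem pot_measurable (hY : Measurable Y) (hZ : Measurable Z) (i : Fin 5) :
    Measurable (pot e₁ R Y Z i) := by
  have hR : Measurable (R : E → E) := R.continuous.measurable
  have hA : Measurable (UA : E → ℝ) := by
    unfold UA; fun_prop
  have hB : Measurable (UB e₁ : E → ℝ) := by
    unfold UB; fun_prop
  have hC : Measurable (UC e₁ Y Z) := by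
    unfold UC
    exact ((cR_measurable measurable_id hY hZ).sub hA).sub (hB.comp hY)
  fin_cases i
  · exact hA
  · exact hB.comp hY
  · exact hC
  · exact hB.comp (hY.comp hR)
  · exact hC.comp hR

/-- the parametrisation of all five clusters. -/
noncomputable def par (R : E ≃ₗᵢ[ℝ] E) (ε : ℝ) (Y Z : E → E)
    (q : Fin 5 × Metric.ball (0 : E) ε) : E := P R Y Z q.1 q.2

/-- the global potential. -/
noncomputable def UU (e₁ : E) (R : E ≃ₗᵢ[ℝ] E) (ε : ℝ) (Y Z : E → E) : E → ℝ≥0∞ :=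
  Function.extend (par R ε Y Z) (fun q => ENNReal.ofReal (pot e₁ R Y Z q.1 q.2)) (fun _ => 0)

theorem par_injective (hp : LocalPack e₁ ε Y Z) (hR : R e₁ = e₂) (h1 : ‖e₁‖ = 1) (h2 : ‖e₂‖ = 1)
    (h12 : ⟪e₁, e₂⟫ = 0) (K : ℝ)
    (hlip : ∀ x ∈ Metric.ball (0 : E) ε, ∀ x' ∈ Metric.ball (0 : E) ε,
        ‖x - x'‖ ≤ K * ‖Y x - Y x'‖ ∧ ‖x - x'‖ ≤ K * ‖Z x - Z x'‖) :
    Function.Injective (par R ε Y Z) := by
  rintro ⟨i, ⟨s, hs⟩⟩ ⟨j, ⟨t, ht⟩⟩ h
  have h' : P R Y Z i s = P R Y Z j t := h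
  have hij : i = j := cluster_ne hp hR h1 h2 h12 i j hs ht h'
  subst hij
  have := P_antilip (R := R) K hlip i s hs t ht
  rw [h', sub_self, norm_zero, mul_zero] at this
  have hst : s = t := sub_eq_zero.mp (norm_le_zero_iff.mp this)
  subst hst
  rfl

theorem par_measurable (hY : Measurable Y) (hZ : Measurable Z) :
    Measurable (par R ε Y Z) := by
  apply measurable_from_prod_countable_right
  intro i
  exact (P_measurable hY hZ i).comp measurable_subtype_coe

theorem UU_measurable (hp : LocalPack e₁ ε Y Z) (hR : R e₁ = e₂) (h1 : ‖e₁‖ = 1) (h2 : ‖e₂‖ = 1)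
    (h12 : ⟪e₁, e₂⟫ = 0) (K : ℝ)
    (hlip : ∀ x ∈ Metric.ball (0 : E) ε, ∀ x' ∈ Metric.ball (0 : E) ε,
        ‖x - x'‖ ≤ K * ‖Y x - Y x'‖ ∧ ‖x - x'‖ ≤ K * ‖Z x - Z x'‖)
    (hY : Measurable Y) (hZ : Measurable Z) :
    Measurable (UU e₁ R ε Y Z) := by
  have : StandardBorelSpace (Metric.ball (0 : E) ε) :=
    (Metric.isOpen_ball.measurableSet).standardBorel
  have hemb : MeasurableEmbedding (par R ε Y Z) :=
    (par_measurable hY hZ).measurableEmbedding (par_injective hp hR h1 h2 h12 K hlip)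
  refine hemb.measurable_extend ?_ measurable_const
  apply measurable_from_prod_countable_right
  intro i
  exact ((pot_measurable hY hZ i).comp measurable_subtype_coe).ennreal_ofReal

theorem UU_apply (hp : LocalPack e₁ ε Y Z) (hR : R e₁ = e₂) (h1 : ‖e₁‖ = 1) (h2 : ‖e₂‖ = 1)
    (h12 : ⟪e₁, e₂⟫ = 0) (K : ℝ)
    (hlip : ∀ x ∈ Metric.ball (0 : E) ε, ∀ x' ∈ Metric.ball (0 : E) ε,
        ‖x - x'‖ ≤ K * ‖Y x - Y x'‖ ∧ ‖x - x'‖ ≤ K * ‖Z x - Z x'‖) (i : Fin 5) {s : E}
    (hs : s ∈ Metric.ball (0 : E) ε) :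
    UU e₁ R ε Y Z (P R Y Z i s) = ENNReal.ofReal (pot e₁ R Y Z i s) :=
  (par_injective hp hR h1 h2 h12 K hlip).extend_apply _ _ (i, ⟨s, hs⟩)

theorem UU_le (hp : LocalPack e₁ ε Y Z) (hR : R e₁ = e₂) (h1 : ‖e₁‖ = 1) (h2 : ‖e₂‖ = 1)
    (h12 : ⟪e₁, e₂⟫ = 0) (K : ℝ)
    (hlip : ∀ x ∈ Metric.ball (0 : E) ε, ∀ x' ∈ Metric.ball (0 : E) ε,
        ‖x - x'‖ ≤ K * ‖Y x - Y x'‖ ∧ ‖x - x'‖ ≤ K * ‖Z x - Z x'‖) (y : E) :
    UU e₁ R ε Y Z y ≤ 2 := by
  by_cases h : ∃ q, par R ε Y Z q = y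
  · obtain ⟨⟨i, ⟨s, hs⟩⟩, rfl⟩ := h
    have := UU_apply hp hR h1 h2 h12 K hlip i hs
    rw [show par R ε Y Z (i, ⟨s, hs⟩) = P R Y Z i s from rfl, this]
    refine ENNReal.ofReal_le_of_le_toReal ?_
    refine (pot_bounds (R := R) hp h1 i hs).2.trans ?_
    fin_cases i <;> simp [uTab] <;> norm_num
  · rw [UU, Function.extend_apply' _ _ _ h]
    simp

theorem main_construction (e₁ e₂ : E) (h1 : ‖e₁‖ = 1) (h2 : ‖e₂‖ = 1) (h12 : ⟪e₁, e₂⟫ = 0) :
    ∃ μ : Measure E, IsProbabilityMeasure μ ∧ (∃ S, IsCompact S ∧ μ Sᶜ = 0) ∧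
      (∃ C : ℝ≥0, μ ≤ C • (volume : Measure E)) ∧ kantorovich μ ≠ ∞ ∧
      ∀ T₂ T₃ : E → E, IsMongePair μ T₂ T₃ → mongeCost μ T₂ T₃ ≠ kantorovich μ := by
  classical
  let R : E ≃ₗᵢ[ℝ] E := (ℝ ∙ (e₁ - e₂))ᗮ.reflection
  have hR : R e₁ = e₂ := Submodule.reflection_sub (by rw [h1, h2])
  have hRR : ∀ x, R (R x) = x := fun x => Submodule.reflection_reflection _ _
  obtain ⟨ε, Y₀, Z₀, K, hε, hε1, hK, hY₀, hZ₀, hpk, hlip₀⟩ :=
    local_package e₁ h1 (1 / 100) (by norm_num)
  set D := Metric.ball (0 : E) ε with hD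
  have hDm : MeasurableSet D := Metric.isOpen_ball.measurableSet
  let Y : E → E := D.piecewise Y₀ (fun _ => 0)
  let Z : E → E := D.piecewise Z₀ (fun _ => 0)
  have hY : Measurable Y := hY₀.measurable_piecewise continuousOn_const hDm
  have hZ : Measurable Z := hZ₀.measurable_piecewise continuousOn_const hDm
  have hYe : ∀ x ∈ D, Y x = Y₀ x := fun x hx => Set.piecewise_eq_of_mem _ _ _ hx
  have hZe : ∀ x ∈ D, Z x = Z₀ x := fun x hx => Set.piecewise_eq_of_mem _ _ _ hx
  have hp : LocalPack e₁ ε Y Z := by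
    refine ⟨hε, hε1, ?_, ?_, ?_, ?_, ?_⟩ <;> intro x hx <;>
      simp only [hYe x hx, hZe x hx]
    · exact (hpk x hx).1
    · exact (hpk x hx).2.1
    · exact (hpk x hx).2.2.1
    · exact (hpk x hx).2.2.2.1
    · rw [← cR_base e₁ h1]; exact (hpk x hx).2.2.2.2
  have hlip : ∀ x ∈ D, ∀ x' ∈ D,
        ‖x - x'‖ ≤ K * ‖Y x - Y x'‖ ∧ ‖x - x'‖ ≤ K * ‖Z x - Z x'‖ := by
    intro x hx x' hx'
    rw [hYe x hx, hYe x' hx', hZe x hx, hZe x' hx']
    exact hlip₀ x hx x' hx'
  clear_value Y Z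
  clear hYe hZe hlip₀ hpk hY₀ hZ₀
  let F : Fin 4 → E → E := fun i => P R Y Z i.succ
  have hvD0 : volume D ≠ 0 := (Metric.isOpen_ball.measure_pos volume ⟨0, Metric.mem_ball_self hε⟩).ne'
  have hvDt : volume D ≠ ∞ := Metric.isBounded_ball.measure_lt_top.ne
  let ν : Measure E := (volume D)⁻¹ • volume.restrict D
  have hν : IsProbabilityMeasure ν := by
    refine ⟨?_⟩
    simp only [ν, Measure.smul_apply, smul_eq_mul, Measure.restrict_apply_univ]
    exact ENNReal.inv_mul_cancel hvD0 hvDt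
  have hνD : ν Dᶜ = 0 := by
    simp only [ν, Measure.smul_apply, smul_eq_mul, Measure.restrict_apply hDm.compl,
      compl_inter_self, measure_empty, mul_zero]
  have hPinj : ∀ i, InjOn (P R Y Z i) D := by
    intro i x hx y hy hxy
    have := P_antilip (R := R) K hlip i x hx y hy
    rw [hxy, sub_self, norm_zero, mul_zero] at this
    exact sub_eq_zero.mp (norm_le_zero_iff.mp this)
  have hmem : ∀ x ∈ D ∪ ⋃ i, F i '' D, ∃ i : Fin 5, ∃ s ∈ D, x = P R Y Z i s := by
    rintro x (hx | hx)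
    · exact ⟨0, x, hx, rfl⟩
    · simp only [mem_iUnion, mem_image] at hx
      obtain ⟨i, s, hs, rfl⟩ := hx
      exact ⟨i.succ, s, hs, rfl⟩
  let U : E → ℝ≥0∞ := UU e₁ R ε Y Z
  have hU : Measurable U := UU_measurable hp hR h1 h2 h12 K hlip hY hZ
  have hUv : ∀ (i : Fin 5) {s : E}, s ∈ D →
      U (P R Y Z i s) = ENNReal.ofReal (pot e₁ R Y Z i s) :=
    fun i s hs => UU_apply hp hR h1 h2 h12 K hlip i hs
  have hsum : ∀ (i j k : Fin 5) {s t r : E}, s ∈ D → t ∈ D → r ∈ D →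
      U (P R Y Z i s) + U (P R Y Z j t) + U (P R Y Z k r)
        = ENNReal.ofReal (pot e₁ R Y Z i s + pot e₁ R Y Z j t + pot e₁ R Y Z k r) := by
    intro i j k s t r hs ht hr
    have b1 := (pot_bounds (R := R) hp h1 i hs).1
    have b2 := (pot_bounds (R := R) hp h1 j ht).1
    have b3 := (pot_bounds (R := R) hp h1 k hr).1
    rw [hUv i hs, hUv j ht, hUv k hr, ENNReal.ofReal_add (by positivity) b3,
      ENNReal.ofReal_add b1 b2]
  have hle : ∀ x ∈ D ∪ ⋃ i, F i '' D, ∀ y ∈ D ∪ ⋃ i, F i '' D, ∀ z ∈ D ∪ ⋃ i, F i '' D,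
      U x + U y + U z ≤ coulombCost (x, y, z) := by
    intro x hx y hy z hz
    obtain ⟨i, s, hs, rfl⟩ := hmem x hx
    obtain ⟨j, t, ht, rfl⟩ := hmem y hy
    obtain ⟨k, r, hr, rfl⟩ := hmem z hz
    by_cases hne : P R Y Z i s = P R Y Z j t ∨ P R Y Z i s = P R Y Z k r ∨
        P R Y Z j t = P R Y Z k r
    · rw [cost_top _ _ _ hne]; exact le_top
    · push Not at hne
      obtain ⟨n1, n2, n3⟩ := hne
      rw [ofReal_cR_le _ _ _ n1 n2 n3, hsum i j k hs ht hr]
      exact ENNReal.ofReal_le_ofReal (contact hp hR hRR h1 h2 h12 i j k hs ht hr n1 n2 n3).1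
  have hbranch : ∀ (i j : Fin 5), i ≠ 0 → j ≠ 0 → i ≠ j → ∀ x ∈ D,
      pot e₁ R Y Z 0 x + pot e₁ R Y Z i x + pot e₁ R Y Z j x
        = cR (P R Y Z 0 x) (P R Y Z i x) (P R Y Z j x) →
      coulombCost (x, P R Y Z i x, P R Y Z j x) = U x + U (P R Y Z i x) + U (P R Y Z j x) := by
    intro i j hi hj hij x hx heq
    have n1 : P R Y Z 0 x ≠ P R Y Z i x := fun h => hi (cluster_ne hp hR h1 h2 h12 0 i hx hx h).symm
    have n2 : P R Y Z 0 x ≠ P R Y Z j x := fun h => hj (cluster_ne hp hR h1 h2 h12 0 j hx hx h).symm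
    have n3 : P R Y Z i x ≠ P R Y Z j x := fun h => hij (cluster_ne hp hR h1 h2 h12 i j hx hx h)
    have h0 : x = P R Y Z 0 x := rfl
    rw [h0, ← h0, show coulombCost (x, P R Y Z i x, P R Y Z j x)
      = coulombCost (P R Y Z 0 x, P R Y Z i x, P R Y Z j x) from rfl, ofReal_cR_le _ _ _ n1 n2 n3,
      ← heq, ← hsum 0 i j hx hx hx]
    rfl
  have key := abstract_obstruction ν D hDm hνD F (fun i => P_measurable hY hZ i.succ)
    (fun i => hPinj i.succ) (fun i => Metric.closedBall (site e₁ e₂ i.succ) (1 / 100))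
    (fun i => Metric.isClosed_closedBall.measurableSet)
    (fun i s hs => by
      rw [Metric.mem_closedBall, dist_eq_norm]
      exact near hp hR i.succ hs)
    (fun i => by
      rw [Set.disjoint_left]
      intro x hx hx'
      rw [Metric.mem_closedBall, dist_eq_norm] at hx'
      have n1 := near hp hR 0 hx
      have n3 := site_sep h1 h2 h12 0 i.succ (Fin.succ_ne_zero i).symm
      have h0 : P R Y Z 0 x = x := rfl
      rw [h0] at n1
      have : ‖site e₁ e₂ 0 - site e₁ e₂ i.succ‖ ≤ 1 / 100 + 1 / 100 := by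
        calc ‖site e₁ e₂ 0 - site e₁ e₂ i.succ‖
            = ‖(x - site e₁ e₂ i.succ) - (x - site e₁ e₂ 0)‖ := by congr 1; abel
          _ ≤ _ := (norm_sub_le _ _).trans (add_le_add hx' n1)
      norm_num at this
      linarith)
    (fun i j hij => by
      rw [Set.disjoint_left]
      intro x hx hx'
      rw [Metric.mem_closedBall, dist_eq_norm] at hx hx'
      have n3 := site_sep h1 h2 h12 i.succ j.succ (fun h => hij (Fin.succ_injective _ h))
      have : ‖site e₁ e₂ i.succ - site e₁ e₂ j.succ‖ ≤ 1 / 100 + 1 / 100 := by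
        calc ‖site e₁ e₂ i.succ - site e₁ e₂ j.succ‖
            = ‖(x - site e₁ e₂ j.succ) - (x - site e₁ e₂ i.succ)‖ := by congr 1; abel
          _ ≤ _ := (norm_sub_le _ _).trans (add_le_add hx' hx)
      norm_num at this
      linarith)
    U hU 2 (by simp) (fun x => UU_le hp hR h1 h2 h12 K hlip x) hle
    (fun x hx => hbranch 1 2 (by decide) (by decide) (by decide) x hx (by
      show UA x + UB e₁ (Y x) + UC e₁ Y Z x = cR x (Y x) (Z x)
      unfold UC; ring))
    (fun x hx => hbranch 3 4 (by decide) (by decide) (by decide) x hx (by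
      show UA x + UB e₁ (Y (R x)) + UC e₁ Y Z (R x) = cR x (R (Y (R x))) (R (Z (R x)))
      have : cR x (R (Y (R x))) (R (Z (R x))) = cR (R x) (Y (R x)) (Z (R x)) := by
        have h := cR_isometry R (R x) (Y (R x)) (Z (R x))
        rwa [hRR x] at h
      rw [this]
      unfold UC; rw [UA_isometry]; ring))
    (by
      intro x hx y hy z hz heq
      obtain ⟨j, t, ht, rfl⟩ := hmem y hy
      obtain ⟨k, r, hr, rfl⟩ := hmem z hz
      have h0 : x = P R Y Z 0 x := rfl
      rw [h0, hsum 0 j k hx ht hr] at heq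
      by_cases hne : P R Y Z 0 x = P R Y Z j t ∨ P R Y Z 0 x = P R Y Z k r ∨
          P R Y Z j t = P R Y Z k r
      · rw [cost_top _ _ _ hne] at heq
        exact absurd heq.symm ENNReal.ofReal_ne_top
      · push Not at hne
        obtain ⟨n1, n2, n3⟩ := hne
        rw [ofReal_cR_le _ _ _ n1 n2 n3] at heq
        have hc := contact hp hR hRR h1 h2 h12 0 j k hx ht hr n1 n2 n3
        have b1 := (pot_bounds (R := R) hp h1 0 hx).1
        have b2 := (pot_bounds (R := R) hp h1 j ht).1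
        have b3 := (pot_bounds (R := R) hp h1 k hr).1
        have hcR : 0 ≤ cR (P R Y Z 0 x) (P R Y Z j t) (P R Y Z k r) := by unfold cR; positivity
        have heq' := (ENNReal.ofReal_eq_ofReal_iff hcR (by positivity)).mp heq
        obtain ⟨l, hl, hl2⟩ := hc.2 heq'.symm rfl
        obtain ⟨m, rfl⟩ := Fin.exists_succ_eq.mpr hl
        exact ⟨m, hl2⟩)
  obtain ⟨k1, k2, k3⟩ := key
  refine ⟨fiveMeasure ν F, k1, ?_, ?_, k2, k3⟩
  · -- compact support
    refine ⟨Metric.closedBall 0 2, isCompact_closedBall 0 2, ?_⟩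
    have hS : MeasurableSet (Metric.closedBall (0 : E) 2)ᶜ :=
      Metric.isClosed_closedBall.measurableSet.compl
    have hP : ∀ (i : Fin 5), ∀ s ∈ D, P R Y Z i s ∈ Metric.closedBall (0 : E) 2 := by
      intro i s hs
      have n1 := near hp hR i hs
      have n2 : ‖site e₁ e₂ i‖ ≤ 1 := by
        fin_cases i <;> simp [site, h1, h2]
      rw [mem_closedBall_zero_iff]
      have : ‖P R Y Z i s‖ ≤ ‖P R Y Z i s - site e₁ e₂ i‖ + ‖site e₁ e₂ i‖ := by
        simpa using norm_add_le (P R Y Z i s - site e₁ e₂ i) (site e₁ e₂ i)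
      linarith
    have h0 : ∀ i : Fin 5, ν (P R Y Z i ⁻¹' (Metric.closedBall (0 : E) 2)ᶜ) = 0 := by
      intro i
      refine measure_mono_null ?_ hνD
      intro x hx hxD
      exact hx (hP i x hxD)
    have h0' : ν (Metric.closedBall (0 : E) 2)ᶜ = 0 := h0 0
    simp only [fiveMeasure, Measure.add_apply, Measure.smul_apply, smul_eq_mul, h0', F]
    rw [Measure.map_apply (P_measurable hY hZ _) hS, Measure.map_apply (P_measurable hY hZ _) hS,
      Measure.map_apply (P_measurable hY hZ _) hS, Measure.map_apply (P_measurable hY hZ _) hS,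
      h0, h0, h0, h0]
    simp
  · -- bounded density
    let K' : ℝ≥0 := Real.toNNReal (max 1 K)
    have hK' : (K' : ℝ) = max 1 K := Real.coe_toNNReal _ (by positivity)
    let C₀ : ℝ≥0∞ := (volume D)⁻¹ * (K' : ℝ≥0∞) ^ (Module.finrank ℝ E)
    have hC₀ : C₀ ≠ ∞ := by
      refine ENNReal.mul_ne_top (ENNReal.inv_ne_top.mpr hvD0) ?_
      exact ENNReal.pow_ne_top ENNReal.coe_ne_top
    have hm : ∀ i : Fin 5, ν.map (P R Y Z i) ≤ C₀ • (volume : Measure E) := by
      intro i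
      have h := map_restrict_le (P R Y Z i) (P_measurable hY hZ i) D K' (by
        rw [hK']; exact P_antilip (R := R) K hlip i)
      simp only [ν, Measure.map_smul, C₀, mul_smul]
      rw [Measure.le_iff] at h ⊢
      intro S hS
      have := h S hS
      simp only [Measure.smul_apply, smul_eq_mul] at this ⊢
      gcongr
    have hm0 : ν ≤ C₀ • (volume : Measure E) := by
      have := hm 0
      rwa [show P R Y Z 0 = id from rfl, Measure.map_id] at this
    refine ⟨(5 * C₀).toNNReal, ?_⟩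
    rw [Measure.le_iff]
    intro S hS
    have a0 := Measure.le_iff.mp hm0 S hS
    have a1 := Measure.le_iff.mp (hm 1) S hS
    have a2 := Measure.le_iff.mp (hm 2) S hS
    have a3 := Measure.le_iff.mp (hm 3) S hS
    have a4 := Measure.le_iff.mp (hm 4) S hS
    have hC : (((5 * C₀).toNNReal : ℝ≥0) : ℝ≥0∞) = 5 * C₀ :=
      ENNReal.coe_toNNReal (ENNReal.mul_ne_top (by simp) hC₀)
    simp only [fiveMeasure, Measure.add_apply, Measure.smul_apply, smul_eq_mul, F,
      ENNReal.smul_def, hC] at a0 a1 a2 a3 a4 ⊢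
    have b3 : (3 : ℝ≥0∞)⁻¹ ≤ 1 := by simp
    have b6 : (6 : ℝ≥0∞)⁻¹ ≤ 1 := by simp
    calc _ ≤ 1 * (C₀ * volume S) + 1 * (C₀ * volume S + C₀ * volume S + C₀ * volume S
          + C₀ * volume S) := by
          gcongr <;> assumption
      _ = 5 * C₀ * volume S := by ring

end assembly

end Vale.Agent.P121
end
end

section

section

open MeasureTheory Set
open scoped ENNReal

namespace Vale.Agent.P121

section Perm

variable {E : Type*} [NormedAddCommGroup E] {N : ℕ}

lemma two_coulombN (x : Fin N → E) :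
    2 * coulombN x = ∑ i, ∑ j ∈ {i}ᶜ, (edist (x j) (x i))⁻¹ := by
  rw [← Finset.sum_sum_Ioi_add_eq_sum_sum_off_diag, coulombN, Finset.mul_sum]
  refine Finset.sum_congr rfl fun i _ => ?_
  rw [Finset.mul_sum]
  refine Finset.sum_congr rfl fun j _ => ?_
  rw [edist_comm (x j) (x i), two_mul]

lemma coulombN_perm (σ : Equiv.Perm (Fin N)) (x : Fin N → E) :
    coulombN (fun i => x (σ i)) = coulombN x := by
  have h : 2 * coulombN (fun i => x (σ i)) = 2 * coulombN x := by
    rw [two_coulombN, two_coulombN,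
      ← Equiv.sum_comp σ (fun i => ∑ j ∈ {i}ᶜ, (edist (x j) (x i))⁻¹)]
    refine Finset.sum_congr rfl fun i _ => ?_
    refine Finset.sum_bij' (fun j _ => σ j) (fun j _ => σ.symm j) ?_ ?_ ?_ ?_ ?_
    · intro j hj
      simp only [Finset.mem_compl, Finset.mem_singleton] at hj ⊢
      exact fun h => hj (σ.injective h)
    · intro j hj
      simp only [Finset.mem_compl, Finset.mem_singleton] at hj ⊢
      intro h
      exact hj (by rw [← h, Equiv.apply_symm_apply])
    · intro j _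
      simp
    · intro j _
      simp
    · intro j _
      rfl
  exact (ENNReal.mul_right_inj (by norm_num) (by norm_num)).1 h

variable [MeasurableSpace E] [BorelSpace E] [SecondCountableTopology E]

lemma measurable_coulombN : Measurable (coulombN : (Fin N → E) → ℝ≥0∞) := by
  unfold coulombN
  refine Finset.measurable_sum _ fun i _ => Finset.measurable_sum _ fun j _ => ?_
  exact ((measurable_pi_apply i).edist (measurable_pi_apply j)).inv

end Perm

section Duality

variable {E : Type*} [NormedAddCommGroup E] [MeasurableSpace E] {N : ℕ}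

lemma lintegral_couplingN {μ : Measure E} {π : Measure (Fin N → E)} (hπ : IsCouplingN μ π)
    {U : E → ℝ≥0∞} (hU : Measurable U) :
    ∫⁻ p, ∑ i, U (p i) ∂π = N * ∫⁻ x, U x ∂μ := by
  have hm : ∀ i : Fin N, Measurable (fun p : Fin N → E => U (p i)) :=
    fun i => hU.comp (measurable_pi_apply i)
  rw [lintegral_finsetSum _ (fun i _ => hm i)]
  have h : ∀ i : Fin N, ∫⁻ p, U (p i) ∂π = ∫⁻ x, U x ∂μ := by
    intro i
    rw [← hπ i, lintegral_map hU (measurable_pi_apply i)]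
  simp only [h]
  simp only [Finset.sum_const, Finset.card_univ, Fintype.card_fin, nsmul_eq_mul]

lemma coupling_ae_memN {μ : Measure E} {π : Measure (Fin N → E)} (hπ : IsCouplingN μ π)
    {S : Set E} (hS : ∀ᵐ x ∂μ, x ∈ S) :
    ∀ᵐ p ∂π, ∀ i, p i ∈ S := by
  rw [ae_all_iff]
  intro i
  have := hS
  rw [← hπ i] at this
  exact ae_of_ae_map (measurable_pi_apply i).aemeasurable this

lemma isProbabilityMeasure_couplingN [NeZero N] {μ : Measure E} [IsProbabilityMeasure μ]
    {π : Measure (Fin N → E)} (hπ : IsCouplingN μ π) : IsProbabilityMeasure π := by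
  constructor
  have h := hπ 0
  have h2 : μ univ = 1 := measure_univ
  rw [← h2, ← h, Measure.map_apply (measurable_pi_apply 0) MeasurableSet.univ, preimage_univ]

lemma le_kantorovichN [NeZero N] {μ : Measure E} [IsProbabilityMeasure μ]
    {S : Set E} (hS : ∀ᵐ x ∂μ, x ∈ S) {U : E → ℝ≥0∞} (hU : Measurable U) {C : ℝ≥0∞}
    (hle : ∀ x : Fin N → E, (∀ i, x i ∈ S) → ∑ i, U (x i) ≤ coulombN x + C) :
    N * ∫⁻ x, U x ∂μ ≤ kantorovichN N μ + C := by
  unfold kantorovichN
  rw [ENNReal.iInf_add]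
  refine le_iInf fun π => ?_
  rw [ENNReal.iInf_add]
  refine le_iInf fun hπ => ?_
  have hp : IsProbabilityMeasure π := isProbabilityMeasure_couplingN hπ
  rw [← lintegral_couplingN hπ hU]
  calc ∫⁻ p, ∑ i, U (p i) ∂π ≤ ∫⁻ p, (coulombN p + C) ∂π := by
        refine lintegral_mono_ae ?_
        filter_upwards [coupling_ae_memN hπ hS] with p hp using hle p hp
    _ = ∫⁻ p, coulombN p ∂π + C := by
        rw [lintegral_add_right _ measurable_const]
        simp only [lintegral_const, measure_univ, mul_one]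

lemma kantorovichN_add_le [NeZero N] {μ : Measure E} [IsProbabilityMeasure μ]
    {π : Measure (Fin N → E)} (hπ : IsCouplingN μ π)
    {U : E → ℝ≥0∞} (hU : Measurable U) {C : ℝ≥0∞}
    (heq : ∀ᵐ p ∂π, coulombN p + C = ∑ i, U (p i)) :
    kantorovichN N μ + C ≤ N * ∫⁻ x, U x ∂μ := by
  have hp : IsProbabilityMeasure π := isProbabilityMeasure_couplingN hπ
  have h1 : kantorovichN N μ ≤ ∫⁻ p, coulombN p ∂π := iInf₂_le π hπ
  calc kantorovichN N μ + C ≤ ∫⁻ p, coulombN p ∂π + C := by gcongr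
    _ = ∫⁻ p, (coulombN p + C) ∂π := by
        rw [lintegral_add_right _ measurable_const]
        simp only [lintegral_const, measure_univ, mul_one]
    _ = ∫⁻ p, ∑ i, U (p i) ∂π := lintegral_congr_ae heq
    _ = N * ∫⁻ x, U x ∂μ := lintegral_couplingN hπ hU

lemma IsMongeN.isCoupling {μ : Measure E} {T : Fin N → E → E} (h : IsMongeN μ T) :
    IsCouplingN μ (μ.map fun x i => T i x) := by
  intro i
  rw [Measure.map_map (measurable_pi_apply i) (measurable_pi_lambda _ fun j => (h.2 j).1)]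
  exact (h.2 i).2

end Duality

section Monge

variable {E : Type*} [NormedAddCommGroup E] [MeasurableSpace E] [BorelSpace E]
    [SecondCountableTopology E] {N : ℕ}

/-- An optimal Monge plan lives on the contact set. -/
lemma monge_contactN [NeZero N] {μ : Measure E} [IsProbabilityMeasure μ]
    {S : Set E} (hS : ∀ᵐ x ∂μ, x ∈ S) {U : E → ℝ≥0∞} (hU : Measurable U) {C : ℝ≥0∞}
    (hle : ∀ x : Fin N → E, (∀ i, x i ∈ S) → ∑ i, U (x i) ≤ coulombN x + C)
    (hfin : N * ∫⁻ x, U x ∂μ ≠ ∞)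
    {T : Fin N → E → E} (hT : IsMongeN μ T)
    (hopt : mongeCostN μ T + C ≤ N * ∫⁻ x, U x ∂μ) :
    ∀ᵐ x ∂μ, (∀ i, T i x ∈ S) ∧ coulombN (fun i => T i x) + C = ∑ i, U (T i x) := by
  have m : Measurable (fun x : E => fun i => T i x) :=
    measurable_pi_lambda _ fun j => (hT.2 j).1
  have hmem : ∀ᵐ x ∂μ, ∀ i, T i x ∈ S := by
    have := coupling_ae_memN hT.isCoupling hS
    exact ae_of_ae_map m.aemeasurable this
  have hint : ∫⁻ x, ∑ i, U (T i x) ∂μ = N * ∫⁻ x, U x ∂μ := by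
    rw [← lintegral_couplingN hT.isCoupling hU, lintegral_map _ m]
    exact Finset.measurable_sum _ fun i _ => hU.comp (measurable_pi_apply i)
  have hle' : (fun x => ∑ i, U (T i x)) ≤ᵐ[μ] fun x => coulombN (fun i => T i x) + C := by
    filter_upwards [hmem] with x hx
    exact hle _ hx
  have hint2 : ∫⁻ x, (coulombN (fun i => T i x) + C) ∂μ = mongeCostN μ T + C := by
    rw [lintegral_add_right _ measurable_const]
    simp only [lintegral_const, measure_univ, mul_one, mongeCostN]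
  have heq := ae_eq_of_ae_le_of_lintegral_le hle' (by rw [hint]; exact hfin)
    ((measurable_coulombN.comp m).add_const C).aemeasurable (by rw [hint, hint2]; exact hopt)
  filter_upwards [hmem, heq] with x hx hx'
  exact ⟨hx, hx'.symm⟩

end Monge

section Meas

variable {E : Type*} [NormedAddCommGroup E] [MeasurableSpace E] {N : ℕ}

/-- The counterexample measure. -/
noncomputable def measN (ν : Measure E) (F : Fin 2 → Fin N → E → E) : Measure E :=
  (2 * N : ℝ≥0∞)⁻¹ • ∑ j, ∑ i, ν.map (F j i)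

lemma measN_apply (ν : Measure E) {F : Fin 2 → Fin N → E → E} (hF : ∀ j i, Measurable (F j i))
    {s : Set E} (hs : MeasurableSet s) :
    measN ν F s = (2 * N : ℝ≥0∞)⁻¹ * ∑ j, ∑ i, ν (F j i ⁻¹' s) := by
  simp only [measN, Measure.smul_apply, Measure.finsetSum_apply, smul_eq_mul]
  congr 1
  refine Finset.sum_congr rfl fun j _ => Finset.sum_congr rfl fun i _ => ?_
  rw [Measure.map_apply (hF j i) hs]

lemma two_N_ne_zero [NeZero N] : (2 * N : ℝ≥0∞) ≠ 0 := by
  simp only [ne_eq, mul_eq_zero, OfNat.ofNat_ne_zero, Nat.cast_eq_zero, NeZero.ne N, or_self, not_false_eq_true]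

lemma two_N_ne_top : (2 * N : ℝ≥0∞) ≠ ∞ :=
  ENNReal.mul_ne_top (by norm_num) (ENNReal.natCast_ne_top N)

lemma isProbabilityMeasure_measN [NeZero N] (ν : Measure E) [IsProbabilityMeasure ν]
    {F : Fin 2 → Fin N → E → E} (hF : ∀ j i, Measurable (F j i)) :
    IsProbabilityMeasure (measN ν F) := by
  constructor
  rw [measN_apply ν hF MeasurableSet.univ]
  simp only [preimage_univ, measure_univ, Finset.sum_const, Finset.card_univ, Fintype.card_fin, nsmul_eq_mul, mul_one, Nat.cast_ofNat]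
  exact ENNReal.inv_mul_cancel two_N_ne_zero two_N_ne_top

/-- the optimal plan -/
noncomputable def planN [NeZero N] (ν : Measure E) (F : Fin 2 → Fin N → E → E) :
    Measure (Fin N → E) :=
  (2 * N : ℝ≥0∞)⁻¹ • ∑ j, ∑ k, ν.map (fun x i => F j (i + k) x)

lemma planN_isCoupling [NeZero N] (ν : Measure E) {F : Fin 2 → Fin N → E → E}
    (hF : ∀ j i, Measurable (F j i)) : IsCouplingN (measN ν F) (planN ν F) := by
  intro i
  have m : ∀ (j : Fin 2) (k : Fin N), Measurable (fun (x : E) (i : Fin N) => F j (i + k) x) :=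
    fun j k => measurable_pi_lambda _ fun i => hF j (i + k)
  rw [planN, Measure.map_smul, measN]
  congr 1
  rw [Measure.map_finset_sum' (measurable_pi_apply i).aemeasurable]
  refine Finset.sum_congr rfl fun j _ => ?_
  rw [Measure.map_finset_sum' (measurable_pi_apply i).aemeasurable]
  rw [← Equiv.sum_comp (Equiv.addLeft i) (fun k => ν.map (F j k))]
  refine Finset.sum_congr rfl fun k _ => ?_
  rw [Measure.map_map (measurable_pi_apply i) (m j k)]
  rfl

lemma ae_sum_measure {α ι : Type*} [MeasurableSpace α] (s : Finset ι) (m : ι → Measure α)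
    {p : α → Prop} (h : ∀ i ∈ s, ∀ᵐ x ∂(m i), p x) : ∀ᵐ x ∂(∑ i ∈ s, m i), p x := by
  classical
  induction s using Finset.induction_on with
  | empty => simp only [Finset.sum_empty, ae_zero, Filter.eventually_bot]
  | insert a s ha ih =>
    rw [Finset.sum_insert ha, ae_add_measure_iff]
    exact ⟨h a (Finset.mem_insert_self a s), ih fun i hi => h i (Finset.mem_insert_of_mem hi)⟩

variable [BorelSpace E] [SecondCountableTopology E]

lemma planN_ae [NeZero N] {ν : Measure E} {D : Set E} (hνD : ν Dᶜ = 0)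
    {F : Fin 2 → Fin N → E → E} (hF : ∀ j i, Measurable (F j i))
    {U : E → ℝ≥0∞} (hU : Measurable U) {C : ℝ≥0∞}
    (heq : ∀ j, ∀ x ∈ D, coulombN (fun i => F j i x) + C = ∑ i, U (F j i x)) :
    ∀ᵐ p ∂(planN ν F), coulombN p + C = ∑ i, U (p i) := by
  have hD : ∀ᵐ x ∂ν, x ∈ D := by
    rw [ae_iff]; exact hνD
  have hms : MeasurableSet {p : Fin N → E | coulombN p + C = ∑ i, U (p i)} :=
    measurableSet_eq_fun (measurable_coulombN.add_const C)
      (Finset.measurable_sum _ fun i _ => hU.comp (measurable_pi_apply i))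
  rw [planN]
  refine Measure.ae_smul_measure ?_ _
  refine ae_sum_measure _ _ fun j _ => ae_sum_measure _ _ fun k _ => ?_
  have m : Measurable (fun (x : E) (i : Fin N) => F j (i + k) x) :=
    measurable_pi_lambda _ fun i => hF j (i + k)
  rw [ae_map_iff m.aemeasurable hms]
  filter_upwards [hD] with x hx
  have e1 : coulombN (fun i => F j (i + k) x) = coulombN (fun i => F j i x) :=
    coulombN_perm (Equiv.addRight k) (fun i => F j i x)
  have e2 : ∑ i, U (F j (i + k) x) = ∑ i, U (F j i x) :=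
    Equiv.sum_comp (Equiv.addRight k) (fun i => U (F j i x))
  rw [e1, e2]
  exact heq j x hx

lemma ae_map_mem_imageN [CompleteSpace E] {ν : Measure E} {D : Set E} (hD : MeasurableSet D)
    (hνD : ν Dᶜ = 0) {f : E → E} (hf : Measurable f) (hinj : InjOn f D) :
    ∀ᵐ x ∂(ν.map f), x ∈ f '' D := by
  have hm : MeasurableSet (f '' D) := hD.image_of_measurable_injOn hf hinj
  rw [ae_map_iff (p := fun x => x ∈ f '' D) hf.aemeasurable hm]
  have : ∀ᵐ x ∂ν, x ∈ D := by rw [ae_iff]; exact hνD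
  filter_upwards [this] with x hx using mem_image_of_mem f hx

lemma measN_ae_mem [CompleteSpace E] {ν : Measure E} {D : Set E} (hD : MeasurableSet D)
    (hνD : ν Dᶜ = 0) {F : Fin 2 → Fin N → E → E} (hF : ∀ j i, Measurable (F j i))
    (hinj : ∀ j i, InjOn (F j i) D) :
    ∀ᵐ x ∂(measN ν F), x ∈ ⋃ j, ⋃ i, F j i '' D := by
  rw [measN]
  refine Measure.ae_smul_measure ?_ _
  refine ae_sum_measure _ _ fun j _ => ae_sum_measure _ _ fun i _ => ?_
  filter_upwards [ae_map_mem_imageN hD hνD (hF j i) (hinj j i)] with x hx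
  exact mem_iUnion₂.2 ⟨j, i, hx⟩

/-- the mass of the image of a piece of the central cluster under a branch map whose cluster is
disjoint from all others -/
lemma measN_image [CompleteSpace E] (ν : Measure E) {D : Set E} (hνD : ν Dᶜ = 0)
    {F : Fin 2 → Fin N → E → E} (hF : ∀ j i, Measurable (F j i))
    (hinj : ∀ j i, InjOn (F j i) D) {b : Fin N}
    (hsep : ∀ j j' i, (j', i) ≠ (j, b) → Disjoint (F j b '' D) (F j' i '' D))
    (j : Fin 2) {A : Set E} (hA : MeasurableSet A) (hAD : A ⊆ D) :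
    measN ν F (F j b '' A) = (2 * N : ℝ≥0∞)⁻¹ * ν A := by
  have hm : MeasurableSet (F j b '' A) :=
    hA.image_of_measurable_injOn (hF j b) ((hinj j b).mono hAD)
  rw [measN_apply ν hF hm]
  congr 1
  have hzero : ∀ j' i, (j', i) ≠ (j, b) → ν (F j' i ⁻¹' (F j b '' A)) = 0 := by
    intro j' i hne
    refine measure_mono_null ?_ hνD
    intro x hx hxD
    exact (hsep j j' i hne).le_bot ⟨image_mono hAD hx, mem_image_of_mem _ hxD⟩
  have heq : ν (F j b ⁻¹' (F j b '' A)) = ν A := by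
    refine le_antisymm ?_ (measure_mono (subset_preimage_image _ _))
    have : F j b ⁻¹' (F j b '' A) ⊆ A ∪ Dᶜ := by
      intro x hx
      by_cases hxD : x ∈ D
      · obtain ⟨y, hy, hxy⟩ := hx
        have : y = x := hinj j b (hAD hy) hxD hxy
        exact Or.inl (this ▸ hy)
      · exact Or.inr hxD
    refine (measure_mono this).trans ((measure_union_le _ _).trans ?_)
    rw [hνD, add_zero]
  rw [Finset.sum_eq_single j, Finset.sum_eq_single b, heq]
  · intro i _ hi
    exact hzero j i (fun h => hi (Prod.ext_iff.1 h).2)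
  · intro h
    exact absurd (Finset.mem_univ b) h
  · intro j' _ hj'
    exact Finset.sum_eq_zero fun i _ => hzero j' i (fun h => hj' (Prod.ext_iff.1 h).1)
  · intro h
    exact absurd (Finset.mem_univ j) h

end Meas

/-- Abstract measure theoretic part for `N` particles. -/
theorem abstractN {E : Type*} [NormedAddCommGroup E] [MeasurableSpace E] [BorelSpace E]
    [SecondCountableTopology E] [CompleteSpace E] {N : ℕ} [NeZero N]
    (ν : Measure E) [IsProbabilityMeasure ν] (D : Set E) (hD : MeasurableSet D) (hνD : ν Dᶜ = 0)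
    (F : Fin 2 → Fin N → E → E) (hF : ∀ j i, Measurable (F j i))
    (hinj : ∀ j i, InjOn (F j i) D) (hF0 : ∀ j, ∀ x ∈ D, F j 0 x = x) (b : Fin N)
    (hsep : ∀ j j' i, (j', i) ≠ (j, b) → Disjoint (F j b '' D) (F j' i '' D))
    (U : E → ℝ≥0∞) (hU : Measurable U) (M : ℝ≥0∞) (hM : M ≠ ∞) (hUM : ∀ x, U x ≤ M)
    (C : ℝ≥0∞) (hC : C ≠ ∞)
    (hle : ∀ x : Fin N → E, (∀ i, x i ∈ ⋃ j, ⋃ i, F j i '' D) → ∑ i, U (x i) ≤ coulombN x + C)
    (heq : ∀ j, ∀ x ∈ D, coulombN (fun i => F j i x) + C = ∑ i, U (F j i x))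
    (hcontact : ∀ x : Fin N → E, (∀ i, x i ∈ ⋃ j, ⋃ i, F j i '' D) → x 0 ∈ D →
      coulombN x + C = ∑ i, U (x i) → ∃ j k, x k = F j b (x 0)) :
    IsProbabilityMeasure (measN ν F) ∧ kantorovichN N (measN ν F) ≠ ∞ ∧
    ∀ T : Fin N → E → E, IsMongeN (measN ν F) T →
      mongeCostN (measN ν F) T ≠ kantorovichN N (measN ν F) := by
  have hprob : IsProbabilityMeasure (measN ν F) := isProbabilityMeasure_measN ν hF
  have hS := measN_ae_mem hD hνD hF hinj
  have hfin : N * ∫⁻ x, U x ∂(measN ν F) ≠ ∞ := by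
    refine ENNReal.mul_ne_top (ENNReal.natCast_ne_top N) ?_
    refine ne_top_of_le_ne_top hM ?_
    calc ∫⁻ x, U x ∂(measN ν F) ≤ ∫⁻ _, M ∂(measN ν F) := lintegral_mono hUM
      _ = M := by simp only [lintegral_const, measure_univ, mul_one]
  have hval : kantorovichN N (measN ν F) + C = N * ∫⁻ x, U x ∂(measN ν F) :=
    le_antisymm (kantorovichN_add_le (planN_isCoupling ν hF) hU (planN_ae hνD hF hU heq))
      (le_kantorovichN hS hU hle)
  have hKfin : kantorovichN N (measN ν F) ≠ ∞ := by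
    refine ne_top_of_le_ne_top hfin ?_
    rw [← hval]
    exact le_self_add
  refine ⟨hprob, hKfin, ?_⟩
  intro T hT hopt
  have hcon := monge_contactN hS hU hle hfin hT (by rw [hopt, hval])
  -- the pieces
  have hAm : ∀ j k, MeasurableSet {x | x ∈ D ∧ T k x = F j b x} := fun j k =>
    hD.inter (measurableSet_eq_fun (hT.2 k).1 (hF j b))
  have hlow : ∀ A : Set E, MeasurableSet A → A ⊆ D →
      2 * ((2 * N : ℝ≥0∞)⁻¹ * ν A) ≤ measN ν F A := by
    intro A hA hAD
    rw [measN_apply ν hF hA, mul_left_comm]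
    gcongr
    have h0 : ∀ j, ν A ≤ ν (F j 0 ⁻¹' A) := by
      intro j
      refine measure_mono fun x hx => ?_
      rw [mem_preimage, hF0 j x (hAD hx)]
      exact hx
    rw [Fin.sum_univ_two, two_mul]
    exact add_le_add ((h0 0).trans (Finset.single_le_sum (f := fun i => ν (F 0 i ⁻¹' A))
        (fun i _ => bot_le) (Finset.mem_univ 0)))
      ((h0 1).trans (Finset.single_le_sum (f := fun i => ν (F 1 i ⁻¹' A))
        (fun i _ => bot_le) (Finset.mem_univ 0)))
  have hNinv : (2 * N : ℝ≥0∞)⁻¹ ≠ 0 := ENNReal.inv_ne_zero.2 two_N_ne_top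
  have hNinv' : (2 * N : ℝ≥0∞)⁻¹ ≠ ∞ := ENNReal.inv_ne_top.2 two_N_ne_zero
  have hzero : ∀ j k, ν {x | x ∈ D ∧ T k x = F j b x} = 0 := by
    intro j k
    set A := {x | x ∈ D ∧ T k x = F j b x} with hAdef
    have hAD : A ⊆ D := fun x hx => hx.1
    have himg : MeasurableSet (F j b '' A) :=
      (hAm j k).image_of_measurable_injOn (hF j b) ((hinj j b).mono hAD)
    have h1 : measN ν F A ≤ (2 * N : ℝ≥0∞)⁻¹ * ν A := by
      rw [← measN_image ν hνD hF hinj hsep j (hAm j k) hAD]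
      conv_rhs => rw [← (hT.2 k).2]
      rw [Measure.map_apply (hT.2 k).1 himg]
      refine measure_mono ?_
      intro x hx
      exact ⟨x, hx, hx.2.symm⟩
    have h2 := (hlow A (hAm j k) hAD).trans h1
    set q := (2 * N : ℝ≥0∞)⁻¹ * ν A with hq
    have hqfin : q ≠ ∞ := ENNReal.mul_ne_top hNinv' (measure_ne_top ν A)
    rw [two_mul] at h2
    have h5 : q + q ≤ q + 0 := by simpa only [add_zero] using h2
    have h6 := (ENNReal.add_le_add_iff_left hqfin).1 h5
    have h7 : q = 0 := le_antisymm h6 bot_le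
    exact (mul_eq_zero.1 h7).resolve_left hNinv
  have hac : ν ≪ measN ν F := by
    refine Measure.AbsolutelyContinuous.mk fun s hs h => ?_
    have h1 := hlow (s ∩ D) (hs.inter hD) inter_subset_right
    have h2 : measN ν F (s ∩ D) = 0 := measure_mono_null inter_subset_left h
    rw [h2] at h1
    have h3 := le_antisymm h1 bot_le
    have h4 : ν (s ∩ D) = 0 := by
      rcases mul_eq_zero.1 h3 with h' | h'
      · exact absurd h' (by norm_num)
      · exact (mul_eq_zero.1 h').resolve_left hNinv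
    refine le_antisymm ?_ bot_le
    calc ν s ≤ ν (s ∩ D ∪ Dᶜ) := by
          refine measure_mono fun x hx => ?_
          by_cases hxD : x ∈ D
          · exact Or.inl ⟨hx, hxD⟩
          · exact Or.inr hxD
      _ ≤ ν (s ∩ D) + ν Dᶜ := measure_union_le _ _
      _ = 0 := by rw [h4, hνD, add_zero]
  have hcon' := hac.ae_le hcon
  have hDae : ∀ᵐ x ∂ν, x ∈ D := by rw [ae_iff]; exact hνD
  have hnot : ∀ᵐ x ∂ν, ∀ j k, ¬ (x ∈ D ∧ T k x = F j b x) := by
    rw [ae_all_iff]
    intro j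
    rw [ae_all_iff]
    intro k
    rw [ae_iff]
    simp only [not_not]
    exact hzero j k
  have hT0 : T 0 = id := hT.1 0 (by simp)
  have hfalse : ∀ᵐ x ∂ν, False := by
    filter_upwards [hcon', hDae, hnot] with x h1 h2 h3
    have hx0 : T 0 x = x := by rw [hT0]; rfl
    obtain ⟨j, k, hk⟩ := hcontact (fun i => T i x) h1.1 (by simp only [hx0]; exact h2) h1.2
    simp only [hx0] at hk
    exact h3 j k ⟨h2, hk⟩
  rw [ae_iff] at hfalse
  simp at hfalse

end Vale.Agent.P121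
end
end

section

section

open Set
open scoped RealInnerProductSpace ENNReal

namespace Vale.Agent.P121

section RealCost

variable {E : Type*} [NormedAddCommGroup E] {N : ℕ}

/-- the Coulomb energy of `N` points as a real number (correct when the points are distinct) -/
noncomputable def cRN (x : Fin N → E) : ℝ := 1 / 2 * ∑ i, ∑ j, ‖x i - x j‖⁻¹

lemma cRN_nonneg (x : Fin N → E) : 0 ≤ cRN x := by
  unfold cRN
  refine mul_nonneg (by norm_num) (Finset.sum_nonneg fun i _ => Finset.sum_nonneg fun j _ => ?_)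
  positivity

lemma coulombN_eq_ofReal {x : Fin N → E} (hx : Function.Injective x) :
    coulombN x = ENNReal.ofReal (cRN x) := by
  have h : 2 * coulombN x = 2 * ENNReal.ofReal (cRN x) := by
    rw [two_coulombN]
    have h1 : ∀ i, ∑ j ∈ {i}ᶜ, (edist (x j) (x i))⁻¹ =
        ENNReal.ofReal (∑ j, ‖x i - x j‖⁻¹) := by
      intro i
      rw [ENNReal.ofReal_sum_of_nonneg (fun j _ => by positivity),
        ← Finset.sum_compl_add_sum {i} (fun j => ENNReal.ofReal ‖x i - x j‖⁻¹)]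
      rw [Finset.sum_singleton, sub_self, norm_zero, inv_zero, ENNReal.ofReal_zero, add_zero]
      refine Finset.sum_congr rfl fun j hj => ?_
      simp only [Finset.mem_compl, Finset.mem_singleton] at hj
      have hne : x i ≠ x j := fun h => hj (hx h.symm)
      rw [edist_comm, edist_dist, dist_eq_norm, ENNReal.ofReal_inv_of_pos]
      exact norm_sub_pos_iff.2 hne
    simp only [h1]
    rw [← ENNReal.ofReal_sum_of_nonneg
      (fun i _ => Finset.sum_nonneg fun j _ => by (clear * -; positivity))]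
    have h2 : (2 : ℝ≥0∞) = ENNReal.ofReal 2 := by norm_num
    rw [h2, ← ENNReal.ofReal_mul (by norm_num)]
    congr 1
    unfold cRN
    ring
  exact (ENNReal.mul_right_inj (by norm_num) (by norm_num)).1 h

lemma coulombN_eq_top {x : Fin N → E} (hx : ¬ Function.Injective x) : coulombN x = ∞ := by
  have h : 2 * coulombN x = ∞ := by
    rw [two_coulombN]
    simp only [Function.Injective, not_forall] at hx
    obtain ⟨i, j, hij, hne⟩ := hx
    rw [ENNReal.sum_eq_top]
    refine ⟨i, Finset.mem_univ i, ?_⟩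
    rw [ENNReal.sum_eq_top]
    refine ⟨j, ?_, ?_⟩
    · simp only [Finset.mem_compl, Finset.mem_singleton]
      exact fun h => hne h.symm
    · rw [hij, edist_self, ENNReal.inv_zero]
  by_contra hne
  exact ENNReal.mul_ne_top (by norm_num) hne h

end RealCost

section Key

variable {E : Type*} [NormedAddCommGroup E] [InnerProductSpace ℝ E] {N : ℕ}

/-- total repulsive field on particle `i` (this is the gradient of the energy). -/
noncomputable def force (x : Fin N → E) (i : Fin N) : E := ∑ j, G (x j - x i)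

lemma G_zero : G (0 : E) = 0 := by simp [G]

/-- pairwise tangent inequality, including the diagonal. -/
lemma pair_tangent (a b c d : E) (h : a = b ↔ c = d) :
    ‖c - d‖⁻¹ - ⟪G (c - d), (a - c) - (b - d)⟫ - ‖(a - c) - (b - d)‖ ^ 2 * (2 * ‖c - d‖ ^ 3)⁻¹
      ≤ ‖a - b‖⁻¹ := by
  by_cases hcd : c = d
  · have hab := h.2 hcd
    subst hcd
    subst hab
    simp [G_zero]
  · have hab : a ≠ b := fun hh => hcd (h.1 hh)
    have := inv_norm_tangent (a - b) (c - d) (sub_ne_zero.mpr hab) (sub_ne_zero.mpr hcd)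
    have e : a - b - (c - d) = (a - c) - (b - d) := by abel
    rwa [e] at this

theorem cRN_tangent {x y : Fin N → E} (hx : Function.Injective x) (hy : Function.Injective y)
    {r : ℝ} (hr : 0 < r) (hsep : ∀ i j, i ≠ j → r ≤ ‖x i - x j‖) :
    cRN x + ∑ i, ⟪force x i, y i - x i⟫ - N / r ^ 3 * ∑ i, ‖y i - x i‖ ^ 2 ≤ cRN y := by
  set Δ : Fin N → E := fun i => y i - x i with hΔ
  have h1 : ∀ i j, ‖x i - x j‖⁻¹ - ⟪G (x i - x j), Δ i - Δ j⟫ -
      (‖Δ i‖ ^ 2 + ‖Δ j‖ ^ 2) / r ^ 3 ≤ ‖y i - y j‖⁻¹ := by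
    intro i j
    have h2 := pair_tangent (y i) (y j) (x i) (x j)
      ⟨fun h => by rw [hy h], fun h => by rw [hx h]⟩
    have h3 : ‖Δ i - Δ j‖ ^ 2 ≤ 2 * (‖Δ i‖ ^ 2 + ‖Δ j‖ ^ 2) := by
      have h1 := norm_sub_le (Δ i) (Δ j)
      have h0 := norm_nonneg (Δ i - Δ j)
      nlinarith only [h1, h0, sq_nonneg (‖Δ i‖ - ‖Δ j‖)]
    have h4 : ‖Δ i - Δ j‖ ^ 2 * (2 * ‖x i - x j‖ ^ 3)⁻¹ ≤ (‖Δ i‖ ^ 2 + ‖Δ j‖ ^ 2) / r ^ 3 := by
      by_cases hij : i = j
      · subst hij
        simp only [sub_self, norm_zero, ne_eq, OfNat.ofNat_ne_zero, not_false_eq_true, zero_pow, mul_zero, inv_zero]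
        (clear * - hr; positivity)
      · have h5 : (2 * ‖x i - x j‖ ^ 3)⁻¹ ≤ (2 * r ^ 3)⁻¹ := by
          apply inv_anti₀ (by positivity)
          have := hsep i j hij
          gcongr
        calc ‖Δ i - Δ j‖ ^ 2 * (2 * ‖x i - x j‖ ^ 3)⁻¹
            ≤ (2 * (‖Δ i‖ ^ 2 + ‖Δ j‖ ^ 2)) * (2 * r ^ 3)⁻¹ := by
              apply mul_le_mul h3 h5 (by (clear * -; positivity)) (by (clear * -; positivity))
          _ = (‖Δ i‖ ^ 2 + ‖Δ j‖ ^ 2) / r ^ 3 := by
              field_simp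
    have h6 : y i - x i - (y j - x j) = Δ i - Δ j := rfl
    rw [h6] at h2
    linarith only [h2, h4]
  have h2 : ∑ i, ∑ j, (‖x i - x j‖⁻¹ - ⟪G (x i - x j), Δ i - Δ j⟫ -
      (‖Δ i‖ ^ 2 + ‖Δ j‖ ^ 2) / r ^ 3) ≤ ∑ i, ∑ j, ‖y i - y j‖⁻¹ :=
    Finset.sum_le_sum fun i _ => Finset.sum_le_sum fun j _ => h1 i j
  simp only [Finset.sum_sub_distrib, inner_sub_right] at h2
  have h3 : ∑ i, ∑ j, ⟪G (x i - x j), Δ j⟫ = ∑ i, ⟪force x i, Δ i⟫ := by
    rw [Finset.sum_comm]
    refine Finset.sum_congr rfl fun i _ => ?_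
    rw [force, sum_inner]
  have h4 : ∑ i, ∑ j, ⟪G (x i - x j), Δ i⟫ = - ∑ i, ⟪force x i, Δ i⟫ := by
    rw [← Finset.sum_neg_distrib]
    refine Finset.sum_congr rfl fun i _ => ?_
    rw [force, sum_inner, ← Finset.sum_neg_distrib]
    refine Finset.sum_congr rfl fun j _ => ?_
    rw [G_sub_comm, inner_neg_left]
  have h5 : ∑ i, ∑ j, (‖Δ i‖ ^ 2 + ‖Δ j‖ ^ 2) / r ^ 3 = 2 * N / r ^ 3 * ∑ i, ‖Δ i‖ ^ 2 := by
    have : ∀ i j, (‖Δ i‖ ^ 2 + ‖Δ j‖ ^ 2) / r ^ 3 = ‖Δ i‖ ^ 2 / r ^ 3 + ‖Δ j‖ ^ 2 / r ^ 3 :=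
      fun i j => add_div _ _ _
    simp only [this, Finset.sum_add_distrib, Finset.sum_const, Finset.card_univ,
      Fintype.card_fin, nsmul_eq_mul]
    rw [← Finset.mul_sum, ← Finset.sum_div]
    ring
  rw [h3, h4, h5] at h2
  unfold cRN
  have h6 : (N : ℝ) / r ^ 3 * ∑ i, ‖Δ i‖ ^ 2 = 1 / 2 * (2 * N / r ^ 3 * ∑ i, ‖Δ i‖ ^ 2) := by ring
  rw [h6]
  linarith

/-- quadratic potential -/
noncomputable def quad (W : ℝ) (h s : E) (p : ℝ) (y : E) : ℝ :=
  W + ⟪h, y - s⟫ - p / 2 * ‖y - s‖ ^ 2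

lemma quad_expand (W : ℝ) (h s : E) (p : ℝ) (x y : E) :
    quad W h s p y = quad W h s p x + ⟪h - p • (x - s), y - x⟫ - p / 2 * ‖y - x‖ ^ 2 := by
  have e : y - s = (x - s) + (y - x) := by abel
  have e2 : ⟪h - p • (x - s), y - x⟫ = ⟪h, y - x⟫ - p * ⟪x - s, y - x⟫ := by
    rw [inner_sub_left, real_inner_smul_left]
  unfold quad
  rw [e2, e, norm_add_sq_real, inner_add_right]
  ring

/-- The key inequality: if `x` is critical for all particles except `l`, then it minimises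
energy minus potentials among all configurations with the same `l`-th particle. -/
theorem key_ineqN {x y : Fin N → E} (hx : Function.Injective x) (hy : Function.Injective y)
    {r : ℝ} (hr : 0 < r) (hsep : ∀ i j, i ≠ j → r ≤ ‖x i - x j‖) (l : Fin N) (hl : y l = x l)
    (W : Fin N → ℝ) (h s : Fin N → E) (p : ℝ)
    (hcrit : ∀ i, i ≠ l → force x i = h i - p • (x i - s i)) :
    (cRN x - ∑ i ∈ {l}ᶜ, quad (W i) (h i) (s i) p (x i)) +
      (p / 2 - N / r ^ 3) * ∑ i ∈ {l}ᶜ, ‖y i - x i‖ ^ 2 ≤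
    cRN y - ∑ i ∈ {l}ᶜ, quad (W i) (h i) (s i) p (y i) := by
  have h1 := cRN_tangent hx hy hr hsep
  have h2 : ∑ i, ⟪force x i, y i - x i⟫ = ∑ i ∈ {l}ᶜ, ⟪force x i, y i - x i⟫ := by
    rw [← Finset.sum_compl_add_sum {l}, Finset.sum_singleton, hl, sub_self, inner_zero_right,
      add_zero]
  have h3 : ∑ i, ‖y i - x i‖ ^ 2 = ∑ i ∈ {l}ᶜ, ‖y i - x i‖ ^ 2 := by
    rw [← Finset.sum_compl_add_sum {l}, Finset.sum_singleton, hl, sub_self, norm_zero]
    ring
  have h4 : ∑ i ∈ {l}ᶜ, quad (W i) (h i) (s i) p (y i) =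
      ∑ i ∈ {l}ᶜ, quad (W i) (h i) (s i) p (x i) + ∑ i ∈ {l}ᶜ, ⟪force x i, y i - x i⟫ -
        p / 2 * ∑ i ∈ {l}ᶜ, ‖y i - x i‖ ^ 2 := by
    rw [Finset.mul_sum, ← Finset.sum_add_distrib, ← Finset.sum_sub_distrib]
    refine Finset.sum_congr rfl fun i hi => ?_
    simp only [Finset.mem_compl, Finset.mem_singleton] at hi
    rw [hcrit i hi, ← quad_expand]
  rw [h2, h3] at h1
  rw [h4]
  linarith only [h1]

end Key

end Vale.Agent.P121
end
end

section

section

open Set Filter Topology Metric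
open scoped RealInnerProductSpace NNReal

namespace Vale.Agent.P121

section Ginv

variable {E : Type*} [NormedAddCommGroup E] [InnerProductSpace ℝ E]

/-- inverse of `G` -/
noncomputable def Ginv (y : E) : E := (Real.sqrt ‖y‖ ^ 3)⁻¹ • y

lemma G_Ginv (y : E) : G (Ginv y) = y := by
  by_cases hy : y = 0
  · subst hy; simp [Ginv, G]
  · have h0 : 0 < ‖y‖ := norm_pos_iff.2 hy
    set r := Real.sqrt ‖y‖ with hr
    have hr0 : 0 < r := Real.sqrt_pos.2 h0
    have hr2 : ‖y‖ = r ^ 2 := (Real.sq_sqrt h0.le).symm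
    have hn : ‖Ginv y‖ = r⁻¹ := by
      rw [Ginv, norm_smul, ← hr, norm_inv, norm_pow, Real.norm_of_nonneg hr0.le, hr2]
      (clear * - hr0; field_simp)
    rw [G, hn, Ginv, smul_smul, ← hr]
    have : ((r⁻¹) ^ 3)⁻¹ * (r ^ 3)⁻¹ = 1 := by field_simp
    rw [this, one_smul]

lemma Ginv_G (x : E) : Ginv (G x) = x := by
  by_cases hx : x = 0
  · subst hx; simp [Ginv, G]
  · have h0 : 0 < ‖x‖ := norm_pos_iff.2 hx
    have hn : ‖G x‖ = (‖x‖⁻¹) ^ 2 := by
      rw [G, norm_smul, norm_inv, norm_pow, norm_norm]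
      field_simp
    have hs : Real.sqrt ‖G x‖ = ‖x‖⁻¹ := by
      rw [hn, Real.sqrt_sq (by positivity)]
    rw [Ginv, hs, G, smul_smul]
    have : (((‖x‖)⁻¹) ^ 3)⁻¹ * (‖x‖ ^ 3)⁻¹ = 1 := by field_simp
    rw [this, one_smul]

lemma contDiffAt_G {x : E} (hx : x ≠ 0) : ContDiffAt ℝ 1 (G : E → E) x := by
  unfold G
  have h1 : ContDiffAt ℝ 1 (fun x : E => ‖x‖ ^ 3) x := (contDiffAt_norm ℝ hx).pow 3
  exact (h1.inv (by simpa using hx)).smul contDiffAt_id

lemma contDiffAt_Ginv {x : E} (hx : x ≠ 0) : ContDiffAt ℝ 1 (Ginv : E → E) x := by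
  unfold Ginv
  have h0 : ‖x‖ ≠ 0 := norm_ne_zero_iff.2 hx
  have h1 : ContDiffAt ℝ 1 (fun x : E => Real.sqrt ‖x‖ ^ 3) x :=
    ((contDiffAt_norm ℝ hx).sqrt h0).pow 3
  refine (h1.inv ?_).smul contDiffAt_id
  have : 0 < Real.sqrt ‖x‖ := Real.sqrt_pos.2 (norm_pos_iff.2 hx)
  positivity

end Ginv

section Lip

variable {X Y : Type*} [NormedAddCommGroup X] [NormedSpace ℝ X] [NormedAddCommGroup Y]
  [NormedSpace ℝ Y]

lemma exists_lip {f : X → Y} {x : X} (hf : ContDiffAt ℝ 1 f x) :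
    ∃ K > 0, ∃ ρ > 0, ∀ y ∈ closedBall x ρ, ∀ z ∈ closedBall x ρ, ‖f y - f z‖ ≤ K * ‖y - z‖ := by
  obtain ⟨K, t, ht, hK⟩ := hf.exists_lipschitzOnWith
  obtain ⟨ρ, hρ, hsub⟩ := Metric.nhds_basis_closedBall.mem_iff.1 ht
  refine ⟨K + 1, by (clear * -; positivity), ρ, hρ, fun y hy z hz => ?_⟩
  have := hK.dist_le_mul y (hsub hy) z (hsub hz)
  rw [dist_eq_norm, dist_eq_norm] at this
  refine this.trans ?_
  gcongr
  linarith only []

end Lip

section Banach

variable {X W : Type*} [NormedAddCommGroup X] [NormedSpace ℝ X] [CompleteSpace X]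
  [NormedAddCommGroup W] [NormedSpace ℝ W]

/-- parametrised fixed point package -/
lemma fixed_point_package {H : X × W → X} {s : X} {w₀ : W} {K ρ : ℝ} (hK : 0 < K) (hρ : 0 < ρ)
    (hH : ∀ u ∈ closedBall (s, w₀) ρ, ∀ v ∈ closedBall (s, w₀) ρ, ‖H u - H v‖ ≤ K * ‖u - v‖)
    (h : X) {p : ℝ} (hp : 2 * K ≤ p) (hpρ : (‖h - H (s, w₀)‖ + K * ρ) / p ≤ ρ) :
    ∀ w ∈ closedBall w₀ ρ, ∃ y ∈ closedBall s ρ, y = s + p⁻¹ • (h - H (y, w)) ∧
      ‖y - s‖ ≤ (‖h - H (s, w₀)‖ + K * ρ) / p := by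
  intro w hw
  have hp0 : 0 < p := by linarith only [hK, hp]
  set T : X → X := fun y => s + p⁻¹ • (h - H (y, w)) with hT
  have hmem : ∀ y ∈ closedBall s ρ, ((y, w) : X × W) ∈ closedBall (s, w₀) ρ := by
    intro y hy
    rw [mem_closedBall, Prod.dist_eq]
    exact max_le hy hw
  have hmem0 : ((s, w₀) : X × W) ∈ closedBall (s, w₀) ρ := mem_closedBall_self hρ.le
  have hbd : ∀ y ∈ closedBall s ρ, ‖T y - s‖ ≤ (‖h - H (s, w₀)‖ + K * ρ) / p := by
    intro y hy
    have e : T y - s = p⁻¹ • (h - H (y, w)) := by simp only [hT, add_sub_cancel_left]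
    have h1 := hH _ hmem0 _ (hmem y hy)
    have h2 : ‖((s, w₀) : X × W) - (y, w)‖ ≤ ρ := by
      rw [← dist_eq_norm, dist_comm]; exact hmem y hy
    have h3 : ‖h - H (y, w)‖ ≤ ‖h - H (s, w₀)‖ + K * ρ := by
      have e2 : h - H (y, w) = (h - H (s, w₀)) + (H (s, w₀) - H (y, w)) := by abel
      rw [e2]
      refine (norm_add_le _ _).trans ?_
      gcongr
      exact h1.trans (by (clear * - h2 hK; gcongr))
    rw [e, norm_smul, norm_inv, Real.norm_of_nonneg hp0.le, inv_mul_eq_div]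
    (clear * - h3 hp0; gcongr)
  have hmaps : MapsTo T (closedBall s ρ) (closedBall s ρ) := by
    intro y hy
    rw [mem_closedBall, dist_eq_norm]
    exact (hbd y hy).trans hpρ
  have hcontr : ContractingWith (1 / 2 : ℝ≥0) (hmaps.restrict T (closedBall s ρ) (closedBall s ρ)) := by
    refine ⟨by norm_num, LipschitzWith.of_dist_le_mul ?_⟩
    rintro ⟨y, hy⟩ ⟨z, hz⟩
    rw [Subtype.dist_eq, Subtype.dist_eq, MapsTo.val_restrict_apply, MapsTo.val_restrict_apply,
      dist_eq_norm, dist_eq_norm]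
    have e : T y - T z = p⁻¹ • (H (z, w) - H (y, w)) := by
      simp only [hT, smul_sub]; abel
    have h1 := hH _ (hmem z hz) _ (hmem y hy)
    have h2 : ‖((z, w) : X × W) - (y, w)‖ = ‖y - z‖ := by
      rw [Prod.mk_sub_mk, sub_self, Prod.norm_def, norm_zero, norm_sub_rev]
      exact max_eq_left (norm_nonneg _)
    rw [h2] at h1
    simp only [e, norm_smul, norm_inv, Real.norm_of_nonneg hp0.le]
    calc p⁻¹ * ‖H (z, w) - H (y, w)‖ ≤ p⁻¹ * (K * ‖y - z‖) := by (clear * - h1 hp0; gcongr)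
      _ = (K / p) * ‖y - z‖ := by ring
      _ ≤ (1 / 2) * ‖y - z‖ := by
          refine mul_le_mul_of_nonneg_right ?_ (norm_nonneg _)
          rw [div_le_iff₀ hp0]
          linarith only [hp]
      _ = _ := by norm_num
  obtain ⟨y, hy, hfix, -⟩ := hcontr.exists_fixedPoint' (isClosed_closedBall.isComplete) hmaps
    (mem_closedBall_self hρ.le) (edist_ne_top _ _)
  have hfix' : T y = y := hfix
  refine ⟨y, hy, hfix'.symm, ?_⟩
  have := hbd y hy
  rwa [hfix'] at this

/-- Lipschitz dependence of the fixed point on the parameter. -/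
lemma fixed_point_lip {H : X × W → X} {s : X} {w₀ : W} {K ρ : ℝ} (hK : 0 < K)
    (hH : ∀ u ∈ closedBall (s, w₀) ρ, ∀ v ∈ closedBall (s, w₀) ρ, ‖H u - H v‖ ≤ K * ‖u - v‖)
    (h : X) {p : ℝ} (hp : 2 * K ≤ p) {w w' : W} (hw : w ∈ closedBall w₀ ρ)
    (hw' : w' ∈ closedBall w₀ ρ) {y y' : X} (hy : y ∈ closedBall s ρ) (hy' : y' ∈ closedBall s ρ)
    (e : y = s + p⁻¹ • (h - H (y, w))) (e' : y' = s + p⁻¹ • (h - H (y', w'))) :
    ‖y - y'‖ ≤ K / p * ‖w - w'‖ := by
  have hp0 : 0 < p := by linarith only [hK, hp]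
  have hmem : ((y, w) : X × W) ∈ closedBall (s, w₀) ρ := by
    rw [mem_closedBall, Prod.dist_eq]
    exact max_le hy hw
  have hmem' : ((y', w') : X × W) ∈ closedBall (s, w₀) ρ := by
    rw [mem_closedBall, Prod.dist_eq]
    exact max_le hy' hw'
  have h1 := hH _ hmem' _ hmem
  have e3 : y - y' = p⁻¹ • (H (y', w') - H (y, w)) := by
    conv_lhs => rw [e, e']
    simp only [smul_sub]; abel
  have h2 : ‖y - y'‖ ≤ K / p * ‖((y', w') : X × W) - (y, w)‖ := by
    rw [e3, norm_smul, norm_inv, Real.norm_of_nonneg hp0.le]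
    calc p⁻¹ * ‖H (y', w') - H (y, w)‖ ≤ p⁻¹ * (K * ‖((y', w') : X × W) - (y, w)‖) := by (clear * - h1 hp0; gcongr)
      _ = _ := by ring
  rw [Prod.mk_sub_mk, Prod.norm_def] at h2
  simp only at h2
  rw [norm_sub_rev y' y, norm_sub_rev w' w] at h2
  rcases le_total ‖y - y'‖ ‖w - w'‖ with hle | hle
  · rwa [max_eq_right hle] at h2
  · rw [max_eq_left hle] at h2
    have h3 : K / p ≤ 1 / 2 := by
      rw [div_le_iff₀ hp0]; linarith only [hp]
    have h4 : ‖y - y'‖ ≤ 1 / 2 * ‖y - y'‖ := h2.trans (by (clear * - h3; gcongr))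
    have h5 : ‖y - y'‖ = 0 := by
      have := norm_nonneg (y - y')
      linarith only [this, h4]
    rw [h5]
    (clear * - hK hp0; positivity)

end Banach

section Force

variable {E : Type*} [NormedAddCommGroup E] [InnerProductSpace ℝ E] {N : ℕ}

lemma cda (j : Fin N) (s : Fin N → E) : ContDiffAt ℝ 1 (fun f : Fin N → E => f j) s :=
  (contDiff_apply ℝ E j).contDiffAt

lemma contDiffAt_pair {F : Type*} [NormedAddCommGroup F] [NormedSpace ℝ F] {f g : F → E} {u : F}
    (hf : ContDiffAt ℝ 1 f u) (hg : ContDiffAt ℝ 1 g u) (hne : f u ≠ g u) :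
    ContDiffAt ℝ 1 (fun v => G (f v - g v)) u := by
  have h1 : ContDiffAt ℝ 1 (G : E → E) (f u - g u) := contDiffAt_G (sub_ne_zero.2 hne)
  exact ContDiffAt.comp u h1 (hf.sub hg)

lemma contDiffAt_force {s : Fin N → E} (hs : Function.Injective s) :
    ContDiffAt ℝ 1 (fun x : Fin N → E => force x) s := by
  rw [contDiffAt_pi]
  intro i
  unfold force
  refine ContDiffAt.sum fun j _ => ?_
  by_cases hij : j = i
  · subst hij
    simp only [sub_self, G_zero]
    exact contDiffAt_const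
  · exact contDiffAt_pair (cda j s) (cda i s) (fun h => hij (hs h))

/-- the position of particle `l`, expressed by the other ones and the field at particle `i` -/
noncomputable def chi (l i : Fin N) (y : Fin N → E) (v : E) : E :=
  y i + Ginv (v - ∑ j ∈ {l}ᶜ, G (y j - y i))

lemma chi_force {x : Fin N → E} {l i : Fin N} (y : Fin N → E) (hy : ∀ j, j ≠ l → y j = x j)
    (hil : i ≠ l) : chi l i y (force x i) = x l := by
  have h1 : force x i = ∑ j ∈ {l}ᶜ, G (y j - y i) + G (x l - x i) := by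
    rw [force, ← Finset.sum_compl_add_sum {l}, Finset.sum_singleton]
    congr 1
    refine Finset.sum_congr rfl fun j hj => ?_
    simp only [Finset.mem_compl, Finset.mem_singleton] at hj
    rw [hy j hj, hy i hil]
  rw [chi, h1, add_sub_cancel_left, Ginv_G, hy i hil]
  abel

lemma force_update_chi {l o : Fin N} (hol : o ≠ l) (y : Fin N → E) (w : E) :
    force (Function.update y l (chi l o y w)) o = w := by
  rw [force, ← Finset.sum_compl_add_sum {l}, Finset.sum_singleton]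
  have h1 : ∑ j ∈ {l}ᶜ, G (Function.update y l (chi l o y w) j -
      Function.update y l (chi l o y w) o) = ∑ j ∈ {l}ᶜ, G (y j - y o) := by
    refine Finset.sum_congr rfl fun j hj => ?_
    simp only [Finset.mem_compl, Finset.mem_singleton] at hj
    rw [Function.update_of_ne hj, Function.update_of_ne hol]
  rw [h1, Function.update_self, Function.update_of_ne hol, chi, add_sub_cancel_left, G_Ginv]
  abel

lemma contDiffAt_chi {s : Fin N → E} (hs : Function.Injective s) {l i : Fin N} (hil : i ≠ l) :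
    ContDiffAt ℝ 1 (fun u : (Fin N → E) × E => chi l i u.1 u.2) (s, force s i) := by
  unfold chi
  have hfst : ∀ j, ContDiffAt ℝ 1 (fun u : (Fin N → E) × E => u.1 j) (s, force s i) := by
    intro j
    exact ContDiffAt.comp (s, force s i) (cda j s) contDiffAt_fst
  refine (hfst i).add ?_
  have harg : ContDiffAt ℝ 1 (fun u : (Fin N → E) × E => u.2 - ∑ j ∈ {l}ᶜ, G (u.1 j - u.1 i))
      (s, force s i) := by
    refine contDiffAt_snd.sub (ContDiffAt.sum fun j _ => ?_)
    by_cases hij : j = i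
    · subst hij
      simp only [sub_self, G_zero]
      exact contDiffAt_const
    · exact contDiffAt_pair (hfst j) (hfst i) (fun h => hij (hs h))
  have hne : force s i - ∑ j ∈ {l}ᶜ, G (s j - s i) ≠ 0 := by
    have h1 : force s i - ∑ j ∈ {l}ᶜ, G (s j - s i) = G (s l - s i) := by
      rw [force, ← Finset.sum_compl_add_sum {l}, Finset.sum_singleton, add_sub_cancel_left]
    rw [h1]
    intro h0
    have h2 : s l - s i = 0 := by rw [← Ginv_G (s l - s i), h0]; simp [Ginv]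
    exact hil (hs (sub_eq_zero.1 h2)).symm
  exact ContDiffAt.comp (s, force s i) (contDiffAt_Ginv hne) harg

lemma update_chi_base {s : Fin N → E} {l o : Fin N} (hol : o ≠ l) :
    Function.update s l (chi l o s (force s o)) = s := by
  rw [chi_force s (fun _ _ => rfl) hol, Function.update_eq_self]

lemma contDiffAt_update {s : Fin N → E} (hs : Function.Injective s) {l o : Fin N} (hol : o ≠ l) :
    ContDiffAt ℝ 1 (fun u : (Fin N → E) × E => Function.update u.1 l (chi l o u.1 u.2))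
      (s, force s o) := by
  rw [contDiffAt_pi]
  intro i
  by_cases hi : i = l
  · subst hi
    simp only [Function.update_self]
    exact contDiffAt_chi hs hol
  · simp only [Function.update_of_ne hi]
    exact ContDiffAt.comp (s, force s o) (cda i s) contDiffAt_fst

lemma contDiffAt_H {s : Fin N → E} (hs : Function.Injective s) {l o : Fin N} (hol : o ≠ l) :
    ContDiffAt ℝ 1 (fun u : (Fin N → E) × E => force (Function.update u.1 l (chi l o u.1 u.2)))
      (s, force s o) := by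
  have h1 : ContDiffAt ℝ 1 (fun x : Fin N → E => force x)
      (Function.update s l (chi l o s (force s o))) := by
    rw [update_chi_base hol]
    exact contDiffAt_force hs
  exact ContDiffAt.comp (s, force s o) h1 (contDiffAt_update hs hol)

set_option maxHeartbeats 2000000 in
/-- The contact family near a reference configuration `s`, for strongly concave potentials. -/
theorem local_packageN [CompleteSpace E] {s : Fin N → E} (hs : Function.Injective s)
    {o l : Fin N} (hol : o ≠ l) (h : Fin N → E) (hh : h o = force s o) {η : ℝ} (hη : 0 < η) :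
    ∃ P₀ > 0, ∀ p ≥ P₀, ∃ δ > 0, ∃ Λ > 0, ∃ x : E → Fin N → E,
      (∀ a ∈ closedBall (s o) δ, x a o = a ∧ (∀ i, ‖x a i - s i‖ < η) ∧
        (∀ i, i ≠ l → force (x a) i = h i - p • (x a i - s i)) ∧
        (∀ i, i ≠ l → p * ‖x a i - s i‖ ^ 2 < η)) ∧
      (∀ a ∈ closedBall (s o) δ, ∀ a' ∈ closedBall (s o) δ, ∀ i,
        ‖a - a'‖ ≤ Λ * ‖x a i - x a' i‖) ∧
      ContinuousOn x (closedBall (s o) δ) := by
  classical
  set w₀ := force s o with hw₀
  -- Lipschitz constants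
  obtain ⟨K₁, hK₁, ρ₁, hρ₁, h₁⟩ := exists_lip (contDiffAt_H hs hol)
  obtain ⟨K₂, hK₂, ρ₂, hρ₂, h₂⟩ := exists_lip (contDiffAt_update hs hol)
  obtain ⟨K₃, hK₃, ρ₃, hρ₃, h₃⟩ := exists_lip (contDiffAt_force hs)
  have h4 : ∀ i : Fin N, ∃ K > 0, ∃ ρ > 0, i ≠ l →
      ∀ u ∈ closedBall ((s, force s i) : (Fin N → E) × E) ρ, ∀ v ∈ closedBall (s, force s i) ρ,
        ‖chi l i u.1 u.2 - chi l i v.1 v.2‖ ≤ K * ‖u - v‖ := by
    intro i
    by_cases hi : i = l
    · exact ⟨1, one_pos, 1, one_pos, fun hh => absurd hi hh⟩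
    · obtain ⟨K, hK, ρ, hρ, hL⟩ := exists_lip (contDiffAt_chi hs hi)
      exact ⟨K, hK, ρ, hρ, fun _ => hL⟩
  choose K₄ hK₄ ρ₄ hρ₄ h₄ using h4
  obtain ⟨K, hK1, hKK₁, hKK₂, hKK₃, hKK₄⟩ : ∃ K : ℝ, 1 ≤ K ∧ K₁ ≤ K ∧ K₂ ≤ K ∧ K₃ ≤ K ∧
      ∀ i, K₄ i ≤ K := by
    have : ∀ᶠ K in (atTop : Filter ℝ), 1 ≤ K ∧ K₁ ≤ K ∧ K₂ ≤ K ∧ K₃ ≤ K ∧ ∀ i, K₄ i ≤ K := by
      filter_upwards [eventually_ge_atTop 1, eventually_ge_atTop K₁, eventually_ge_atTop K₂,
        eventually_ge_atTop K₃, eventually_all.2 fun i => eventually_ge_atTop (K₄ i)]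
        with K a b c d e using ⟨a, b, c, d, e⟩
    exact this.exists
  obtain ⟨ρ, hρ, hρρ₁, hρρ₂, hρρ₃, hρρ₄⟩ : ∃ ρ : ℝ, 0 < ρ ∧ ρ ≤ ρ₁ ∧ ρ ≤ ρ₂ ∧ ρ ≤ ρ₃ ∧
      ∀ i, ρ ≤ ρ₄ i := by
    have hle : ∀ c : ℝ, 0 < c → ∀ᶠ ρ in 𝓝[>] (0 : ℝ), ρ ≤ c := fun c hc =>
      nhdsWithin_le_nhds (eventually_le_nhds hc)
    have : ∀ᶠ ρ in 𝓝[>] (0 : ℝ), 0 < ρ ∧ ρ ≤ ρ₁ ∧ ρ ≤ ρ₂ ∧ ρ ≤ ρ₃ ∧ ∀ i, ρ ≤ ρ₄ i := by
      filter_upwards [self_mem_nhdsWithin, hle ρ₁ hρ₁, hle ρ₂ hρ₂, hle ρ₃ hρ₃,
        eventually_all.2 fun i => hle (ρ₄ i) (hρ₄ i)] with ρ a b c d e using ⟨a, b, c, d, e⟩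
    exact this.exists
  have hK : 0 < K := by linarith only [hK1]
  -- the Lipschitz estimates with common constants
  set H : (Fin N → E) × E → (Fin N → E) :=
    fun u => force (Function.update u.1 l (chi l o u.1 u.2)) with hH
  set Upd : (Fin N → E) × E → (Fin N → E) :=
    fun u => Function.update u.1 l (chi l o u.1 u.2) with hUpd
  have L₁ : ∀ u ∈ closedBall (s, w₀) ρ, ∀ v ∈ closedBall (s, w₀) ρ,
      ‖H u - H v‖ ≤ K * ‖u - v‖ := fun u hu v hv =>
    (h₁ u (closedBall_subset_closedBall hρρ₁ hu) v (closedBall_subset_closedBall hρρ₁ hv)).trans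
      (by (clear * - hKK₁; gcongr))
  have L₂ : ∀ u ∈ closedBall (s, w₀) ρ, ∀ v ∈ closedBall (s, w₀) ρ,
      ‖Upd u - Upd v‖ ≤ K * ‖u - v‖ := fun u hu v hv =>
    (h₂ u (closedBall_subset_closedBall hρρ₂ hu) v (closedBall_subset_closedBall hρρ₂ hv)).trans
      (by (clear * - hKK₂; gcongr))
  have L₃ : ∀ u ∈ closedBall s ρ, ∀ v ∈ closedBall s ρ,
      ‖force u - force v‖ ≤ K * ‖u - v‖ := fun u hu v hv =>
    (h₃ u (closedBall_subset_closedBall hρρ₃ hu) v (closedBall_subset_closedBall hρρ₃ hv)).trans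
      (by gcongr)
  have L₄ : ∀ i, i ≠ l → ∀ u ∈ closedBall ((s, force s i) : (Fin N → E) × E) ρ,
      ∀ v ∈ closedBall ((s, force s i) : (Fin N → E) × E) ρ,
      ‖chi l i u.1 u.2 - chi l i v.1 v.2‖ ≤ K * ‖u - v‖ := fun i hi u hu v hv =>
    (h₄ i hi u (closedBall_subset_closedBall (hρρ₄ i) hu) v
      (closedBall_subset_closedBall (hρρ₄ i) hv)).trans (by gcongr; exact hKK₄ i)
  have hUpd0 : Upd (s, w₀) = s := update_chi_base hol
  -- scales
  set B : ℝ := ‖h - H (s, w₀)‖ + K * ρ with hB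
  have hB0 : 0 < B := by (clear * - hK1 hρ; positivity)
  set η' : ℝ := min η (ρ / K) with hη'
  have hη'0 : 0 < η' := lt_min hη (by (clear * - hρ hK1; positivity))
  set δw : ℝ := min ρ (η' / (2 * K)) with hδw
  have hδw0 : 0 < δw := lt_min hρ (by (clear * - hη hρ hK1; positivity))
  have hev : ∀ᶠ p in (atTop : Filter ℝ), 2 * (K ^ 2 + K ^ 3) ≤ p ∧ B / p ≤ ρ ∧
      B / p ≤ η' / (2 * K) ∧ B ^ 2 / p < η := by
    have t1 : Tendsto (fun p : ℝ => B / p) atTop (𝓝 0) := tendsto_const_nhds.div_atTop tendsto_id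
    have t2 : Tendsto (fun p : ℝ => B ^ 2 / p) atTop (𝓝 0) :=
      tendsto_const_nhds.div_atTop tendsto_id
    filter_upwards [eventually_ge_atTop (2 * (K ^ 2 + K ^ 3)), t1.eventually_le_const hρ,
      t1.eventually_le_const (show 0 < η' / (2 * K) by (clear * - hη hρ hK1; positivity)), t2.eventually_lt_const hη]
      with p a b c d using ⟨a, b, c, d⟩
  obtain ⟨P, hP⟩ := eventually_atTop.1 hev
  refine ⟨max P 1, by (clear * -; positivity), fun p hp => ?_⟩
  obtain ⟨hpK, hpρ, hpη, hpB⟩ := hP p ((le_max_left _ _).trans hp)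
  have hp0 : 0 < p := lt_of_lt_of_le one_pos ((le_max_right _ _).trans hp)
  have hK2 : 1 ≤ K ^ 2 := one_le_pow₀ hK1
  have hK3 : K ≤ K ^ 3 := by nlinarith only [hK2, hK1]
  have hp2K : 2 * K ≤ p := by nlinarith only [hpK, hK3]
  -- fixed points
  have hfp := fixed_point_package hK hρ L₁ h hp2K hpρ
  choose! Y hYmem hYeq hYbd using hfp
  set wl : E → E := fun a => h o - p • (a - s o) with hwl
  set x : E → Fin N → E := fun a => Upd (Y (wl a), wl a) with hx
  have hwl1 : ∀ a a' : E, ‖wl a - wl a'‖ = p * ‖a - a'‖ := by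
    intro a a'
    have e : wl a - wl a' = p • (a' - a) := by
      simp only [hwl, smul_sub]; abel
    rw [e, norm_smul, Real.norm_of_nonneg hp0.le, norm_sub_rev]
  have hwl0 : wl (s o) = w₀ := by simp [hwl, hh]
  have hwlmem : ∀ a ∈ closedBall (s o) (δw / p), ‖wl a - w₀‖ ≤ δw := by
    intro a ha
    rw [← hwl0, hwl1]
    have : ‖a - s o‖ ≤ δw / p := by rw [← dist_eq_norm]; exact ha
    calc p * ‖a - s o‖ ≤ p * (δw / p) := by (clear * - this hp0; gcongr)
      _ = δw := by (clear * - hp0 hδw0; field_simp)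
  have hwlρ : ∀ a ∈ closedBall (s o) (δw / p), wl a ∈ closedBall w₀ ρ := by
    intro a ha
    rw [mem_closedBall, dist_eq_norm]
    exact (hwlmem a ha).trans (min_le_left _ _)
  have hpair : ∀ a ∈ closedBall (s o) (δw / p),
      ((Y (wl a), wl a) : (Fin N → E) × E) ∈ closedBall (s, w₀) ρ := by
    intro a ha
    rw [mem_closedBall, Prod.dist_eq]
    exact max_le (hYmem _ (hwlρ a ha)) (hwlρ a ha)
  have hbase : ((s, w₀) : (Fin N → E) × E) ∈ closedBall (s, w₀) ρ := mem_closedBall_self hρ.le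
  -- closeness
  have hclose : ∀ a ∈ closedBall (s o) (δw / p), ‖x a - s‖ ≤ η' / 2 := by
    intro a ha
    have e1 := L₂ _ (hpair a ha) _ hbase
    rw [hUpd0] at e1
    refine e1.trans ?_
    have e2 : ‖((Y (wl a), wl a) : (Fin N → E) × E) - (s, w₀)‖ ≤ η' / (2 * K) := by
      rw [Prod.mk_sub_mk, Prod.norm_def]
      refine max_le ?_ ?_
      · exact (hYbd _ (hwlρ a ha)).trans hpη
      · exact (hwlmem a ha).trans (min_le_right _ _)
    calc K * ‖((Y (wl a), wl a) : (Fin N → E) × E) - (s, w₀)‖ ≤ K * (η' / (2 * K)) := by (clear * - e2 hK1; gcongr)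
      _ = η' / 2 := by (clear * - hK1 hη'0; field_simp)
  have hη'ρ : K * η' ≤ ρ := by
    calc K * η' ≤ K * (ρ / K) := by gcongr; exact min_le_right _ _
      _ = ρ := by (clear * - hK1 hρ; field_simp)
  have hη'ρ' : η' ≤ ρ := by nlinarith only [hη'ρ, hK1, hη'0]
  have hxs : ∀ a ∈ closedBall (s o) (δw / p), x a ∈ closedBall s ρ := by
    intro a ha
    rw [mem_closedBall, dist_eq_norm]
    have := hclose a ha
    linarith only [hρ, hη'ρ', this]
  have hsρ : s ∈ closedBall s ρ := mem_closedBall_self hρ.le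
  -- equations
  have hxi : ∀ a, ∀ i, i ≠ l → x a i = Y (wl a) i := by
    intro a i hi
    simp only [hx, hUpd]
    rw [Function.update_of_ne hi]
  have hYi : ∀ a ∈ closedBall (s o) (δw / p), ∀ i,
      Y (wl a) i = s i + p⁻¹ • (h i - force (x a) i) := by
    intro a ha i
    have := congrFun (hYeq _ (hwlρ a ha)) i
    simpa only [Pi.add_apply, Pi.smul_apply, Pi.sub_apply] using this
  have hforceo : ∀ a, force (x a) o = wl a := by
    intro a
    exact force_update_chi hol _ _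
  have hcrit : ∀ a ∈ closedBall (s o) (δw / p), ∀ i, i ≠ l →
      force (x a) i = h i - p • (x a i - s i) := by
    intro a ha i hi
    rw [hxi a i hi, hYi a ha i, add_sub_cancel_left, smul_smul, mul_inv_cancel₀ hp0.ne', one_smul]
    abel
  have hxo : ∀ a ∈ closedBall (s o) (δw / p), x a o = a := by
    intro a ha
    rw [hxi a o hol, hYi a ha o, hforceo a]
    simp only [hwl]
    rw [sub_sub_cancel, smul_smul, inv_mul_cancel₀ hp0.ne', one_smul]
    abel
  have hYY : ∀ a ∈ closedBall (s o) (δw / p), ∀ a' ∈ closedBall (s o) (δw / p),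
      ‖Y (wl a) - Y (wl a')‖ ≤ K * ‖a - a'‖ := by
    intro a ha a' ha'
    have := fixed_point_lip hK L₁ h hp2K (hwlρ a ha) (hwlρ a' ha') (hYmem _ (hwlρ a ha))
      (hYmem _ (hwlρ a' ha')) (hYeq _ (hwlρ a ha)) (hYeq _ (hwlρ a' ha'))
    rw [hwl1] at this
    calc ‖Y (wl a) - Y (wl a')‖ ≤ K / p * (p * ‖a - a'‖) := this
      _ = K * ‖a - a'‖ := by (clear * - hp0 hK1; field_simp)
  have hl : ∀ a ∈ closedBall (s o) (δw / p), ∀ a' ∈ closedBall (s o) (δw / p),
      (p - K ^ 2) * ‖a - a'‖ ≤ K * ‖x a l - x a' l‖ := by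
    intro a ha a' ha'
    have e1 : p * ‖a - a'‖ ≤ K * ‖x a - x a'‖ := by
      rw [← hwl1, ← hforceo, ← hforceo]
      refine le_trans ?_ (L₃ _ (hxs a ha) _ (hxs a' ha'))
      exact norm_le_pi_norm (force (x a) - force (x a')) o
    have e2 : ‖x a - x a'‖ ≤ K * ‖a - a'‖ + ‖x a l - x a' l‖ := by
      rw [pi_norm_le_iff_of_nonneg (by (clear * - hK1; positivity))]
      intro j
      by_cases hj : j = l
      · subst hj
        rw [Pi.sub_apply]
        have : 0 ≤ K * ‖a - a'‖ := by (clear * - hK1; positivity)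
        linarith only [this]
      · rw [Pi.sub_apply, hxi a j hj, hxi a' j hj]
        have e3 := norm_le_pi_norm (Y (wl a) - Y (wl a')) j
        rw [Pi.sub_apply] at e3
        have := norm_nonneg (x a l - x a' l)
        have := hYY a ha a' ha'
        (clear hs hol hw₀ hK₁ hρ₁ K₂ hK₂ ρ₂ hρ₂ h₂ K₃ hK₃ ρ₃ hρ₃ h₃ K₄ hK₄ ρ₄ hρ₄ h₄ hKK₂ hKK₃ hKK₄ hρρ₂ hρρ₃ hρρ₄ hH hUpd L₂ L₃ L₄ hUpd0 B hB hB0 hη' hη'0 hδw hev hP hpρ hpη hpB hYbd hx hpair hbase hclose hη'ρ hη'ρ' hxs hsρ hxi hYi hforceo hcrit hxo e1 hj; linarith)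
    nlinarith only [e1, e2, hK1]
  refine ⟨δw / p, by (clear * - hρ hη hK1 hp0; positivity), 2 * K ^ 2, by positivity, x, ?_, ?_, ?_⟩
  · intro a ha
    refine ⟨hxo a ha, ?_, hcrit a ha, ?_⟩
    · intro i
      have e1 := norm_le_pi_norm (x a - s) i
      rw [Pi.sub_apply] at e1
      have e2 := hclose a ha
      have e3 : η' ≤ η := min_le_left _ _
      linarith only [hη, e1, e2, e3]
    · intro i hi
      have e1 : ‖x a i - s i‖ ≤ B / p := by
        rw [hxi a i hi]
        have e1 := norm_le_pi_norm (Y (wl a) - s) i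
        rw [Pi.sub_apply] at e1
        exact e1.trans (hYbd _ (hwlρ a ha))
      calc p * ‖x a i - s i‖ ^ 2 ≤ p * (B / p) ^ 2 := by (clear * - e1 hp0; gcongr)
        _ = B ^ 2 / p := by (clear * - hB0 hp0; field_simp)
        _ < η := hpB
  · intro a ha a' ha' i
    by_cases hi : i = l
    · subst hi
      have e1 := hl a ha a' ha'
      have e2 : K * ‖a - a'‖ ≤ (p - K ^ 2) * ‖a - a'‖ := by
        gcongr
        nlinarith only [hpK, hK3]
      have e3 : K * ‖a - a'‖ ≤ K * ‖x a i - x a' i‖ := e2.trans e1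
      have e4 : ‖a - a'‖ ≤ ‖x a i - x a' i‖ := le_of_mul_le_mul_left e3 hK
      have e5 := norm_nonneg (x a i - x a' i)
      nlinarith only [e4, e5, hK2]
    · have hchi : ∀ a, chi l i (Y (wl a)) (force (x a) i) = x a l := fun a =>
        chi_force (x := x a) (Y (wl a)) (fun j hj => (hxi a j hj).symm) hi
      have hmem : ∀ a ∈ closedBall (s o) (δw / p),
          ((Y (wl a), force (x a) i) : (Fin N → E) × E) ∈ closedBall (s, force s i) ρ := by
        intro a ha
        rw [mem_closedBall, Prod.dist_eq]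
        refine max_le (hYmem _ (hwlρ a ha)) ?_
        simp only
        rw [dist_eq_norm]
        have e1 := norm_le_pi_norm (force (x a) - force s) i
        rw [Pi.sub_apply] at e1
        have e2 := L₃ _ (hxs a ha) _ hsρ
        have e3 : K * ‖x a - s‖ ≤ K * (η' / 2) := by gcongr; exact hclose a ha
        have e4 : 0 < K * η' := by (clear * - hK1 hη hρ; positivity)
        linarith only [hρ, hη'ρ, e1, e2, e3]
      have e1 : ‖x a l - x a' l‖ ≤ K * (K * ‖a - a'‖ + p * ‖x a i - x a' i‖) := by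
        have e2 := L₄ i hi _ (hmem a ha) _ (hmem a' ha')
        simp only [hchi] at e2
        refine e2.trans ?_
        gcongr
        rw [Prod.mk_sub_mk, Prod.norm_def]
        have e3 : ‖force (x a) i - force (x a') i‖ = p * ‖x a i - x a' i‖ := by
          rw [hcrit a ha i hi, hcrit a' ha' i hi]
          have : h i - p • (x a i - s i) - (h i - p • (x a' i - s i)) =
              p • (x a' i - x a i) := by
            simp only [smul_sub]; abel
          rw [this, norm_smul, Real.norm_of_nonneg hp0.le, norm_sub_rev]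
        refine max_le ?_ ?_
        · have := hYY a ha a' ha'
          have h5 : 0 ≤ p * ‖x a i - x a' i‖ := by (clear * - hp0; positivity)
          simp only
          linarith only [this, h5]
        · simp only
          rw [e3]
          have h5 : 0 ≤ K * ‖a - a'‖ := by (clear * - hK1; positivity)
          linarith only [h5]
      have e2 := hl a ha a' ha'
      have e3 : K * ‖x a l - x a' l‖ ≤ K * (K * (K * ‖a - a'‖ + p * ‖x a i - x a' i‖)) := by
        (clear * - e1 hK1; gcongr)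
      have e4 : (p - K ^ 2 - K ^ 3) * ‖a - a'‖ ≤ K ^ 2 * p * ‖x a i - x a' i‖ := by
        nlinarith only [e2, e3]
      have e5 : p / 2 * ‖a - a'‖ ≤ (p - K ^ 2 - K ^ 3) * ‖a - a'‖ := by
        gcongr
        linarith only [hpK]
      have e6 : p * ‖a - a'‖ ≤ p * (2 * K ^ 2 * ‖x a i - x a' i‖) := by
        nlinarith only [e2, e3, e5]
      exact le_of_mul_le_mul_left e6 hp0
  · have hLip : LipschitzOnWith (Real.toNNReal (K * (K + p))) x (closedBall (s o) (δw / p)) := by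
      refine LipschitzOnWith.of_dist_le_mul fun a ha a' ha' => ?_
      rw [Real.coe_toNNReal _ (by (clear * - hK1 hp0; positivity)), dist_eq_norm, dist_eq_norm]
      have e1 := L₂ _ (hpair a ha) _ (hpair a' ha')
      refine e1.trans ?_
      rw [mul_assoc]
      gcongr
      rw [Prod.mk_sub_mk, Prod.norm_def]
      simp only
      rw [hwl1]
      have h1 := hYY a ha a' ha'
      have h2 : 0 ≤ p * ‖a - a'‖ := by (clear * - hp0; positivity)
      have h3 : 0 ≤ K * ‖a - a'‖ := by (clear * - hK1; positivity)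
      refine max_le ?_ ?_ <;> nlinarith only [h1, h2, h3]
    exact hLip.continuousOn

end Force

end Vale.Agent.P121
end
end

section

section

open MeasureTheory Set Filter Topology Metric
open scoped RealInnerProductSpace ENNReal NNReal

namespace Vale.Agent.P121

section Cont

variable {E : Type*} [NormedAddCommGroup E] {N : ℕ}

lemma continuous_coulombN : Continuous (coulombN : (Fin N → E) → ℝ≥0∞) := by
  unfold coulombN
  refine continuous_finsetSum _ fun i _ => continuous_finsetSum _ fun j _ => ?_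
  exact ((continuous_apply i).edist (continuous_apply j)).inv

lemma exists_ball_of_lt {X : Type*} [PseudoMetricSpace X] {f g : X → ℝ≥0∞} (hf : Continuous f)
    (hg : Continuous g) {u : X} (h : f u < g u) :
    ∃ ε > 0, ∀ v ∈ ball u ε, f v < g v := by
  have hopen : IsOpen {u : X | f u < g u} := isOpen_lt hf hg
  obtain ⟨ε, hε, hball⟩ := Metric.isOpen_iff.1 hopen u h
  exact ⟨ε, hε, fun v hv => hball hv⟩

/-- stability of strict inequality under small perturbations -/
lemma strict_stable {q : Fin N → E} {w : Fin N → ℝ} {M : ℝ} {C : ℝ≥0∞}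
    (h : ∑ k, ENNReal.ofReal (w k + M) < coulombN q + C) :
    ∃ ε > 0, ∀ x : Fin N → E, ∀ v : Fin N → ℝ, (∀ k, dist (x k) (q k) < ε) →
      (∀ k, |v k - w k| < ε) → ∑ k, ENNReal.ofReal (v k + M) < coulombN x + C := by
  have hf : Continuous (fun u : (Fin N → E) × (Fin N → ℝ) =>
      ∑ k, ENNReal.ofReal (u.2 k + M)) := by
    refine continuous_finsetSum _ fun k _ => ?_
    exact ENNReal.continuous_ofReal.comp
        (((continuous_apply k).comp continuous_snd).add continuous_const)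
  have hg : Continuous (fun u : (Fin N → E) × (Fin N → ℝ) => coulombN u.1 + C) :=
    (continuous_coulombN.comp continuous_fst).add continuous_const
  obtain ⟨ε, hε, hball⟩ := exists_ball_of_lt hf hg (u := (q, w)) h
  refine ⟨ε, hε, fun x v hx hv => ?_⟩
  refine hball (x, v) ?_
  rw [mem_ball, Prod.dist_eq]
  refine max_lt ?_ ?_
  · exact (dist_pi_lt_iff hε).2 hx
  · exact (dist_pi_lt_iff hε).2 fun k => by rw [Real.dist_eq]; exact hv k

end Cont

section Act

variable {E : Type*} [NormedAddCommGroup E] [InnerProductSpace ℝ E] {N : ℕ}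

/-- action of `Fin 2` through `R` -/
def act (R : E ≃ₗᵢ[ℝ] E) (j : Fin 2) (y : E) : E := if j = 0 then y else R y

variable {R : E ≃ₗᵢ[ℝ] E}

@[simp] lemma act_zero' (y : E) : act R 0 y = y := rfl

@[simp] lemma act_one (y : E) : act R 1 y = R y := rfl

lemma act_act (hRR : ∀ x, R (R x) = x) (j : Fin 2) (y : E) : act R j (act R j y) = y := by
  unfold act
  split_ifs
  · rfl
  · exact hRR y

lemma act_sub (j : Fin 2) (y z : E) : act R j (y - z) = act R j y - act R j z := by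
  unfold act
  split_ifs
  · rfl
  · exact map_sub R y z

lemma norm_act (j : Fin 2) (y : E) : ‖act R j y‖ = ‖y‖ := by
  unfold act
  split_ifs
  · rfl
  · exact R.norm_map y

lemma dist_act (j : Fin 2) (y z : E) : dist (act R j y) (act R j z) = dist y z := by
  rw [dist_eq_norm, dist_eq_norm, ← act_sub, norm_act]

lemma act_of_zero (j : Fin 2) : act R j (0 : E) = 0 := by
  unfold act
  split_ifs
  · rfl
  · exact map_zero R

lemma act_inj (j : Fin 2) {y z : E} (h : act R j y = act R j z) : y = z := by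
  have := dist_act (R := R) j y z
  rw [h, dist_self] at this
  exact dist_eq_zero.1 this.symm

lemma continuous_act (j : Fin 2) : Continuous (act R j) := by
  unfold act
  split_ifs
  · exact continuous_id
  · exact R.continuous

lemma cRN_act (j : Fin 2) (y : Fin N → E) : cRN (fun k => act R j (y k)) = cRN y := by
  unfold cRN
  simp only [← act_sub, norm_act]

lemma cRN_perm (σ : Equiv.Perm (Fin N)) (y : Fin N → E) : cRN (fun k => y (σ k)) = cRN y := by
  unfold cRN
  rw [← Equiv.sum_comp σ (fun i => ∑ j, ‖y i - y j‖⁻¹)]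
  congr 1
  refine Finset.sum_congr rfl fun i _ => ?_
  exact Equiv.sum_comp σ (fun j => ‖y (σ i) - y j‖⁻¹)

end Act

section Sites

variable {E : Type*} [NormedAddCommGroup E] [InnerProductSpace ℝ E] {N : ℕ}

/-- sites of the two branches -/
def site2 (R : E ≃ₗᵢ[ℝ] E) (s : Fin N → E) (t : Fin 2 × Fin N) : E := act R t.1 (s t.2)

/-- The discrete data: `s` are the sites of the first branch, `R ∘ s` those of the second one. -/
structure Sites (R : E ≃ₗᵢ[ℝ] E) (s : Fin N → E) (o b l : Fin N) (W : E → ℝ) : Prop where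
  RR : ∀ x, R (R x) = x
  inj : Function.Injective s
  ol : o ≠ l
  ob : o ≠ b
  bl : b ≠ l
  so : s o = 0
  sep : ∀ i i', R (s i) = s i' → i = i' ∧ i ≠ b ∧ i ≠ l
  fix : ∀ i, i ≠ b → i ≠ l → R (s i) = s i
  force_fix : R (force s o) = force s o
  W_R : ∀ i, W (R (s i)) = W (s i)
  W_sum : ∑ i, W (s i) = cRN s
  lp : ∀ τ : Fin N → Fin 2 × Fin N, Function.Injective (fun k => site2 R s (τ k)) →
    (∃ j : Fin 2, ∃ σ : Equiv.Perm (Fin N), ∀ k, site2 R s (τ k) = site2 R s (j, σ k)) ∨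
    ∑ k, W (site2 R s (τ k)) < cRN (fun k => site2 R s (τ k))

variable {R : E ≃ₗᵢ[ℝ] E} {s : Fin N → E} {o b l : Fin N} {W : E → ℝ}

/-- the sites of particles `b` and `l` are not shared -/
lemma Sites.eq_of_site2 (hS : Sites R s o b l W) {j j' : Fin 2} {i i' : Fin N}
    (hi : i = b ∨ i = l) (h : site2 R s (j', i') = site2 R s (j, i)) : j' = j ∧ i' = i := by
  have key : ∀ i', R (s i) ≠ s i' := by
    intro i' hh
    have := hS.sep i i' hh
    rcases hi with hi | hi
    · exact this.2.1 hi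
    · exact this.2.2 hi
  have key' : ∀ i', R (s i') ≠ s i := by
    intro i' hh
    have h1 := hS.sep i' i hh
    rw [h1.1] at hh
    exact key i hh
  simp only [site2, act] at h
  fin_cases j <;> fin_cases j' <;> simp at h ⊢
  · exact hS.inj h
  · exact absurd h (key' i')
  · exact absurd h.symm (key i')
  · exact hS.inj h

lemma Sites.site2_o (hS : Sites R s o b l W) {j : Fin 2} {i : Fin N}
    (h : site2 R s (j, i) = 0) : i = o := by
  simp only [site2] at h
  have h1 : s i = 0 := by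
    apply act_inj (R := R) j
    rw [h, act_of_zero]
  exact hS.inj (h1.trans hS.so.symm)

/-- minimal distance of different sites -/
lemma exists_sep (R : E ≃ₗᵢ[ℝ] E) (s : Fin N → E) :
    ∃ r > 0, ∀ t t' : Fin 2 × Fin N, site2 R s t ≠ site2 R s t' →
      r ≤ dist (site2 R s t) (site2 R s t') := by
  have hle : ∀ c : ℝ, 0 < c → ∀ᶠ ρ in 𝓝[>] (0 : ℝ), ρ ≤ c := fun c hc =>
    nhdsWithin_le_nhds (eventually_le_nhds hc)
  have : ∀ᶠ r in 𝓝[>] (0 : ℝ), 0 < r ∧ ∀ t t' : Fin 2 × Fin N, site2 R s t ≠ site2 R s t' →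
      r ≤ dist (site2 R s t) (site2 R s t') := by
    refine (eventually_mem_nhdsWithin).and ?_
    rw [eventually_all]
    intro t
    rw [eventually_all]
    intro t'
    by_cases h : site2 R s t = site2 R s t'
    · exact Eventually.of_forall fun r hh => absurd h hh
    · filter_upwards [hle _ (dist_pos.2 h)] with r hr _ using hr
  obtain ⟨r, hr⟩ := this.exists
  exact ⟨r, hr.1, hr.2⟩

end Sites

section Pot

variable {E : Type*} [NormedAddCommGroup E] [InnerProductSpace ℝ E] {N : ℕ}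
variable {R : E ≃ₗᵢ[ℝ] E} {s : Fin N → E} {o b l : Fin N} {W : E → ℝ}

/-- linear coefficients of the quadratic potentials -/
noncomputable def hvec (s : Fin N → E) (o : Fin N) (i : Fin N) : E :=
  if i = o then force s o else 0

/-- the quadratic potentials -/
noncomputable def qd (s : Fin N → E) (o : Fin N) (W : E → ℝ) (p : ℝ) (i : Fin N) (y : E) : ℝ :=
  quad (W (s i)) (hvec s o i) (s i) p y

lemma qd_R (hS : Sites R s o b l W) (p : ℝ) {i : Fin N} (hib : i ≠ b) (hil : i ≠ l) (y : E) :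
    qd s o W p i (R y) = qd s o W p i y := by
  have hsi := hS.fix i hib hil
  have hh : R (hvec s o i) = hvec s o i := by
    unfold hvec
    split_ifs
    · exact hS.force_fix
    · exact map_zero R
  have e1 : R y - s i = R (y - s i) := by rw [map_sub, hsi]
  have e2 : ⟪hvec s o i, R (y - s i)⟫ = ⟪hvec s o i, y - s i⟫ := by
    conv_lhs => rw [← hh]
    exact R.inner_map_map _ _
  unfold qd quad
  rw [e1, e2, R.norm_map]

/-- potentials of the first branch, `g` is the potential of particle `l` -/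
noncomputable def fpot (s : Fin N → E) (o l : Fin N) (W : E → ℝ) (p : ℝ) (g : E → ℝ) (i : Fin N) :
    E → ℝ := if i = l then g else qd s o W p i

/-- gluing over the clusters of the first branch -/
noncomputable def V0 (s : Fin N → E) (f : Fin N → E → ℝ) (η : ℝ) (y : E) : ℝ :=
  ∑ i, (ball (s i) η).indicator (f i) y

open Classical in
/-- gluing over all clusters -/
noncomputable def VV (R : E ≃ₗᵢ[ℝ] E) (s : Fin N → E) (f : Fin N → E → ℝ) (η : ℝ) (y : E) : ℝ :=
  if y ∈ ⋃ i, ball (s i) η then V0 s f η y else V0 s f η (R y)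

lemma measurable_V0 [MeasurableSpace E] [BorelSpace E] {f : Fin N → E → ℝ}
    (hf : ∀ i, Measurable (f i)) (η : ℝ) : Measurable (V0 s f η) := by
  unfold V0
  exact Finset.measurable_sum _ fun i _ => (hf i).indicator measurableSet_ball

lemma measurable_VV [MeasurableSpace E] [BorelSpace E] {f : Fin N → E → ℝ}
    (hf : ∀ i, Measurable (f i)) (η : ℝ) : Measurable (VV R s f η) := by
  unfold VV
  refine Measurable.ite ?_ (measurable_V0 hf η) ((measurable_V0 hf η).comp R.continuous.measurable)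
  exact MeasurableSet.iUnion fun i => measurableSet_ball

lemma V0_eq {f : Fin N → E → ℝ} {η : ℝ} (hdisj : ∀ i j y, y ∈ ball (s i) η → y ∈ ball (s j) η →
    i = j) {i : Fin N} {y : E} (hy : y ∈ ball (s i) η) : V0 s f η y = f i y := by
  unfold V0
  rw [Finset.sum_eq_single i]
  · rw [indicator_of_mem hy]
  · intro j _ hj
    rw [indicator_of_notMem]
    intro hyj
    exact hj (hdisj j i y hyj hy)
  · intro hi
    exact absurd (Finset.mem_univ i) hi

lemma VV_eq {f : Fin N → E → ℝ} {η : ℝ} (hdisj : ∀ i j y, y ∈ ball (s i) η → y ∈ ball (s j) η →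
    i = j) {i : Fin N} {y : E} (hy : y ∈ ball (s i) η) : VV R s f η y = f i y := by
  unfold VV
  rw [if_pos (mem_iUnion.2 ⟨i, hy⟩), V0_eq hdisj hy]

/-- separation of clusters at scale `η` -/
def SepAt (R : E ≃ₗᵢ[ℝ] E) (s : Fin N → E) (η : ℝ) : Prop :=
  ∀ t t' : Fin 2 × Fin N, ∀ y, dist y (site2 R s t) < η → dist y (site2 R s t') < η →
    site2 R s t = site2 R s t'

lemma sepAt_of {r η : ℝ} (hr : ∀ t t' : Fin 2 × Fin N, site2 R s t ≠ site2 R s t' →
      r ≤ dist (site2 R s t) (site2 R s t')) (hη : 2 * η ≤ r) : SepAt R s η := by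
  intro t t' y h1 h2
  by_contra hne
  have h3 := hr t t' hne
  have h4 := dist_triangle_left (site2 R s t) (site2 R s t') y
  linarith

lemma SepAt.disj {η : ℝ} (h : SepAt R s η) (hinj : Function.Injective s) :
    ∀ i j y, y ∈ ball (s i) η → y ∈ ball (s j) η → i = j := by
  intro i j y hi hj
  exact hinj (h (0, i) (0, j) y hi hj)

lemma VV_R_eq (hS : Sites R s o b l W) {η p : ℝ} {g : E → ℝ} (hsep : SepAt R s η) {i : Fin N}
    {y : E} (hy : y ∈ ball (s i) η) :
    VV R s (fpot s o l W p g) η (R y) = fpot s o l W p g i y := by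
  have hdisj := hsep.disj hS.inj
  have hRy : dist (R y) (site2 R s (1, i)) < η := by
    show dist (R y) (R (s i)) < η
    rw [R.dist_map]
    exact hy
  by_cases hmem : R y ∈ ⋃ i, ball (s i) η
  · obtain ⟨i', hi'⟩ := mem_iUnion.1 hmem
    have h1 : site2 R s (1, i) = site2 R s (0, i') := hsep _ _ (R y) hRy hi'
    have h2 : R (s i) = s i' := h1
    obtain ⟨h3, h4, h5⟩ := hS.sep i i' h2
    subst h3
    rw [VV_eq hdisj hi']
    unfold fpot
    rw [if_neg h5]
    exact qd_R hS p h4 h5 y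
  · unfold VV
    rw [if_neg hmem, hS.RR]
    exact V0_eq hdisj hy

lemma VV_act_eq (hS : Sites R s o b l W) {η p : ℝ} {g : E → ℝ} (hsep : SepAt R s η) {i : Fin N}
    {y : E} (hy : y ∈ ball (s i) η) (j : Fin 2) :
    VV R s (fpot s o l W p g) η (act R j y) = fpot s o l W p g i y := by
  fin_cases j
  · exact VV_eq (hsep.disj hS.inj) hy
  · exact VV_R_eq hS hsep hy

end Pot

end Vale.Agent.P121
end
end

section

section

open MeasureTheory Set Filter Topology Metric
open scoped RealInnerProductSpace ENNReal NNReal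

namespace Vale.Agent.P121

section Scales

variable {E : Type*} [NormedAddCommGroup E] [InnerProductSpace ℝ E] {N : ℕ}
variable {R : E ≃ₗᵢ[ℝ] E} {s : Fin N → E} {o b l : Fin N} {W : E → ℝ}

lemma continuousAt_cRN {s : Fin N → E} (hs : Function.Injective s) :
    ContinuousAt (cRN : (Fin N → E) → ℝ) s := by
  unfold cRN
  refine continuousAt_const.mul ?_
  refine tendsto_finsetSum _ fun i _ => tendsto_finsetSum _ fun j _ => ?_
  by_cases hij : i = j
  · subst hij
    simp only [sub_self, norm_zero, inv_zero]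
    exact tendsto_const_nhds
  · have h1 : ContinuousAt (fun x : Fin N → E => ‖x i - x j‖) s :=
      ((continuous_apply i).sub (continuous_apply j)).norm.continuousAt
    exact h1.inv₀ (norm_ne_zero_iff.2 (sub_ne_zero.2 (fun h => hij (hs h))))

lemma cRN_close {s : Fin N → E} (hs : Function.Injective s) {ε : ℝ} (hε : 0 < ε) :
    ∃ η > 0, ∀ x : Fin N → E, (∀ i, ‖x i - s i‖ < η) → |cRN x - cRN s| < ε := by
  obtain ⟨η, hη, h⟩ := Metric.continuousAt_iff.1 (continuousAt_cRN hs) ε hε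
  refine ⟨η, hη, fun x hx => ?_⟩
  have := h (x := x) ((dist_pi_lt_iff hη).2 fun i => by rw [dist_eq_norm]; exact hx i)
  rwa [Real.dist_eq] at this

lemma abs_W_le (s : Fin N → E) (W : E → ℝ) (i : Fin N) : |W (s i)| ≤ ∑ i, |W (s i)| :=
  Finset.single_le_sum (f := fun i => |W (s i)|) (fun i _ => abs_nonneg _) (Finset.mem_univ i)

lemma W_site2 (hS : Sites R s o b l W) (t : Fin 2 × Fin N) : W (site2 R s t) = W (s t.2) := by
  obtain ⟨j, i⟩ := t
  fin_cases j
  · rfl
  · exact hS.W_R i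

/-- strict inequality for the tuples of sites that are not a branch -/
lemma bad_strict (hS : Sites R s o b l W) (τ : Fin N → Fin 2 × Fin N)
    (hbad : ¬ ∃ j : Fin 2, ∃ σ : Equiv.Perm (Fin N), ∀ k, site2 R s (τ k) = site2 R s (j, σ k)) :
    ∑ k, ENNReal.ofReal (W (site2 R s (τ k)) + (1 + ∑ i, |W (s i)|)) <
      coulombN (fun k => site2 R s (τ k)) + ENNReal.ofReal (N * (1 + ∑ i, |W (s i)|)) := by
  set M : ℝ := 1 + ∑ i, |W (s i)| with hM
  have hM1 : 1 ≤ M := by
    have : 0 ≤ ∑ i, |W (s i)| := Finset.sum_nonneg fun i _ => abs_nonneg _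
    linarith only [this]
  by_cases hinj : Function.Injective (fun k => site2 R s (τ k))
  · have hlt := (hS.lp τ hinj).resolve_left hbad
    have hnn : ∀ k, 0 ≤ W (site2 R s (τ k)) + M := by
      intro k
      rw [W_site2 hS]
      have h1 := abs_W_le s W (τ k).2
      have h2 := neg_abs_le (W (s (τ k).2))
      linarith only [h1, h2]
    rw [coulombN_eq_ofReal hinj, ← ENNReal.ofReal_add (cRN_nonneg _) (by (clear * -; positivity)),
      ← ENNReal.ofReal_sum_of_nonneg (fun k _ => hnn k)]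
    rw [ENNReal.ofReal_lt_ofReal_iff_of_nonneg (Finset.sum_nonneg fun k _ => hnn k)]
    rw [Finset.sum_add_distrib, Finset.sum_const, Finset.card_univ, Fintype.card_fin, nsmul_eq_mul]
    linarith only [hlt]
  · rw [coulombN_eq_top hinj, top_add]
    refine ENNReal.sum_lt_top.2 fun k _ => ENNReal.ofReal_lt_top

/-- uniform version of `strict_stable` for all bad tuples -/
lemma exists_eps (hS : Sites R s o b l W) :
    ∃ ε > 0, ε ≤ 1 ∧ ∀ τ : Fin N → Fin 2 × Fin N,
      (¬ ∃ j : Fin 2, ∃ σ : Equiv.Perm (Fin N), ∀ k, site2 R s (τ k) = site2 R s (j, σ k)) →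
      ∀ x : Fin N → E, ∀ v : Fin N → ℝ, (∀ k, dist (x k) (site2 R s (τ k)) < ε) →
      (∀ k, |v k - W (site2 R s (τ k))| < ε) →
      ∑ k, ENNReal.ofReal (v k + (1 + ∑ i, |W (s i)|)) <
        coulombN x + ENNReal.ofReal (N * (1 + ∑ i, |W (s i)|)) := by
  have hle : ∀ c : ℝ, 0 < c → ∀ᶠ ρ in 𝓝[>] (0 : ℝ), ρ ≤ c := fun c hc =>
    nhdsWithin_le_nhds (eventually_le_nhds hc)
  have : ∀ᶠ ε in 𝓝[>] (0 : ℝ), 0 < ε ∧ ε ≤ 1 ∧ ∀ τ : Fin N → Fin 2 × Fin N,
      (¬ ∃ j : Fin 2, ∃ σ : Equiv.Perm (Fin N), ∀ k, site2 R s (τ k) = site2 R s (j, σ k)) →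
      ∀ x : Fin N → E, ∀ v : Fin N → ℝ, (∀ k, dist (x k) (site2 R s (τ k)) < ε) →
      (∀ k, |v k - W (site2 R s (τ k))| < ε) →
      ∑ k, ENNReal.ofReal (v k + (1 + ∑ i, |W (s i)|)) <
        coulombN x + ENNReal.ofReal (N * (1 + ∑ i, |W (s i)|)) := by
    refine (eventually_mem_nhdsWithin).and ((hle 1 one_pos).and ?_)
    rw [eventually_all]
    intro τ
    by_cases hbad : ∃ j : Fin 2, ∃ σ : Equiv.Perm (Fin N), ∀ k,
        site2 R s (τ k) = site2 R s (j, σ k)
    · exact Eventually.of_forall fun ε hh => absurd hbad hh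
    · obtain ⟨ε, hε, h⟩ := strict_stable (bad_strict hS τ hbad)
      filter_upwards [hle ε hε] with ε' hε' _ x v hx hv
      exact h x v (fun k => (hx k).trans_le hε') (fun k => (hv k).trans_le hε')
  obtain ⟨ε, h1, h2, h3⟩ := this.exists
  exact ⟨ε, h1, h2, h3⟩

lemma qd_close (p : ℝ) (hp : 0 ≤ p) (i : Fin N) (y : E) {η : ℝ} (h1 : ‖y - s i‖ < η)
    (h2 : p * ‖y - s i‖ ^ 2 < η) : |qd s o W p i y - W (s i)| ≤ (‖force s o‖ + 1) * η := by
  have e : qd s o W p i y - W (s i) = ⟪hvec s o i, y - s i⟫ - p / 2 * ‖y - s i‖ ^ 2 := by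
    unfold qd quad; ring
  have hh : ‖hvec s o i‖ ≤ ‖force s o‖ := by
    unfold hvec
    split_ifs
    · exact le_rfl
    · rw [norm_zero]; exact norm_nonneg _
  have e1 : |⟪hvec s o i, y - s i⟫| ≤ ‖force s o‖ * η := by
    refine (abs_real_inner_le_norm _ _).trans ?_
    gcongr
  have e2 : 0 ≤ p / 2 * ‖y - s i‖ ^ 2 := by (clear * - hp; positivity)
  have e3 : p / 2 * ‖y - s i‖ ^ 2 ≤ η := by
    have : 0 ≤ p * ‖y - s i‖ ^ 2 := by (clear * - hp; positivity)
    linarith only [h2, e2]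
  rw [e, abs_le]
  rw [abs_le] at e1
  have hη : 0 ≤ η := (norm_nonneg _).trans h1.le
  constructor <;> linarith only [h2, e1, e2]

end Scales

section Good

variable {E : Type*} [NormedAddCommGroup E] [InnerProductSpace ℝ E] {N : ℕ}
variable {R : E ≃ₗᵢ[ℝ] E} {s : Fin N → E} {o b l : Fin N} {W : E → ℝ}

/-- value of the potential of particle `l` -/
noncomputable def ul (s : Fin N → E) (o l : Fin N) (W : E → ℝ) (p : ℝ) (z : Fin N → E) : ℝ :=
  cRN z - ∑ i ∈ {l}ᶜ, qd s o W p i (z i)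

lemma sum_fpot (p : ℝ) (g : E → ℝ) (y : Fin N → E) :
    ∑ i, fpot s o l W p g i (y i) = ∑ i ∈ {l}ᶜ, qd s o W p i (y i) + g (y l) := by
  rw [← Finset.sum_compl_add_sum {l}, Finset.sum_singleton]
  congr 1
  · refine Finset.sum_congr rfl fun i hi => ?_
    simp only [Finset.mem_compl, Finset.mem_singleton] at hi
    rw [fpot, if_neg hi]
  · rw [fpot, if_pos rfl]

/-- the inequality on the clusters of the first branch -/
lemma good_branch {p r : ℝ} (hr : 0 < r) (hpr : N / r ^ 3 < p / 2) {z y : Fin N → E}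
    (hz : ∀ i j, i ≠ j → r ≤ ‖z i - z j‖) (hy : Function.Injective y) (hl : y l = z l)
    (hcrit : ∀ i, i ≠ l → force z i = hvec s o i - p • (z i - s i))
    {g : E → ℝ} (hg : g (z l) = ul s o l W p z) :
    ∑ i, fpot s o l W p g i (y i) ≤ cRN y ∧
    (cRN y = ∑ i, fpot s o l W p g i (y i) → y = z) ∧
    cRN z = ∑ i, fpot s o l W p g i (z i) := by
  have hzinj : Function.Injective z := by
    intro i j hij
    by_contra hne
    have := hz i j hne
    rw [hij, sub_self, norm_zero] at this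
    linarith only [hr, this]
  have key := key_ineqN hzinj hy hr hz l hl (fun i => W (s i)) (hvec s o) s p hcrit
  have e1 := sum_fpot (s := s) (o := o) (l := l) (W := W) p g y
  have e2 := sum_fpot (s := s) (o := o) (l := l) (W := W) p g z
  rw [hl, hg] at e1
  rw [hg] at e2
  unfold ul at e1 e2
  unfold qd at e1 e2
  have hnn : 0 ≤ ∑ i ∈ {l}ᶜ, ‖y i - z i‖ ^ 2 := Finset.sum_nonneg fun i _ => by (clear * -; positivity)
  have hc : 0 < p / 2 - N / r ^ 3 := by linarith only [hpr]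
  refine ⟨?_, ?_, ?_⟩
  · have := mul_nonneg hc.le hnn
    linarith only [key, e1, this]
  · intro heq
    have h0 : (p / 2 - N / r ^ 3) * ∑ i ∈ {l}ᶜ, ‖y i - z i‖ ^ 2 ≤ 0 := by linarith only [key, e1, heq]
    have h1 : ∑ i ∈ {l}ᶜ, ‖y i - z i‖ ^ 2 = 0 := by
      by_contra hne
      have : 0 < ∑ i ∈ {l}ᶜ, ‖y i - z i‖ ^ 2 := lt_of_le_of_ne hnn (Ne.symm hne)
      have := mul_pos hc this
      linarith only [key, e1, heq, this]
    rw [Finset.sum_eq_zero_iff_of_nonneg (fun i _ => by (clear * -; positivity))] at h1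
    funext i
    by_cases hi : i = l
    · rw [hi]; exact hl
    · have := h1 i (by simp [hi])
      have h2 : ‖y i - z i‖ = 0 := by simpa only [norm_eq_zero, ne_eq, OfNat.ofNat_ne_zero, not_false_eq_true, pow_eq_zero_iff] using this
      exact sub_eq_zero.1 (norm_eq_zero.1 h2)
  · linarith only [e2]

/-- All the data of the construction. -/
structure Pack (R : E ≃ₗᵢ[ℝ] E) (s : Fin N → E) (o b l : Fin N) (W : E → ℝ) (p r η δ ε : ℝ)
    (x : E → Fin N → E) (g : E → ℝ) : Prop where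
  hS : Sites R s o b l W
  hr : 0 < r
  hpr : N / r ^ 3 < p / 2
  sep : SepAt R s η
  hηε : η ≤ ε
  hε1 : ε ≤ 1
  bad : ∀ τ : Fin N → Fin 2 × Fin N,
      (¬ ∃ j : Fin 2, ∃ σ : Equiv.Perm (Fin N), ∀ k, site2 R s (τ k) = site2 R s (j, σ k)) →
      ∀ x : Fin N → E, ∀ v : Fin N → ℝ, (∀ k, dist (x k) (site2 R s (τ k)) < ε) →
      (∀ k, |v k - W (site2 R s (τ k))| < ε) →
      ∑ k, ENNReal.ofReal (v k + (1 + ∑ i, |W (s i)|)) <
        coulombN x + ENNReal.ofReal (N * (1 + ∑ i, |W (s i)|))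
  xo : ∀ a ∈ closedBall (0 : E) δ, x a o = a
  near : ∀ a ∈ closedBall (0 : E) δ, ∀ i, ‖x a i - s i‖ < η
  crit : ∀ a ∈ closedBall (0 : E) δ, ∀ i, i ≠ l →
    force (x a) i = hvec s o i - p • (x a i - s i)
  rsep : ∀ a ∈ closedBall (0 : E) δ, ∀ i j, i ≠ j → r ≤ ‖x a i - x a j‖
  hg : ∀ a ∈ closedBall (0 : E) δ, g (x a l) = ul s o l W p (x a)
  close : ∀ a ∈ closedBall (0 : E) δ, ∀ i, |fpot s o l W p g i (x a i) - W (s i)| < ε

variable {p r η δ ε : ℝ} {x : E → Fin N → E} {g : E → ℝ}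

lemma Pack.dist_site (hP : Pack R s o b l W p r η δ ε x g) (t : Fin 2 × Fin N) {c : E}
    (hc : c ∈ closedBall (0 : E) δ) : dist (act R t.1 (x c t.2)) (site2 R s t) < η := by
  unfold site2
  rw [dist_act, dist_eq_norm]
  exact hP.near c hc t.2

lemma Pack.VV_pt (hP : Pack R s o b l W p r η δ ε x g) (t : Fin 2 × Fin N) {c : E}
    (hc : c ∈ closedBall (0 : E) δ) :
    VV R s (fpot s o l W p g) η (act R t.1 (x c t.2)) = fpot s o l W p g t.2 (x c t.2) := by
  refine VV_act_eq hP.hS hP.sep ?_ t.1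
  rw [mem_ball, dist_eq_norm]
  exact hP.near c hc t.2

lemma Pack.VV_bounds (hP : Pack R s o b l W p r η δ ε x g) (t : Fin 2 × Fin N) {c : E}
    (hc : c ∈ closedBall (0 : E) δ) :
    0 ≤ VV R s (fpot s o l W p g) η (act R t.1 (x c t.2)) + (1 + ∑ i, |W (s i)|) ∧
    VV R s (fpot s o l W p g) η (act R t.1 (x c t.2)) + (1 + ∑ i, |W (s i)|) ≤
      2 * (1 + ∑ i, |W (s i)|) := by
  rw [hP.VV_pt t hc]
  have h1 := hP.close c hc t.2
  have h2 := abs_W_le s W t.2
  have h3 := hP.hε1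
  rw [abs_lt] at h1
  have h4 := neg_abs_le (W (s t.2))
  have h5 := le_abs_self (W (s t.2))
  constructor <;> linarith only [h1, h2, h3, h4, h5]

/-- the global inequality and the description of contact -/
lemma Pack.main_ineq (hP : Pack R s o b l W p r η δ ε x g) (τ : Fin N → Fin 2 × Fin N)
    (c : Fin N → E) (hc : ∀ k, c k ∈ closedBall (0 : E) δ) (z : Fin N → E)
    (hz : ∀ k, z k = act R (τ k).1 (x (c k) (τ k).2)) :
    ∑ k, ENNReal.ofReal (VV R s (fpot s o l W p g) η (z k) + (1 + ∑ i, |W (s i)|)) ≤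
      coulombN z + ENNReal.ofReal (N * (1 + ∑ i, |W (s i)|)) ∧
    (coulombN z + ENNReal.ofReal (N * (1 + ∑ i, |W (s i)|)) =
      ∑ k, ENNReal.ofReal (VV R s (fpot s o l W p g) η (z k) + (1 + ∑ i, |W (s i)|)) →
      z o ∈ closedBall (0 : E) δ → ∃ j k, z k = act R j (x (act R j (z o)) b)) := by
  classical
  set M : ℝ := 1 + ∑ i, |W (s i)| with hM
  have hM1 : 1 ≤ M := by
    have : 0 ≤ ∑ i, |W (s i)| := Finset.sum_nonneg fun i _ => abs_nonneg _
    linarith
  set V := VV R s (fpot s o l W p g) η with hV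
  have hS := hP.hS
  have hdz : ∀ k, dist (z k) (site2 R s (τ k)) < η := by
    intro k
    rw [hz k]
    exact hP.dist_site (τ k) (hc k)
  by_cases hgood : ∃ j : Fin 2, ∃ σ : Equiv.Perm (Fin N), ∀ k,
      site2 R s (τ k) = site2 R s (j, σ k)
  swap
  · have hlt := hP.bad τ hgood z (fun k => V (z k)) (fun k => (hdz k).trans_le hP.hηε) (by
      intro k
      rw [hz k, hV, hP.VV_pt (τ k) (hc k), W_site2 hS]
      exact hP.close (c k) (hc k) (τ k).2)
    exact ⟨hlt.le, fun heq => absurd heq hlt.ne'⟩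
  · obtain ⟨j, σ, hσ⟩ := hgood
    set y : Fin N → E := fun i => act R j (z (σ.symm i)) with hy
    have hzy : ∀ k, z k = act R j (y (σ k)) := by
      intro k
      simp only [hy]
      rw [act_act hS.RR, Equiv.symm_apply_apply]
    have hyball : ∀ i, y i ∈ ball (s i) η := by
      intro i
      rw [mem_ball]
      have e1 : dist (y i) (s i) = dist (act R j (y i)) (act R j (s i)) := (dist_act _ _ _).symm
      rw [e1]
      have e2 : act R j (y i) = z (σ.symm i) := by
        rw [hzy (σ.symm i), Equiv.apply_symm_apply]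
      rw [e2]
      have e3 := hdz (σ.symm i)
      rw [hσ (σ.symm i), Equiv.apply_symm_apply] at e3
      exact e3
    have hdisj := hP.sep.disj hS.inj
    have hyinj : Function.Injective y := by
      intro i i' hii
      refine hdisj i i' (y i) (hyball i) ?_
      rw [hii]
      exact hyball i'
    have hzinj : Function.Injective z := by
      intro k k' hkk
      rw [hzy k, hzy k'] at hkk
      exact σ.injective (hyinj (act_inj (R := R) j hkk))
    have hVy : ∀ i, V (act R j (y i)) = fpot s o l W p g i (y i) := fun i =>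
      VV_act_eq hS hP.sep (hyball i) j
    -- the label
    have hτl : (τ (σ.symm l)).1 = j ∧ (τ (σ.symm l)).2 = l := by
      have e3 := hσ (σ.symm l)
      rw [Equiv.apply_symm_apply] at e3
      exact hS.eq_of_site2 (j := j) (j' := (τ (σ.symm l)).1) (i' := (τ (σ.symm l)).2)
        (Or.inr rfl) e3
    set a : E := c (σ.symm l) with ha
    have haD : a ∈ closedBall (0 : E) δ := hc _
    have hyl : y l = x a l := by
      simp only [hy]
      rw [hz (σ.symm l), hτl.1, hτl.2, act_act hS.RR]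
    obtain ⟨g1, g2, g3⟩ := good_branch (s := s) (o := o) (W := W) hP.hr hP.hpr (hP.rsep a haD)
      hyinj hyl (hP.crit a haD) (hP.hg a haD)
    have hcy : cRN y = cRN z := by
      have e1 : cRN y = cRN (fun i => z (σ.symm i)) := cRN_act j _
      rw [e1, cRN_perm]
    have hsumV : ∑ k, V (z k) = ∑ i, fpot s o l W p g i (y i) := by
      rw [← Equiv.sum_comp σ (fun i => fpot s o l W p g i (y i))]
      refine Finset.sum_congr rfl fun k _ => ?_
      rw [← hVy, ← hzy]
    have hnn : ∀ k, 0 ≤ V (z k) + M := by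
      intro k
      rw [hz k]
      exact (hP.VV_bounds (τ k) (hc k)).1
    have hsum : ∑ k, ENNReal.ofReal (V (z k) + M) =
        ENNReal.ofReal (∑ i, fpot s o l W p g i (y i) + N * M) := by
      rw [← ENNReal.ofReal_sum_of_nonneg (fun k _ => hnn k), Finset.sum_add_distrib, hsumV,
        Finset.sum_const, Finset.card_univ, Fintype.card_fin, nsmul_eq_mul]
    have hcost : coulombN z + ENNReal.ofReal (N * M) = ENNReal.ofReal (cRN y + N * M) := by
      rw [coulombN_eq_ofReal hzinj, hcy, ENNReal.ofReal_add (cRN_nonneg _) (by (clear * -; positivity))]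
    rw [hsum, hcost]
    refine ⟨ENNReal.ofReal_le_ofReal (by linarith only [g1]), ?_⟩
    intro heq hzo
    have hnn2 : 0 ≤ ∑ i, fpot s o l W p g i (y i) + N * M := by
      rw [← hsumV]
      have : ∑ k, (V (z k) + M) = ∑ k, V (z k) + N * M := by
        rw [Finset.sum_add_distrib, Finset.sum_const, Finset.card_univ, Fintype.card_fin,
          nsmul_eq_mul]
      rw [← this]
      exact Finset.sum_nonneg fun k _ => hnn k
    have hnn3 : 0 ≤ cRN y + N * M := add_nonneg (cRN_nonneg _) (by (clear * -; positivity))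
    have heq2 := (ENNReal.ofReal_eq_ofReal_iff hnn3 hnn2).1 heq
    have hyx : y = x a := g2 (by linarith only [heq2])
    -- σ o = o
    have hσo : σ o = o := by
      have e1 : dist (z o) (site2 R s (0, o)) < η := by
        have := hP.near (z o) hzo o
        rw [hP.xo (z o) hzo] at this
        rw [dist_eq_norm]
        exact this
      have e2 := hP.sep _ _ (z o) (hdz o) e1
      have e3 : site2 R s (j, σ o) = 0 := by
        rw [← hσ o, e2]
        exact hS.so
      exact hS.site2_o e3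
    have hyo : y o = act R j (z o) := by
      simp only [hy]
      rw [show σ.symm o = o by rw [Equiv.symm_apply_eq]; exact hσo.symm]
    refine ⟨j, σ.symm b, ?_⟩
    rw [hzy (σ.symm b), Equiv.apply_symm_apply, ← hyo, hyx, hP.xo a haD]

end Good

section Final

variable {E : Type*} [NormedAddCommGroup E] [InnerProductSpace ℝ E] [FiniteDimensional ℝ E]
  [MeasurableSpace E] [BorelSpace E] {N : ℕ}
variable {R : E ≃ₗᵢ[ℝ] E} {s : Fin N → E} {o b l : Fin N} {W : E → ℝ}

/-- existence of the data -/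
lemma exists_pack (hS : Sites R s o b l W) :
    ∃ (p r η δ ε Λ : ℝ) (x : E → Fin N → E) (g : E → ℝ), 0 < δ ∧ 0 < Λ ∧
      Pack R s o b l W p r η δ ε x g ∧ Measurable g ∧
      ContinuousOn x (closedBall (0 : E) δ) ∧
      (∀ a ∈ closedBall (0 : E) δ, ∀ a' ∈ closedBall (0 : E) δ, ∀ i,
        ‖a - a'‖ ≤ Λ * ‖x a i - x a' i‖) := by
  classical
  obtain ⟨ε, hε, hε1, hbad⟩ := exists_eps hS
  obtain ⟨r₀, hr₀, hsep⟩ := exists_sep R s
  obtain ⟨η₁, hη₁, hclose⟩ := cRN_close hS.inj (show 0 < ε / 2 by positivity)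
  -- choice of η
  obtain ⟨η, hη, hηη₁, hηε, hηr, hηN⟩ : ∃ η : ℝ, 0 < η ∧ η ≤ η₁ ∧ η ≤ ε ∧ η ≤ r₀ / 4 ∧
      η ≤ ε / (4 * (N + 1) * (‖force s o‖ + 1)) := by
    have hle : ∀ c : ℝ, 0 < c → ∀ᶠ ρ in 𝓝[>] (0 : ℝ), ρ ≤ c := fun c hc =>
      nhdsWithin_le_nhds (eventually_le_nhds hc)
    have : ∀ᶠ η in 𝓝[>] (0 : ℝ), 0 < η ∧ η ≤ η₁ ∧ η ≤ ε ∧ η ≤ r₀ / 4 ∧
        η ≤ ε / (4 * (N + 1) * (‖force s o‖ + 1)) := by
      filter_upwards [self_mem_nhdsWithin, hle η₁ hη₁, hle ε hε, hle (r₀ / 4) (by positivity),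
        hle (ε / (4 * (N + 1) * (‖force s o‖ + 1))) (by (clear * - hε; positivity))] with η a b c d e
        using ⟨a, b, c, d, e⟩
    exact this.exists
  have hηN' : (N + 1) * ((‖force s o‖ + 1) * η) ≤ ε / 4 := by
    calc (N + 1) * ((‖force s o‖ + 1) * η)
        ≤ (N + 1) * ((‖force s o‖ + 1) * (ε / (4 * (N + 1) * (‖force s o‖ + 1)))) := by (clear * - hηN; gcongr)
      _ = ε / 4 := by field_simp
  have hho : hvec s o o = force s o := by unfold hvec; rw [if_pos rfl]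
  obtain ⟨P₀, hP₀, hloc⟩ := local_packageN hS.inj hS.ol (hvec s o) hho hη
  set r : ℝ := r₀ / 2 with hr
  have hr0 : 0 < r := by positivity
  set p : ℝ := max P₀ (2 * (N / r ^ 3) + 1) with hp
  have hp0 : 0 < p := lt_of_lt_of_le hP₀ (le_max_left _ _)
  have hpr : N / r ^ 3 < p / 2 := by
    have := le_max_right P₀ (2 * (N / r ^ 3) + 1)
    linarith only [this]
  obtain ⟨δ, hδ, Λ, hΛ, x, hx, hlip, hcont⟩ := hloc p (le_max_left _ _)
  rw [hS.so] at hx hlip hcont
  have hrsep : ∀ a ∈ closedBall (0 : E) δ, ∀ i j, i ≠ j → r ≤ ‖x a i - x a j‖ := by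
    intro a ha i j hij
    have h1 := hsep (0, i) (0, j) (fun h => hij (hS.inj h))
    have h2 := (hx a ha).2.1 i
    have h3 := (hx a ha).2.1 j
    have h4 : dist (site2 R s (0, i)) (site2 R s (0, j)) = ‖s i - s j‖ := dist_eq_norm _ _
    have h5 : ‖s i - s j‖ ≤ ‖x a i - s i‖ + ‖x a i - x a j‖ + ‖x a j - s j‖ := by
      have e : s i - s j = -(x a i - s i) + (x a i - x a j) + (x a j - s j) := by abel
      rw [e]
      refine (norm_add_le _ _).trans ?_
      gcongr
      refine (norm_add_le _ _).trans ?_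
      rw [norm_neg]
    linarith only [hηr, hr, h1, h2, h3, h4, h5]
  -- the implicit potential
  set D := closedBall (0 : E) δ with hD
  have hDm : MeasurableSet D := measurableSet_closedBall
  have hstd : StandardBorelSpace D := hDm.standardBorel
  have hemb : MeasurableEmbedding (fun a : D => x a l) := by
    refine Measurable.measurableEmbedding ?_ ?_
    · have h1 : Continuous (fun a : D => x a) := hcont.domRestrict
      exact ((continuous_apply l).comp h1).measurable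
    · intro a a' haa
      have := hlip a a.2 a' a'.2 l
      simp only at haa
      rw [haa, sub_self, norm_zero, mul_zero] at this
      exact Subtype.ext (sub_eq_zero.1 (norm_le_zero_iff.1 this))
  have hqdm : ∀ i, Measurable (qd s o W p i) := by
    intro i
    unfold qd quad
    fun_prop
  have hulm : Measurable (fun a : D => ul s o l W p (x a)) := by
    have h1 : Measurable (fun a : D => x a) := hcont.domRestrict.measurable
    have h2 : ∀ i, Measurable (fun a : D => x a i) := fun i => (measurable_pi_apply i).comp h1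
    unfold ul cRN
    refine Measurable.sub ?_ ?_
    · refine measurable_const.mul (Finset.measurable_sum _ fun i _ =>
        Finset.measurable_sum _ fun j _ => ?_)
      exact ((h2 i).sub (h2 j)).norm.inv
    · exact Finset.measurable_sum _ fun i _ => (hqdm i).comp (h2 i)
  obtain ⟨g, hgm, hgeq⟩ := hemb.exists_measurable_extend hulm (fun _ => inferInstance)
  have hg : ∀ a ∈ D, g (x a l) = ul s o l W p (x a) := fun a ha => congrFun hgeq ⟨a, ha⟩
  have hqclose : ∀ a ∈ D, ∀ i, i ≠ l → |qd s o W p i (x a i) - W (s i)| ≤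
      (‖force s o‖ + 1) * η := by
    intro a ha i hi
    exact qd_close p hp0.le i _ ((hx a ha).2.1 i) ((hx a ha).2.2.2 i hi)
  have hsmall : (‖force s o‖ + 1) * η < ε := by
    have h1 : 0 ≤ (‖force s o‖ + 1) * η := by (clear * - hη; positivity)
    have h2 : (0 : ℝ) ≤ N := Nat.cast_nonneg _
    nlinarith only [hε, hηN']
  refine ⟨p, r, η, δ, ε, Λ, x, g, hδ, hΛ, ?_, hgm, hcont, hlip⟩
  refine ⟨hS, hr0, hpr, sepAt_of hsep (by linarith only [hη, hηr]), hηε, hε1, hbad, fun a ha => (hx a ha).1,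
    fun a ha => (hx a ha).2.1, fun a ha => (hx a ha).2.2.1, hrsep, hg, ?_⟩
  intro a ha i
  by_cases hi : i = l
  · subst hi
    rw [fpot, if_pos rfl, hg a ha]
    have h1 := hclose (x a) (fun i => ((hx a ha).2.1 i).trans_le hηη₁)
    have h2 : W (s i) = cRN s - ∑ k ∈ {i}ᶜ, W (s k) := by
      have := hS.W_sum
      rw [← Finset.sum_compl_add_sum {i}, Finset.sum_singleton] at this
      linarith only [this]
    have h3 : ul s o i W p (x a) - W (s i) = (cRN (x a) - cRN s) -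
        ∑ k ∈ {i}ᶜ, (qd s o W p k (x a k) - W (s k)) := by
      rw [h2, ul, Finset.sum_sub_distrib]
      ring
    have h4 : |∑ k ∈ {i}ᶜ, (qd s o W p k (x a k) - W (s k))| ≤ ε / 4 := by
      calc |∑ k ∈ {i}ᶜ, (qd s o W p k (x a k) - W (s k))|
          ≤ ∑ k ∈ {i}ᶜ, |qd s o W p k (x a k) - W (s k)| := Finset.abs_sum_le_sum_abs _ _
        _ ≤ ∑ _k ∈ ({i}ᶜ : Finset (Fin N)), (‖force s o‖ + 1) * η := by
            refine Finset.sum_le_sum fun k hk => hqclose a ha k ?_
            simpa using hk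
        _ ≤ ∑ _k : Fin N, (‖force s o‖ + 1) * η :=
            Finset.sum_le_univ_sum_of_nonneg fun _ => by (clear * - hη; positivity)
        _ = N * ((‖force s o‖ + 1) * η) := by
            rw [Finset.sum_const, Finset.card_univ, Fintype.card_fin, nsmul_eq_mul]
        _ ≤ (N + 1) * ((‖force s o‖ + 1) * η) := by
            gcongr
            linarith only []
        _ ≤ ε / 4 := hηN'
    rw [h3]
    rw [abs_le] at h4
    rw [abs_lt] at h1 ⊢
    constructor <;> linarith only [h1, h4]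
  · rw [fpot, if_neg hi]
    exact (hqclose a ha i hi).trans_lt hsmall

/-- The construction from the discrete data. -/
theorem main_of_sites [NeZero N] (hS : Sites R s 0 b l W) :
    ∃ μ : Measure E, IsProbabilityMeasure μ ∧ (∃ S, IsCompact S ∧ μ Sᶜ = 0) ∧
      (∃ C : ℝ≥0, μ ≤ C • (volume : Measure E)) ∧ kantorovichN N μ ≠ ∞ ∧
      ∀ T : Fin N → E → E, IsMongeN μ T → mongeCostN μ T ≠ kantorovichN N μ := by
  classical
  obtain ⟨p, r, η, δ, ε, Λ, x, g, hδ, hΛ, hP, hgm, hcont, hlip⟩ := exists_pack hS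
  set D := closedBall (0 : E) δ with hD
  have hDm : MeasurableSet D := measurableSet_closedBall
  -- uniform measure on D
  have hvD0 : volume D ≠ 0 := (measure_closedBall_pos volume 0 hδ).ne'
  have hvDt : volume D ≠ ∞ := measure_closedBall_lt_top.ne
  let ν : Measure E := (volume D)⁻¹ • volume.restrict D
  have hν : IsProbabilityMeasure ν := by
    refine ⟨?_⟩
    simp only [ν, Measure.smul_apply, smul_eq_mul, Measure.restrict_apply_univ]
    exact ENNReal.inv_mul_cancel hvD0 hvDt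
  have hνD : ν Dᶜ = 0 := by
    simp only [ν, Measure.smul_apply, smul_eq_mul, Measure.restrict_apply hDm.compl,
      compl_inter_self, measure_empty, mul_zero]
  -- the maps
  let X : Fin N → E → E := fun i => D.piecewise (fun a => x a i) (fun _ => 0)
  have hXe : ∀ i, ∀ a ∈ D, X i a = x a i := fun i a ha => Set.piecewise_eq_of_mem _ _ _ ha
  have hXm : ∀ i, Measurable (X i) := fun i =>
    ((continuous_apply i).comp_continuousOn hcont).measurable_piecewise continuousOn_const hDm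
  let F : Fin 2 → Fin N → E → E := fun j i a => act R j (X i (act R j a))
  have hFm : ∀ j i, Measurable (F j i) := fun j i =>
    (continuous_act j).measurable.comp ((hXm i).comp (continuous_act j).measurable)
  have hactD : ∀ j, ∀ a ∈ D, act R j a ∈ D := by
    intro j a ha
    rw [hD, mem_closedBall, dist_zero_right, norm_act, ← dist_zero_right]
    exact ha
  have hFe : ∀ j i, ∀ a ∈ D, F j i a = act R j (x (act R j a) i) := by
    intro j i a ha
    show act R j (X i (act R j a)) = _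
    rw [hXe i _ (hactD j a ha)]
  have hFlip : ∀ j i, ∀ a ∈ D, ∀ a' ∈ D, ‖a - a'‖ ≤ Λ * ‖F j i a - F j i a'‖ := by
    intro j i a ha a' ha'
    rw [hFe j i a ha, hFe j i a' ha', ← act_sub, norm_act]
    have := hlip _ (hactD j a ha) _ (hactD j a' ha') i
    rwa [← act_sub, norm_act] at this
  have hFinj : ∀ j i, InjOn (F j i) D := by
    intro j i a ha a' ha' haa
    have := hFlip j i a ha a' ha'
    rw [haa, sub_self, norm_zero, mul_zero] at this
    exact sub_eq_zero.1 (norm_le_zero_iff.1 this)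
  have hF0 : ∀ j, ∀ a ∈ D, F j 0 a = a := by
    intro j a ha
    rw [hFe j 0 a ha, hP.xo _ (hactD j a ha), act_act hS.RR]
  have hFdist : ∀ j i, ∀ a ∈ D, dist (F j i a) (site2 R s (j, i)) < η := by
    intro j i a ha
    rw [hFe j i a ha]
    exact hP.dist_site (j, i) (hactD j a ha)
  have hsepD : ∀ j j' i, (j', i) ≠ (j, b) → Disjoint (F j b '' D) (F j' i '' D) := by
    intro j j' i hne
    rw [Set.disjoint_left]
    rintro _ ⟨a, ha, rfl⟩ ⟨a', ha', haa⟩
    have h1 := hFdist j b a ha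
    have h2 := hFdist j' i a' ha'
    rw [haa] at h2
    have h3 := hP.sep _ _ _ h2 h1
    have h4 := hS.eq_of_site2 (Or.inl rfl) h3
    exact hne (Prod.ext h4.1 h4.2)
  -- the potential
  set M : ℝ := 1 + ∑ i, |W (s i)| with hM
  set V : E → ℝ := VV R s (fpot s 0 l W p g) η with hV
  have hVm : Measurable V := by
    refine measurable_VV (fun i => ?_) η
    unfold fpot
    split_ifs
    · exact hgm
    · unfold qd quad
      fun_prop
  let U : E → ℝ≥0∞ := fun y => ENNReal.ofReal (min (V y + M) (2 * M))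
  have hUm : Measurable U := ((hVm.add_const M).min measurable_const).ennreal_ofReal
  have hUe : ∀ j i, ∀ a ∈ D, U (act R j (x a i)) = ENNReal.ofReal (V (act R j (x a i)) + M) := by
    intro j i a ha
    have := (hP.VV_bounds (j, i) ha).2
    show ENNReal.ofReal (min (V (act R j (x a i)) + M) (2 * M)) = _
    rw [min_eq_left this]
  -- representation of points of the union of the clusters
  have hrep : ∀ z : Fin N → E, (∀ k, z k ∈ ⋃ j, ⋃ i, F j i '' D) →
      ∃ (τ : Fin N → Fin 2 × Fin N) (c : Fin N → E), (∀ k, c k ∈ D) ∧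
        ∀ k, z k = act R (τ k).1 (x (c k) (τ k).2) := by
    intro z hz
    have h1 : ∀ k, ∃ t : Fin 2 × Fin N, ∃ c ∈ D, z k = act R t.1 (x c t.2) := by
      intro k
      obtain ⟨j, i, a, ha, haz⟩ := by simpa only [mem_iUnion, mem_image] using hz k
      refine ⟨(j, i), act R j a, hactD j a ha, ?_⟩
      rw [← haz, hFe j i a ha]
    choose τ c hc hzc using h1
    exact ⟨τ, c, hc, hzc⟩
  have hUsum : ∀ (τ : Fin N → Fin 2 × Fin N) (c : Fin N → E), (∀ k, c k ∈ D) →
      ∀ z : Fin N → E, (∀ k, z k = act R (τ k).1 (x (c k) (τ k).2)) →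
      ∑ k, U (z k) = ∑ k, ENNReal.ofReal (V (z k) + M) := by
    intro τ c hc z hz
    refine Finset.sum_congr rfl fun k _ => ?_
    rw [hz k]
    exact hUe _ _ _ (hc k)
  have main := abstractN ν D hDm hνD F hFm hFinj hF0 b hsepD U hUm (ENNReal.ofReal (2 * M))
    ENNReal.ofReal_ne_top (fun y => ENNReal.ofReal_le_ofReal (min_le_right _ _))
    (ENNReal.ofReal (N * M)) ENNReal.ofReal_ne_top ?_ ?_ ?_
  · refine ⟨measN ν F, main.1, ?_, ?_, main.2.1, main.2.2⟩
    · -- compact support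
      refine ⟨closedBall 0 (∑ i, ‖s i‖ + η), isCompact_closedBall _ _, ?_⟩
      have hS' := measN_ae_mem hDm hνD hFm hFinj
      have : ∀ᵐ y ∂(measN ν F), y ∈ closedBall (0 : E) (∑ i, ‖s i‖ + η) := by
        filter_upwards [hS'] with y hy
        obtain ⟨j, i, a, ha, haz⟩ := by simpa only [mem_iUnion, mem_image] using hy
        rw [mem_closedBall, dist_zero_right, ← haz, hFe j i a ha, norm_act]
        have h1 := hP.near _ (hactD j a ha) i
        have h2 : ‖s i‖ ≤ ∑ i, ‖s i‖ :=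
          Finset.single_le_sum (f := fun i => ‖s i‖) (fun i _ => norm_nonneg _)
            (Finset.mem_univ i)
        have h3 : ‖x (act R j a) i‖ ≤ ‖x (act R j a) i - s i‖ + ‖s i‖ := by
          have := norm_add_le (x (act R j a) i - s i) (s i)
          rwa [sub_add_cancel] at this
        linarith only [h1, h2, h3]
      rw [ae_iff] at this
      exact this
    · -- bounded density
      set c : ℝ≥0∞ := (volume D)⁻¹ * (Real.toNNReal Λ : ℝ≥0∞) ^ (Module.finrank ℝ E) with hc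
      have hcfin : c ≠ ∞ := ENNReal.mul_ne_top (ENNReal.inv_ne_top.2 hvD0)
        (ENNReal.pow_ne_top ENNReal.coe_ne_top)
      refine ⟨c.toNNReal, ?_⟩
      rw [Measure.le_iff]
      intro t ht
      have e1 : ((c.toNNReal • (volume : Measure E)) t) = c * volume t := by
        rw [Measure.smul_apply, ENNReal.smul_def, smul_eq_mul, ENNReal.coe_toNNReal hcfin]
      rw [e1, measN_apply ν hFm ht]
      have bi : ∀ j i, ν (F j i ⁻¹' t) ≤ c * volume t := by
        intro j i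
        have h1 := map_restrict_le (F j i) (hFm j i) D (Real.toNNReal Λ) (by
          intro a ha a' ha'
          rw [Real.coe_toNNReal _ hΛ.le]
          exact hFlip j i a ha a' ha')
        have h2 := (Measure.le_iff.1 h1) t ht
        rw [Measure.map_apply (hFm j i) ht, Measure.smul_apply, smul_eq_mul] at h2
        show ((volume D)⁻¹ • volume.restrict D) (F j i ⁻¹' t) ≤ _
        rw [Measure.smul_apply, smul_eq_mul, hc, mul_assoc]
        gcongr
      calc (2 * N : ℝ≥0∞)⁻¹ * ∑ j, ∑ i, ν (F j i ⁻¹' t)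
          ≤ (2 * N : ℝ≥0∞)⁻¹ * ∑ _j : Fin 2, ∑ _i : Fin N, c * volume t := by
            gcongr with j _ i _
            exact bi j i
        _ = ((2 * N : ℝ≥0∞)⁻¹ * (2 * N)) * (c * volume t) := by
            simp only [Finset.sum_const, Finset.card_univ, Fintype.card_fin, nsmul_eq_mul,
              Nat.cast_ofNat]
            ring
        _ = c * volume t := by
            rw [ENNReal.inv_mul_cancel two_N_ne_zero two_N_ne_top, one_mul]
  · intro z hz
    obtain ⟨τ, c, hc, hzc⟩ := hrep z hz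
    rw [hUsum τ c hc z hzc]
    exact (hP.main_ineq τ c hc z hzc).1
  · intro j a ha
    have hz : ∀ k, F j k a = act R ((fun k => (j, k) : Fin N → Fin 2 × Fin N) k).1
        (x ((fun _ => act R j a : Fin N → E) k) ((fun k => (j, k) : Fin N → Fin 2 × Fin N) k).2) :=
      fun k => hFe j k a ha
    have haD := hactD j a ha
    rw [hUsum _ _ (fun _ => haD) _ hz]
    have hrs := hP.rsep _ haD
    have hxinj : Function.Injective (x (act R j a)) := by
      intro i i' hii
      by_contra hne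
      have h1 := hrs i i' hne
      rw [hii, sub_self, norm_zero] at h1
      have := hP.hr
      linarith only [h1, this]
    have g3 := (good_branch (s := s) (o := 0) (W := W) hP.hr hP.hpr hrs hxinj rfl
      (hP.crit _ haD) (hP.hg _ haD)).2.2
    have hFa : (fun i => F j i a) = fun i => act R j (x (act R j a) i) :=
      funext fun i => hFe j i a ha
    have hFainj : Function.Injective (fun i => F j i a) := by
      rw [hFa]
      intro i i' hii
      exact hxinj (act_inj (R := R) j hii)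
    rw [coulombN_eq_ofReal hFainj, hFa, cRN_act,
      ← ENNReal.ofReal_add (cRN_nonneg _) (by (clear * -; positivity))]
    have hVe : ∀ k, V (F j k a) = fpot s 0 l W p g k (x (act R j a) k) := by
      intro k
      rw [hFe j k a ha]
      exact hP.VV_pt (j, k) haD
    have hnn : ∀ k, 0 ≤ V (F j k a) + M := by
      intro k
      rw [hFe j k a ha]
      exact (hP.VV_bounds (j, k) haD).1
    rw [← ENNReal.ofReal_sum_of_nonneg (fun k _ => hnn k), Finset.sum_add_distrib,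
      Finset.sum_const, Finset.card_univ, Fintype.card_fin, nsmul_eq_mul, g3]
    simp only [hVe]
  · intro z hz hz0 heq
    obtain ⟨τ, c, hc, hzc⟩ := hrep z hz
    rw [hUsum τ c hc z hzc] at heq
    obtain ⟨j, k, hk⟩ := (hP.main_ineq τ c hc z hzc).2 heq hz0
    exact ⟨j, k, by rw [hk, hFe j b _ hz0]⟩

end Final

end Vale.Agent.P121
end
end

section

section

open Set
open scoped RealInnerProductSpace

namespace Vale.Agent.P121

section energy

variable {E : Type*} [NormedAddCommGroup E] [DecidableEq E]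

/-- energy of a finite set of points. -/
noncomputable def En (X : Finset E) : ℝ := 1 / 2 * ∑ x ∈ X, ∑ y ∈ X, ‖x - y‖⁻¹

theorem En_union (A B : Finset E) (h : Disjoint A B) :
    En (A ∪ B) = En A + En B + ∑ b ∈ B, ∑ a ∈ A, ‖b - a‖⁻¹ := by
  unfold En
  rw [Finset.sum_union h]
  simp only [Finset.sum_union h, Finset.sum_add_distrib]
  have h2 : ∑ x ∈ A, ∑ y ∈ B, ‖x - y‖⁻¹ = ∑ b ∈ B, ∑ a ∈ A, ‖b - a‖⁻¹ := by
    rw [Finset.sum_comm]
    refine Finset.sum_congr rfl fun b _ => Finset.sum_congr rfl fun a _ => ?_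
    rw [norm_sub_rev]
  rw [h2]
  ring

theorem En_pair (a b : E) (h : a ≠ b) : En {a, b} = ‖a - b‖⁻¹ := by
  unfold En
  rw [Finset.sum_pair h, Finset.sum_pair h, Finset.sum_pair h]
  rw [sub_self, sub_self, norm_sub_rev b a]
  simp only [one_div, norm_zero, inv_zero, zero_add, add_zero]
  ring

theorem cRN_eq_En {N : ℕ} (q : Fin N → E) (hq : Function.Injective q) :
    cRN q = En (Finset.univ.image q) := by
  unfold cRN En
  rw [Finset.sum_image (fun a _ b _ h => hq h)]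
  congr 1
  refine Finset.sum_congr rfl fun i _ => ?_
  rw [Finset.sum_image (fun a _ b _ h => hq h)]

end energy

section LP

variable {E : Type*} [NormedAddCommGroup E] [DecidableEq E]

/-- preliminary weights. -/
noncomputable def wLP (Q O : Finset E) (x : E) : ℝ :=
  if x ∈ O then (∑ q ∈ Q, ‖x - q‖⁻¹) + 1 / 4 else 1 / 2 * ∑ q ∈ Q, ‖x - q‖⁻¹

theorem wLP_nonneg (Q O : Finset E) (x : E) : 0 ≤ wLP Q O x := by
  unfold wLP
  have : 0 ≤ ∑ q ∈ Q, ‖x - q‖⁻¹ := Finset.sum_nonneg fun q _ => by positivity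
  split_ifs <;> positivity

/-- the weights. -/
noncomputable def WLP (Q O : Finset E) (x : E) : ℝ :=
  if x ∈ O then wLP Q O x - (Q.card : ℝ) / 2 * ∑ y ∈ Q ∪ O, wLP Q O y
  else wLP Q O x + ∑ y ∈ Q ∪ O, wLP Q O y

theorem sum_WLP (Q O : Finset E) (hQO : Disjoint Q O) (A B : Finset E) (hA : A ⊆ Q) (hB : B ⊆ O) :
    ∑ x ∈ A ∪ B, WLP Q O x = ∑ x ∈ A ∪ B, wLP Q O x +
      ((A.card : ℝ) - (B.card : ℝ) * ((Q.card : ℝ) / 2)) * ∑ y ∈ Q ∪ O, wLP Q O y := by
  have hAB : Disjoint A B := Disjoint.mono hA hB hQO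
  rw [Finset.sum_union hAB, Finset.sum_union hAB]
  have h1 : ∑ x ∈ A, WLP Q O x = ∑ x ∈ A, wLP Q O x + A.card * ∑ y ∈ Q ∪ O, wLP Q O y := by
    rw [← nsmul_eq_mul, ← Finset.sum_const, ← Finset.sum_add_distrib]
    refine Finset.sum_congr rfl fun x hx => ?_
    have : x ∉ O := Finset.disjoint_left.mp hQO (hA hx)
    simp [WLP, this]
  have h2 : ∑ x ∈ B, WLP Q O x = ∑ x ∈ B, wLP Q O x
      + B.card * (-((Q.card : ℝ) / 2 * ∑ y ∈ Q ∪ O, wLP Q O y)) := by
    rw [← nsmul_eq_mul, ← Finset.sum_const, ← Finset.sum_add_distrib]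
    refine Finset.sum_congr rfl fun x hx => ?_
    have : x ∈ O := hB hx
    simp only [WLP, this, ↓reduceIte]
    ring
  rw [h1, h2]
  ring

/-- the weights of `Q ∪ {a, b}` against its energy. -/
theorem sum_WLP_pair (Q O : Finset E) (hQO : Disjoint Q O) (a b : E) (ha : a ∈ O) (hb : b ∈ O)
    (hab : a ≠ b) :
    ∑ x ∈ Q ∪ {a, b}, WLP Q O x = En (Q ∪ {a, b}) + 1 / 2 - ‖a - b‖⁻¹ := by
  have hB : ({a, b} : Finset E) ⊆ O := by
    intro x hx
    simp only [Finset.mem_insert, Finset.mem_singleton] at hx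
    rcases hx with rfl | rfl <;> assumption
  have hd : Disjoint Q {a, b} := Disjoint.mono_right hB hQO
  rw [sum_WLP Q O hQO Q {a, b} (Finset.Subset.refl _) hB, En_union Q _ hd, En_pair a b hab,
    Finset.card_pair hab, Finset.sum_union hd, Finset.sum_pair hab, Finset.sum_pair hab]
  have h1 : ∑ x ∈ Q, wLP Q O x = En Q := by
    unfold En
    rw [Finset.mul_sum]
    refine Finset.sum_congr rfl fun x hx => ?_
    have : x ∉ O := Finset.disjoint_left.mp hQO hx
    simp only [wLP, this, ↓reduceIte, one_div]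
  have h2 : ∀ c ∈ O, wLP Q O c = ∑ q ∈ Q, ‖c - q‖⁻¹ + 1 / 4 := by
    intro c hc
    simp [wLP, hc]
  rw [h1, h2 a ha, h2 b hb]
  push_cast
  ring

theorem discrete_LP (Q O : Finset E) (hQO : Disjoint Q O) (hQ : 1 ≤ Q.card) (hO : 2 ≤ O.card)
    (hdiam : ∀ a ∈ O, ∀ b ∈ O, ‖a - b‖ ≤ 2) (X : Finset E) (hX : X ⊆ Q ∪ O)
    (hcard : X.card = Q.card + 2) :
    (∃ a ∈ O, ∃ b ∈ O, ‖a - b‖ = 2 ∧ X = Q ∪ {a, b}) ∨ ∑ x ∈ X, WLP Q O x < En X := by
  set A := X ∩ Q with hA
  set B := X ∩ O with hB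
  have hAQ : A ⊆ Q := Finset.inter_subset_right
  have hBO : B ⊆ O := Finset.inter_subset_right
  have hXAB : X = A ∪ B := by
    rw [hA, hB, ← Finset.inter_union_distrib_left]
    exact (Finset.inter_eq_left.mpr hX).symm
  have hAB : Disjoint A B := Disjoint.mono hAQ hBO hQO
  have hc : A.card + B.card = Q.card + 2 := by
    rw [← hcard, hXAB, Finset.card_union_of_disjoint hAB]
  by_cases hk : A = Q
  · have hBc : B.card = 2 := by
      rw [hk] at hc; omega
    obtain ⟨a, b, hab, hBab⟩ := Finset.card_eq_two.mp hBc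
    have ha : a ∈ O := hBO (by rw [hBab]; simp)
    have hb : b ∈ O := hBO (by rw [hBab]; simp)
    rw [hk, hBab] at hXAB
    by_cases h2 : ‖a - b‖ = 2
    · exact Or.inl ⟨a, ha, b, hb, h2, hXAB⟩
    · right
      have h3 : ‖a - b‖ < 2 := lt_of_le_of_ne (hdiam a ha b hb) h2
      have h4 : 0 < ‖a - b‖ := norm_pos_iff.mpr (sub_ne_zero.mpr hab)
      have h5 : (1 / 2 : ℝ) < ‖a - b‖⁻¹ := by
        rw [lt_inv_comm₀ (by norm_num) h4]
        norm_num
        exact h3
      rw [hXAB, sum_WLP_pair Q O hQO a b ha hb hab]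
      linarith only [h5]
  · right
    have hAlt : A.card < Q.card := Finset.card_lt_card (Finset.ssubset_iff_subset_ne.mpr ⟨hAQ, hk⟩)
    set t := ∑ y ∈ Q ∪ O, wLP Q O y with ht
    have hle : ∑ x ∈ A ∪ B, wLP Q O x ≤ t :=
      Finset.sum_le_sum_of_subset_of_nonneg (by rw [← hXAB]; exact hX)
        (fun x _ _ => wLP_nonneg Q O x)
    obtain ⟨o, ho⟩ : O.Nonempty := Finset.card_pos.mp (by omega)
    have htpos : 0 < t := by
      have h1 : wLP Q O o ≤ t :=
        Finset.single_le_sum (f := wLP Q O) (fun x _ => wLP_nonneg Q O x)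
          (Finset.mem_union_right _ ho)
      have h2 : (1 / 4 : ℝ) ≤ wLP Q O o := by
        have : 0 ≤ ∑ q ∈ Q, ‖o - q‖⁻¹ := Finset.sum_nonneg fun q _ => by (clear * -; positivity)
        simp only [wLP, ho, if_true]
        linarith only [this]
      linarith only [h1, h2]
    have hEn : 0 ≤ En X := by
      unfold En
      refine mul_nonneg (by norm_num) (Finset.sum_nonneg fun x _ => Finset.sum_nonneg fun y _ => ?_)
      (clear * -; positivity)
    rw [hXAB] at hEn ⊢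
    rw [sum_WLP Q O hQO A B hAQ hBO]
    have hcR : (A.card : ℝ) + B.card = Q.card + 2 := by exact_mod_cast hc
    have hAR : (A.card : ℝ) + 1 ≤ Q.card := by exact_mod_cast hAlt
    have hQR : (1 : ℝ) ≤ Q.card := by exact_mod_cast hQ
    have hcoef : (A.card : ℝ) - (B.card : ℝ) * ((Q.card : ℝ) / 2) ≤ -(3 / 2) := by
      have : (B.card : ℝ) = Q.card + 2 - A.card := by linarith only [hcR]
      rw [this]
      nlinarith only [hAR]
    nlinarith only [hle, htpos, hEn, hcoef]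

end LP


section sites

variable {E : Type*} [NormedAddCommGroup E] [InnerProductSpace ℝ E]

/-- the sites of the first branch. -/
noncomputable def siteN (N : ℕ) (e₁ e₂ : E) : Fin N → E := fun i =>
  if (i : ℕ) = 1 then e₁ else if (i : ℕ) = 2 then -e₁ else ((i : ℕ) : ℝ) • (e₁ + e₂)

theorem siteN_inner {N : ℕ} {e₁ e₂ : E} (h1 : ‖e₁‖ = 1) (h2 : ‖e₂‖ = 1) (h12 : ⟪e₁, e₂⟫ = 0)
    (i : Fin N) : ⟪e₁, siteN N e₁ e₂ i⟫ = (if (i : ℕ) = 1 then 1 else if (i : ℕ) = 2 then -1
        else (i : ℝ)) ∧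
      ⟪e₂, siteN N e₁ e₂ i⟫ = (if (i : ℕ) = 1 then 0 else if (i : ℕ) = 2 then 0
        else (i : ℝ)) := by
  have h21 : ⟪e₂, e₁⟫ = 0 := by rw [real_inner_comm]; exact h12
  unfold siteN
  split_ifs <;>
    simp [inner_add_right, real_inner_smul_right, h12, h21, h1, h2, inner_neg_right]

theorem siteN_injective {N : ℕ} {e₁ e₂ : E} (h1 : ‖e₁‖ = 1) (h2 : ‖e₂‖ = 1)
    (h12 : ⟪e₁, e₂⟫ = 0) : Function.Injective (siteN N e₁ e₂) := by
  intro i j hij
  obtain ⟨a1, a2⟩ := siteN_inner h1 h2 h12 i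
  obtain ⟨b1, b2⟩ := siteN_inner h1 h2 h12 j
  rw [hij] at a1 a2
  have c1 := a1.symm.trans b1
  have c2 := a2.symm.trans b2
  apply Fin.ext
  split_ifs at c1 c2 <;> first
    | omega
    | (norm_num at c1; done)
    | (norm_num at c2; done)
    | (exact_mod_cast c2)
    | (exfalso; have h0 : ((i : ℕ) : ℝ) = 0 := by linarith only [c1, c2]
       rw [h0] at c1; norm_num at c1)
    | (exfalso; have h0 : ((j : ℕ) : ℝ) = 0 := by linarith only [c1, c2]
       rw [h0] at c1; norm_num at c1)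

theorem exists_perm_of_image_subset {N : ℕ} {q t : Fin N → E} (hq : Function.Injective q)
    (h : ∀ i, ∃ j, q i = t j) : ∃ σ : Equiv.Perm (Fin N), q = t ∘ σ := by
  choose f hf using h
  have hinj : Function.Injective f := by
    intro i j hij
    apply hq
    rw [hf i, hf j, hij]
  have hbij : Function.Bijective f := Finite.injective_iff_bijective.mp hinj
  exact ⟨Equiv.ofBijective f hbij, funext fun i => hf i⟩

/-- The discrete optimisation statement for the site configuration. -/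
theorem sitesN {N : ℕ} (hN : 3 ≤ N) {e₁ e₂ : E} (h1 : ‖e₁‖ = 1) (h2 : ‖e₂‖ = 1)
    (h12 : ⟪e₁, e₂⟫ = 0) (R : E ≃ₗᵢ[ℝ] E) (hR : R e₁ = e₂) (hR' : R e₂ = e₁) :
    ∃ W : E → ℝ, (∀ i, W (R (siteN N e₁ e₂ i)) = W (siteN N e₁ e₂ i)) ∧
      (∑ i, W (siteN N e₁ e₂ i) = cRN (siteN N e₁ e₂)) ∧
      ∀ q : Fin N → E, Function.Injective q →
        (∀ i, ∃ j, q i = siteN N e₁ e₂ j ∨ q i = R (siteN N e₁ e₂ j)) →
        (∃ σ : Equiv.Perm (Fin N), q = siteN N e₁ e₂ ∘ σ) ∨
        (∃ σ : Equiv.Perm (Fin N), q = R ∘ siteN N e₁ e₂ ∘ σ) ∨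
        ∑ i, W (q i) < cRN q := by
  classical
  have h21 : ⟪e₂, e₁⟫ = 0 := by rw [real_inner_comm]; exact h12
  set s := siteN N e₁ e₂ with hs
  have hsinj : Function.Injective s := siteN_injective h1 h2 h12
  let I : Finset (Fin N) := Finset.univ.filter (fun i : Fin N => (i : ℕ) ≠ 1 ∧ (i : ℕ) ≠ 2)
  let Q : Finset E := I.image s
  let O : Finset E := {e₁, -e₁, e₂, -e₂}
  let i1 : Fin N := ⟨1, by omega⟩
  let i2 : Fin N := ⟨2, by omega⟩
  have hs1 : s i1 = e₁ := by simp [hs, siteN, i1]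
  have hs2 : s i2 = -e₁ := by simp [hs, siteN, i2]
  have hsI : ∀ i ∈ I, s i = ((i : ℕ) : ℝ) • (e₁ + e₂) := by
    intro i hi
    simp only [I, Finset.mem_filter, Finset.mem_univ, true_and] at hi
    simp only [hs, siteN, hi.1, ↓reduceIte, hi.2, smul_add]
  have hRI : ∀ i ∈ I, R (s i) = s i := by
    intro i hi
    rw [hsI i hi, map_smul, map_add, hR, hR', add_comm]
  have hcases : ∀ i : Fin N, i = i1 ∨ i = i2 ∨ i ∈ I := by
    intro i
    by_cases a : (i : ℕ) = 1
    · exact Or.inl (Fin.ext a)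
    by_cases b : (i : ℕ) = 2
    · exact Or.inr (Or.inl (Fin.ext b))
    · right; right
      simp only [ne_eq, Finset.mem_filter, Finset.mem_univ, a, not_false_eq_true, b, and_self, I]
  have hi12 : i1 ≠ i2 := by
    intro h; simpa [i1, i2] using congrArg Fin.val h
  have hi1I : i1 ∉ I := by simp only [ne_eq, Finset.mem_filter, Finset.mem_univ, not_true_eq_false, OfNat.one_ne_ofNat, not_false_eq_true, and_true, and_false, I, i1]
  have hi2I : i2 ∉ I := by simp only [ne_eq, Finset.mem_filter, Finset.mem_univ, OfNat.ofNat_ne_one, not_false_eq_true, not_true_eq_false, and_false, I, i2]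
  have hIcard : I.card + 2 = N := by
    have : (Finset.univ : Finset (Fin N)) = insert i1 (insert i2 I) := by
      ext i
      simp only [Finset.mem_univ, Finset.mem_insert, true_iff]
      exact hcases i
    have h3 := congrArg Finset.card this
    rw [Finset.card_insert_of_notMem (by simp [hi12, hi1I]),
      Finset.card_insert_of_notMem hi2I, Finset.card_univ, Fintype.card_fin] at h3
    omega
  have hQcard : Q.card = I.card := Finset.card_image_of_injective _ hsinj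
  have hQO : Disjoint Q O := by
    rw [Finset.disjoint_left]
    intro x hx hxO
    obtain ⟨i, hi, rfl⟩ := Finset.mem_image.mp hx
    have a := hsI i hi
    have b1 : ⟪e₁, s i⟫ = (i : ℝ) := by
      rw [a, real_inner_smul_right, inner_add_right, h12, real_inner_self_eq_norm_sq, h1]; simp
    have b2 : ⟪e₂, s i⟫ = (i : ℝ) := by
      rw [a, real_inner_smul_right, inner_add_right, h21, real_inner_self_eq_norm_sq, h2]; simp
    simp only [O, Finset.mem_insert, Finset.mem_singleton] at hxO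
    rcases hxO with h | h | h | h <;> rw [h] at b1 b2 <;>
      simp [h12, h21, h1, h2, inner_neg_right] at b1 b2 <;>
      rw [← b1] at b2 <;> norm_num at b2
  have k9 : ‖e₁ + e₁‖ = 2 := by rw [← two_smul ℝ, norm_smul, h1]; norm_num
  have k10 : ‖e₂ + e₂‖ = 2 := by rw [← two_smul ℝ, norm_smul, h2]; norm_num
  have k11 : ‖-e₁ - e₁‖ = 2 := by rw [← neg_add', norm_neg]; exact k9
  have k12 : ‖-e₂ - e₂‖ = 2 := by rw [← neg_add', norm_neg]; exact k10
  have k1 : ‖e₁ - e₂‖ < 2 := by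
    have := norm_sub_sq_real e₁ e₂
    rw [h1, h2, h12] at this
    have h0 := norm_nonneg (e₁ - e₂)
    nlinarith only [this]
  have k2 : ‖e₁ + e₂‖ < 2 := by
    have := norm_add_sq_real e₁ e₂
    rw [h1, h2, h12] at this
    have h0 := norm_nonneg (e₁ + e₂)
    nlinarith only [this]
  have k3 : ‖e₂ - e₁‖ < 2 := by rw [norm_sub_rev]; exact k1
  have k4 : ‖e₂ + e₁‖ < 2 := by rw [add_comm]; exact k2
  have k5 : ‖-e₁ - e₂‖ < 2 := by rw [← neg_add', norm_neg]; exact k2
  have k6 : ‖-e₂ - e₁‖ < 2 := by rw [← neg_add', norm_neg]; exact k4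
  have k7 : ‖-e₁ + e₂‖ < 2 := by rw [neg_add_eq_sub]; exact k3
  have k8 : ‖-e₂ + e₁‖ < 2 := by rw [neg_add_eq_sub]; exact k1
  have hpairs : ∀ a ∈ O, ∀ b ∈ O, ‖a - b‖ ≤ 2 ∧ (‖a - b‖ = 2 →
      (({a, b} : Finset E) = {e₁, -e₁} ∨ ({a, b} : Finset E) = {e₂, -e₂})) := by
    intro a ha b hb
    simp only [O, Finset.mem_insert, Finset.mem_singleton] at ha hb
    rcases ha with rfl | rfl | rfl | rfl <;> rcases hb with rfl | rfl | rfl | rfl <;>
      (try simp only [sub_neg_eq_add, sub_self, neg_add_cancel, norm_zero, k9, k10, k11, k12]) <;>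
      first
        | exact ⟨le_rfl, fun _ => Or.inl rfl⟩
        | exact ⟨le_rfl, fun _ => Or.inr rfl⟩
        | exact ⟨le_rfl, fun _ => Or.inl (Finset.pair_comm _ _)⟩
        | exact ⟨le_rfl, fun _ => Or.inr (Finset.pair_comm _ _)⟩
        | exact ⟨k1.le, fun h => absurd h k1.ne⟩
        | exact ⟨k2.le, fun h => absurd h k2.ne⟩
        | exact ⟨k3.le, fun h => absurd h k3.ne⟩
        | exact ⟨k4.le, fun h => absurd h k4.ne⟩
        | exact ⟨k5.le, fun h => absurd h k5.ne⟩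
        | exact ⟨k6.le, fun h => absurd h k6.ne⟩
        | exact ⟨k7.le, fun h => absurd h k7.ne⟩
        | exact ⟨k8.le, fun h => absurd h k8.ne⟩
        | exact ⟨le_rfl, fun _ => Or.inl trivial⟩
        | exact ⟨le_rfl, fun _ => Or.inr trivial⟩
        | exact ⟨zero_le_two, fun h => absurd h.symm two_ne_zero⟩
  have he1O : e₁ ∈ O := by simp only [Finset.mem_insert, Finset.mem_singleton, true_or, O]
  have hne1O : -e₁ ∈ O := by simp only [Finset.mem_insert, Finset.mem_singleton, neg_inj, true_or, or_true, O]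
  have he2O : e₂ ∈ O := by simp only [Finset.mem_insert, Finset.mem_singleton, true_or, or_true, O]
  have hne2O : -e₂ ∈ O := by simp only [Finset.mem_insert, neg_inj, Finset.mem_singleton, or_true, O]
  have hne1 : e₁ ≠ -e₁ := by
    intro h
    have h3 : ‖e₁ - -e₁‖ = 0 := by rw [← h, sub_self, norm_zero]
    rw [sub_neg_eq_add, k9] at h3
    norm_num at h3
  have himg1 : Finset.univ.image s = Q ∪ {e₁, -e₁} := by
    ext x
    simp only [Finset.mem_image, Finset.mem_univ, true_and, Finset.mem_union, Finset.mem_insert,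
      Finset.mem_singleton, Q]
    constructor
    · rintro ⟨i, rfl⟩
      rcases hcases i with rfl | rfl | hi
      · exact Or.inr (Or.inl hs1)
      · exact Or.inr (Or.inr hs2)
      · exact Or.inl ⟨i, hi, rfl⟩
    · rintro (⟨i, hi, rfl⟩ | rfl | rfl)
      · exact ⟨i, rfl⟩
      · exact ⟨i1, hs1⟩
      · exact ⟨i2, hs2⟩
  have himg2 : Finset.univ.image (R ∘ s) = Q ∪ {e₂, -e₂} := by
    ext x
    simp only [Finset.mem_image, Finset.mem_univ, true_and, Finset.mem_union, Finset.mem_insert,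
      Finset.mem_singleton, Q, Function.comp]
    constructor
    · rintro ⟨i, rfl⟩
      rcases hcases i with rfl | rfl | hi
      · exact Or.inr (Or.inl (by rw [hs1, hR]))
      · exact Or.inr (Or.inr (by rw [hs2, map_neg, hR]))
      · exact Or.inl ⟨i, hi, (hRI i hi).symm⟩
    · rintro (⟨i, hi, rfl⟩ | rfl | rfl)
      · exact ⟨i, hRI i hi⟩
      · exact ⟨i1, by rw [hs1, hR]⟩
      · exact ⟨i2, by rw [hs2, map_neg, hR]⟩
  have hRQ : ∀ x : E, ∑ q ∈ Q, ‖R x - q‖⁻¹ = ∑ q ∈ Q, ‖x - q‖⁻¹ := by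
    intro x
    refine Finset.sum_congr rfl fun q hq => ?_
    obtain ⟨i, hi, rfl⟩ := Finset.mem_image.mp hq
    conv_lhs => rw [← hRI i hi]
    rw [← map_sub, LinearIsometryEquiv.norm_map]
  have hWO : ∀ x, x ∈ O → R x ∈ O → WLP Q O (R x) = WLP Q O x := by
    intro x hx hRx
    simp only [WLP, wLP, hx, hRx, if_true, hRQ x]
  refine ⟨WLP Q O, ?_, ?_, ?_⟩
  · intro i
    rcases hcases i with rfl | rfl | hi
    · rw [hs1]
      exact hWO _ he1O (by rw [hR]; exact he2O)
    · rw [hs2]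
      exact hWO _ hne1O (by rw [map_neg, hR]; exact hne2O)
    · rw [hRI i hi]
  · rw [cRN_eq_En s hsinj, himg1, ← Finset.sum_image (f := WLP Q O) (fun a _ b _ h => hsinj h),
      himg1, sum_WLP_pair Q O hQO e₁ (-e₁) he1O hne1O hne1, sub_neg_eq_add e₁ e₁, k9]
    norm_num
  · intro q hq hqs
    have hcardX : (Finset.univ.image q).card = Q.card + 2 := by
      rw [Finset.card_image_of_injective _ hq, Finset.card_univ, Fintype.card_fin, hQcard, hIcard]
    have hXsub : Finset.univ.image q ⊆ Q ∪ O := by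
      intro x hx
      obtain ⟨i, -, rfl⟩ := Finset.mem_image.mp hx
      obtain ⟨j, hj⟩ := hqs i
      rcases hj with hj | hj
      · have : q i ∈ Finset.univ.image s := by rw [hj]; exact Finset.mem_image_of_mem _ (Finset.mem_univ j)
        rw [himg1] at this
        refine Finset.union_subset_union_right ?_ this
        intro y hy
        simp only [Finset.mem_insert, Finset.mem_singleton] at hy
        rcases hy with rfl | rfl <;> assumption
      · have : q i ∈ Finset.univ.image (R ∘ s) := by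
          rw [hj]; exact Finset.mem_image_of_mem (R ∘ s) (Finset.mem_univ j)
        rw [himg2] at this
        refine Finset.union_subset_union_right ?_ this
        intro y hy
        simp only [Finset.mem_insert, Finset.mem_singleton] at hy
        rcases hy with rfl | rfl <;> assumption
    have hOcard : 2 ≤ O.card := by
      have : ({e₁, -e₁} : Finset E) ⊆ O := by
        intro y hy
        simp only [Finset.mem_insert, Finset.mem_singleton] at hy
        rcases hy with rfl | rfl <;> assumption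
      rw [← Finset.card_pair hne1]
      exact Finset.card_le_card this
    rcases discrete_LP Q O hQO (by rw [hQcard]; omega) hOcard
      (fun a ha b hb => (hpairs a ha b hb).1) _ hXsub hcardX with ⟨a, ha, b, hb, hab, hX⟩ | hlt
    · rcases (hpairs a ha b hb).2 hab with h3 | h3
      · left
        apply exists_perm_of_image_subset hq
        intro i
        have : q i ∈ Finset.univ.image s := by
          rw [himg1, ← h3, ← hX]; exact Finset.mem_image_of_mem _ (Finset.mem_univ i)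
        obtain ⟨j, -, hj⟩ := Finset.mem_image.mp this
        exact ⟨j, hj.symm⟩
      · right; left
        apply exists_perm_of_image_subset (t := R ∘ s) hq
        intro i
        have : q i ∈ Finset.univ.image (R ∘ s) := by
          rw [himg2, ← h3, ← hX]; exact Finset.mem_image_of_mem _ (Finset.mem_univ i)
        obtain ⟨j, -, hj⟩ := Finset.mem_image.mp this
        exact ⟨j, hj.symm⟩
    · right; right
      rw [cRN_eq_En q hq]
      rwa [Finset.sum_image (fun a _ b _ h => hq h)] at hlt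

end sites

end Vale.Agent.P121
end
end

section

section

open Set
open scoped RealInnerProductSpace

namespace Vale.Agent.P121

variable {E : Type*} [NormedAddCommGroup E] [InnerProductSpace ℝ E]

theorem G_isometry (R : E ≃ₗᵢ[ℝ] E) (v : E) : R (G v) = G (R v) := by
  rw [G, G, LinearIsometryEquiv.norm_map, map_smul]

theorem exists_sites {N : ℕ} (hN : 3 ≤ N) {e₁ e₂ : E} (h1 : ‖e₁‖ = 1) (h2 : ‖e₂‖ = 1)
    (h12 : ⟪e₁, e₂⟫ = 0) :
    ∃ (R : E ≃ₗᵢ[ℝ] E) (W : E → ℝ),
      Sites R (siteN N e₁ e₂) ⟨0, by omega⟩ ⟨1, by omega⟩ ⟨2, by omega⟩ W := by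
  classical
  have h21 : ⟪e₂, e₁⟫ = 0 := by rw [real_inner_comm]; exact h12
  let R : E ≃ₗᵢ[ℝ] E := (ℝ ∙ (e₁ - e₂))ᗮ.reflection
  have hR : R e₁ = e₂ := Submodule.reflection_sub (by rw [h1, h2])
  have hRR : ∀ x, R (R x) = x := fun x => Submodule.reflection_reflection _ _
  have hR' : R e₂ = e₁ := by rw [← hR, hRR]
  clear_value R
  obtain ⟨W, hW1, hW2, hW3⟩ := sitesN hN h1 h2 h12 R hR hR'
  set s := siteN N e₁ e₂ with hs
  let i1 : Fin N := ⟨1, by omega⟩
  let i2 : Fin N := ⟨2, by omega⟩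
  have hs1 : s i1 = e₁ := by simp [hs, siteN, i1]
  have hs2 : s i2 = -e₁ := by simp [hs, siteN, i2]
  have hsI : ∀ i : Fin N, (i : ℕ) ≠ 1 → (i : ℕ) ≠ 2 → s i = ((i : ℕ) : ℝ) • (e₁ + e₂) := by
    intro i hi hi'
    simp [hs, siteN, hi, hi']
  have hfix : ∀ i : Fin N, (i : ℕ) ≠ 1 → (i : ℕ) ≠ 2 → R (s i) = s i := by
    intro i hi hi'
    rw [hsI i hi hi', map_smul, map_add, hR, hR', add_comm]
  have hs0 : s ⟨0, by omega⟩ = 0 := by
    rw [hsI _ (by simp) (by simp)]; simp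
  refine ⟨R, W, hRR, siteN_injective h1 h2 h12, ?_, ?_, ?_, hs0, ?_, ?_, ?_, hW1, hW2, ?_⟩
  · intro h; simpa using congrArg Fin.val h
  · intro h; simpa using congrArg Fin.val h
  · intro h; simpa using congrArg Fin.val h
  · -- sep
    intro i i' h
    have a := siteN_inner h1 h2 h12 i
    have b := siteN_inner h1 h2 h12 i'
    rw [← hs] at a b
    have c1 : ⟪e₁, s i'⟫ = ⟪e₂, s i⟫ := by
      rw [← h, ← hR', LinearIsometryEquiv.inner_map_map]
    have c2 : ⟪e₂, s i'⟫ = ⟪e₁, s i⟫ := by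
      rw [← h]
      conv_lhs => rw [← hR]
      rw [LinearIsometryEquiv.inner_map_map]
    rw [a.2, b.1] at c1
    rw [a.1, b.2] at c2
    have key : (i : ℕ) = i' ∧ (i : ℕ) ≠ 1 ∧ (i : ℕ) ≠ 2 := by
      split_ifs at c1 c2 <;> first
        | (norm_num at c1; done)
        | (norm_num at c2; done)
        | (refine ⟨by exact_mod_cast c2.symm, by assumption, by assumption⟩)
        | (exfalso; rw [c1] at c2; norm_num at c2)
        | (exfalso; rw [← c1] at c2; norm_num at c2)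
    refine ⟨Fin.ext key.1, ?_, ?_⟩
    · intro hh; exact key.2.1 (by rw [hh])
    · intro hh; exact key.2.2 (by rw [hh])
  · -- fix
    intro i hi hi'
    exact hfix i (fun h => hi (Fin.ext h)) (fun h => hi' (Fin.ext h))
  · -- force_fix
    have hf : force s ⟨0, by omega⟩ = ∑ j, G (s j) := by
      unfold force
      simp only [hs0, sub_zero]
    rw [hf, map_sum]
    have key : ∀ f : Fin N → E, ∑ j, f j = f i1 + (f i2 +
        ∑ j ∈ Finset.univ.filter (fun i : Fin N => (i : ℕ) ≠ 1 ∧ (i : ℕ) ≠ 2), f j) := by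
      intro f
      have : (Finset.univ : Finset (Fin N)) = insert i1 (insert i2
          (Finset.univ.filter (fun i : Fin N => (i : ℕ) ≠ 1 ∧ (i : ℕ) ≠ 2))) := by
        ext i
        simp only [Finset.mem_univ, Finset.mem_insert, true_iff, Finset.mem_filter, true_and]
        by_cases a : (i : ℕ) = 1
        · exact Or.inl (Fin.ext a)
        by_cases b : (i : ℕ) = 2
        · exact Or.inr (Or.inl (Fin.ext b))
        · exact Or.inr (Or.inr ⟨a, b⟩)
      conv_lhs => rw [this]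
      rw [Finset.sum_insert, Finset.sum_insert]
      · simp only [ne_eq, Finset.mem_filter, Finset.mem_univ, OfNat.ofNat_ne_one, not_false_eq_true, not_true_eq_false, and_false, i2]
      · simp only [ne_eq, Finset.mem_insert, Fin.mk.injEq, OfNat.one_ne_ofNat, Finset.mem_filter, Finset.mem_univ, not_true_eq_false, not_false_eq_true, and_true, and_false, or_self, i2, i1]
    rw [key, key, hs1, hs2]
    have h3 : ∑ j ∈ Finset.univ.filter (fun i : Fin N => (i : ℕ) ≠ 1 ∧ (i : ℕ) ≠ 2), R (G (s j))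
        = ∑ j ∈ Finset.univ.filter (fun i : Fin N => (i : ℕ) ≠ 1 ∧ (i : ℕ) ≠ 2), G (s j) := by
      refine Finset.sum_congr rfl fun j hj => ?_
      simp only [Finset.mem_filter, Finset.mem_univ, true_and] at hj
      rw [G_isometry, hfix j hj.1 hj.2]
    rw [h3, G_neg, map_neg]
    abel
  · -- lp
    intro τ hτ
    have h := hW3 (fun k => site2 R s (τ k)) hτ (by
      intro k
      refine ⟨(τ k).2, ?_⟩
      unfold site2 act
      split_ifs
      · exact Or.inl rfl
      · exact Or.inr rfl)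
    rcases h with ⟨σ, hσ⟩ | ⟨σ, hσ⟩ | h
    · exact Or.inl ⟨0, σ, fun k => congrFun hσ k⟩
    · exact Or.inl ⟨1, σ, fun k => congrFun hσ k⟩
    · exact Or.inr h

end Vale.Agent.P121
end
end

section

section

open MeasureTheory Set Filter Topology Metric
open scoped RealInnerProductSpace ENNReal NNReal

namespace Vale.Agent.P121

theorem main_general {E : Type*} [NormedAddCommGroup E] [InnerProductSpace ℝ E]
    [FiniteDimensional ℝ E] [MeasurableSpace E] [BorelSpace E] {N : ℕ} (hN : 3 ≤ N)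
    {e₁ e₂ : E} (h1 : ‖e₁‖ = 1) (h2 : ‖e₂‖ = 1) (h12 : ⟪e₁, e₂⟫ = 0) :
    ∃ μ : Measure E, IsProbabilityMeasure μ ∧ (∃ S, IsCompact S ∧ μ Sᶜ = 0) ∧
      (∃ C : ℝ≥0, μ ≤ C • (volume : Measure E)) ∧ kantorovichN N μ ≠ ∞ ∧
      ∀ T : Fin N → E → E, IsMongeN μ T → mongeCostN μ T ≠ kantorovichN N μ := by
  haveI : NeZero N := ⟨by omega⟩
  obtain ⟨R, W, hS⟩ := exists_sites hN h1 h2 h12
  have h0 : (⟨0, by omega⟩ : Fin N) = 0 := Fin.ext (by simp)
  rw [h0] at hS
  exact main_of_sites hS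

end Vale.Agent.P121
end
end
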